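import Vale.Agent.P174.Param

/-! The topological input: prescribed eigenvalues for twisted block sums of unitaries. -/

open Finset Function Matrix Complex MeasureTheory
open scoped ContDiff Real

namespace Vale.Agent.P174

variable {m n : ℕ}

lemma prod_deg (L : List (Fin m × Fin n)) (x : Co m n → ℝ) :
    (∀ S, (L.map fun q => xk (2 * q.2 + 1) (pq q) x).prod ∈ Deg S 0) ∧
    ∀ q ∈ L, (L.map fun q => xk (2 * q.2 + 1) (pq q) x).prod ∈
      Deg (insert (cψ q) (Sv q)) (2 * q.2 + 1) := by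
  induction L with
  | nil => exact ⟨fun S => Deg.one S, by simp⟩
  | cons q L ih =>
    simp only [List.map_cons, List.prod_cons, List.mem_cons]
    refine ⟨fun S => Deg.mul (xk_deg_zero _ S _ x) (ih.1 S), ?_⟩
    rintro q' (rfl | h)
    · exact Deg.mul (l := 0) (xk_mem_Deg (pq_sm _) (dep_pq _) _ x) (ih.1 _)
    · simpa using Deg.mul (xk_deg_zero _ _ _ x) (ih.2 q' h)

lemma card_Sq (q : Fin m × Fin n) : (insert (cψ q) (Sv q)).card ≤ 2 * q.2 + 1 :=
  (card_insert_le _ _).trans (Nat.succ_le_succ (card_Sv q))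

lemma triangular (L : List (Fin m × Fin n)) (h1 : L.Pairwise fun a b => a.2 ≤ b.2)
    (h2 : ∀ q ∈ L, ∀ q' : Fin m × Fin n, q.2 < q'.2 → q' ∈ L) (x : Co m n → ℝ) :
    (L.map fun q => ∑ l, xk (2 * q.2 + 1) (pq (q.1, l)) x).prod =
      (L.map fun q => xk (2 * q.2 + 1) (pq q) x).prod := by
  induction L with
  | nil => rfl
  | cons q L ih =>
    rw [List.pairwise_cons] at h1
    have h3 : ∀ q' : Fin m × Fin n, q.2 < q'.2 → q' ∈ L := fun q' h =>
      (List.mem_cons.1 (h2 q List.mem_cons_self q' h)).resolve_left fun e => by simp [e] at h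
    simp only [List.map_cons, List.prod_cons]
    rw [ih h1.2 fun q1 hq1 q' h => h3 q' ((h1.1 q1 hq1).trans_lt h), Finset.sum_mul,
      Finset.sum_eq_single q.2 _ (by simp)]
    intro l _ hl
    have hd := xk_mem_Deg (pq_sm (q.1, l)) (dep_pq _) (2 * q.2 + 1) x
    have hc := card_Sq (q.1, l)
    rcases lt_or_gt_of_ne hl with h | h
    · rw [Deg.eq_zero (by have : (l : ℕ) < q.2 := h; simp only at hc; omega) hd, zero_mul]
    · exact Deg.eq_zero (by omega) (Deg.mul hd ((prod_deg L x).2 _ (h3 (q.1, l) h)))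

lemma prod_xk_pq (L : List (Fin m × Fin n)) (x : Co m n → ℝ) :
    (L.map fun q => xk (2 * q.2 + 1) (pq q) x).prod =
      ((L.map fun q => Kc q.2).prod * ((L.map fun q => dens q x).prod : ℝ)) •
        ((L.flatMap wq).map cre).prod := by
  induction L with
  | nil => simp
  | cons q L ih =>
    simp only [List.map_cons, List.prod_cons, List.flatMap_cons, List.map_append, List.prod_append]
    rw [ih, xk_pq, smul_mul_smul_comm]
    congr 1
    push_cast; ring

lemma mem_wq {q : Fin m × Fin n} {c : Co m n} : c ∈ wq q ↔ ∃ o, c = some ⟨q, o⟩ := by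
  rw [wq, List.mem_cons, mem_wl]
  constructor
  · rintro (rfl | ⟨a, ha, rfl | rfl⟩)
    · exact ⟨_, rfl⟩
    · exact ⟨_, cc_eq _ _ ha⟩
    · exact ⟨_, cc_eq _ _ ha⟩
  · rintro ⟨_ | ⟨a, _ | _⟩, rfl⟩
    · exact Or.inl rfl
    · exact Or.inr ⟨a, a.2, Or.inl (cc_eq _ _ a.2).symm⟩
    · exact Or.inr ⟨a, a.2, Or.inr (cc_eq _ _ a.2).symm⟩

lemma nodup_wq (q : Fin m × Fin n) : (wq q).Nodup := by
  rw [wq, List.nodup_cons, mem_wl]
  refine ⟨?_, nodup_wl _ _ (fun a ha b hb h => (cc_inj ha hb h).1)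
    (fun a ha b hb h => (cc_inj ha hb h).1) fun a ha b hb h => by simpa using (cc_inj ha hb h).2⟩
  rintro ⟨a, ha, h | h⟩ <;> simp [cψ, cc_eq _ _ ha] at h

lemma dens_nonneg (q : Fin m × Fin n) (x : Co m n → ℝ) (hx : ∀ b, x b ∈ Set.Icc (0 : ℝ) 1) :
    0 ≤ dens q x := by
  have hc : ∀ a, 0 ≤ cp (cc false q) a x := fun a => Finset.prod_nonneg fun b _ =>
    Real.cos_nonneg_of_neg_pi_div_two_le_of_le
      (by nlinarith [(hx (cc false q b)).1, Real.pi_pos])
      (by nlinarith [(hx (cc false q b)).2, Real.pi_pos])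
  refine mul_nonneg (pow_nonneg (by linarith [Real.cos_le_one (2 * π * x (cψ q))]) _)
    (Finset.prod_nonneg fun a _ => mul_nonneg (mul_nonneg ?_ (hc _)) (hc _))
  exact Real.sin_nonneg_of_nonneg_of_le_pi (by nlinarith [(hx (cc false q a)).1, Real.pi_pos])
    (by nlinarith [(hx (cc false q a)).2, Real.pi_pos])

lemma dens_pos (q : Fin m × Fin n) : 0 < dens q fun _ => 1 / 2 := by
  have hc : ∀ a, 0 < cp (cc false q) a fun _ => 1 / 2 := fun a => Finset.prod_pos fun b _ =>
    Real.cos_pos_of_mem_Ioo ⟨by linarith [Real.pi_pos], by linarith [Real.pi_pos]⟩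
  refine mul_pos (pow_pos ?_ _) (Finset.prod_pos fun a _ => mul_pos (mul_pos ?_ (hc _)) (hc _))
  · rw [show 2 * π * (1 / 2) = π by ring, Real.cos_pi]; norm_num
  · exact Real.sin_pos_of_pos_of_lt_pi (by linarith [Real.pi_pos]) (by linarith [Real.pi_pos])

lemma dens_cont (q : Fin m × Fin n) : Continuous (dens q) :=
  Continuous.mul (by fun_prop) (continuous_finsetProd _ fun _ _ =>
    (sm_rd _ _).continuous.mul (sm_cp _ _).continuous)

lemma integral_ne_zero {L : List (Fin m × Fin n)} (h1 : L.Nodup) (h2 : ∀ q, q ∈ L) :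
    ((bd m n).I fun x => (L.map fun q => xk (2 * q.2 + 1) (pq q) x).prod) ≠ 0 := by
  have ht : top (cre none * ((L.flatMap wq).map cre).prod) ≠ 0 := by
    refine top_prod_ne_zero (l := none :: L.flatMap wq) ?_ ?_
    · rw [List.nodup_cons, List.nodup_flatMap]
      refine ⟨by simp [mem_wq], fun q _ => nodup_wq q, h1.pairwise_of_forall_ne ?_⟩
      intro q _ q' _ hq c hc hc'
      obtain ⟨o, rfl⟩ := mem_wq.1 hc
      obtain ⟨o', h⟩ := mem_wq.1 hc'
      simp only [Option.some.injEq, Sigma.mk.injEq] at h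
      exact hq h.1
    · rintro (_ | ⟨q, o⟩)
      · simp
      · exact List.mem_cons_of_mem _ (List.mem_flatMap.2 ⟨q, h2 q, mem_wq.2 ⟨o, rfl⟩⟩)
  have hp : 0 < ∫ x, (L.map fun q => dens q x).prod ∂cube (Co m n) :=
    integral_cube_pos (continuous_list_prod _ fun q _ => dens_cont q)
      (fun x hx => List.prod_nonneg (List.forall_mem_map.2 fun q _ => dens_nonneg q x hx))
      (List.prod_pos (List.forall_mem_map.2 fun q _ => dens_pos q))
  simp only [Bdy.I, prod_xk_pq, mul_smul_comm, map_smul, smul_eq_mul]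
  rw [integral_mul_const, integral_const_mul, integral_complex_ofReal]
  refine mul_ne_zero (mul_ne_zero ?_ (by exact_mod_cast hp.ne')) ht
  refine List.prod_ne_zero fun h => ?_
  obtain ⟨q, _, hq⟩ := List.mem_map.1 h
  exact Kc_ne _ hq

lemma prod_map_smul {κ A : Type*} [Ring A] [Algebra ℂ A] (c : ℂ) (a : κ → A) (L : List κ) :
    (L.map fun k => c • a k).prod = c ^ L.length • (L.map a).prod := by
  induction L with
  | nil => simp
  | cons q L ih => simp [ih, smul_smul, pow_succ]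

/-- A unitary, its inverse, or the identity. -/
def sgp {N : Type} [DecidableEq N] (e : SignType) (γ : Matrix N N ℂ) : Matrix N N ℂ :=
  match e with
  | .zero => 1
  | .pos => γ
  | .neg => star γ

lemma sgp_unitary {N : Type} [Fintype N] [DecidableEq N] (e : SignType) {γ : Matrix N N ℂ}
    (h : γ ∈ unitaryGroup N ℂ) : sgp e γ ∈ unitaryGroup N ℂ := by
  cases e
  · exact one_mem _
  · exact Unitary.star_mem h
  · exact h

lemma blocks_unitary {N Bk J : Type} [Fintype N] [DecidableEq N] [Fintype Bk] [DecidableEq Bk]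
    [Fintype J] [DecidableEq J] {M : Bk → Matrix N N ℂ} (h : ∀ β, M β ∈ unitaryGroup N ℂ) :
    fromBlocks (blockDiagonal M) 0 0 (1 : Matrix J J ℂ) ∈ unitaryGroup ((N × Bk) ⊕ J) ℂ := by
  rw [mem_unitaryGroup_iff, star_eq_conjTranspose, fromBlocks_conjTranspose,
    blockDiagonal_conjTranspose, fromBlocks_multiply, ← blockDiagonal_mul]
  have : (fun β => M β * (M β)ᴴ) = 1 := funext fun β => mem_unitaryGroup_iff.1 (h β)
  simp [this]

/-- The product of the reflections with a fixed first index. -/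
noncomputable def gam (i : Fin m) (x : Co m n → ℝ) : Matrix (Fin n) (Fin n) ℂ :=
  ((List.finRange n).map fun l => pq (i, l) x).prod

lemma gam_unitary (i : Fin m) (x : Co m n → ℝ) : gam i x ∈ unitaryGroup (Fin n) ℂ :=
  list_prod_mem (List.forall_mem_map.2 fun _ _ => pq_unitary _ x)

lemma gam_spec (i : Fin m) (j : ℕ) : Gd (bd m n) (gam i) ∧ (bd m n).Sind (gam i) ∧
    Eqv (bd m n) (xk (2 * j + 1) (gam i)) fun x => ∑ l, xk (2 * j + 1) (pq (i, l)) x := by
  simp only [Fin.sum_univ_def]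
  exact Eqv.listProd (fun l => pq_gd (i, l)) (fun l => pq_sind (i, l)) j (List.finRange n)

lemma exists_list : ∃ L : List (Fin m × Fin n), (∀ q, q ∈ L) ∧
    ((bd m n).I fun x => (L.map fun q => xk (2 * q.2 + 1) (gam q.1) x).prod) ≠ 0 := by
  obtain ⟨L, hL1, hL2, hL3⟩ : ∃ L : List (Fin m × Fin n), L.Nodup ∧ (∀ q, q ∈ L) ∧
      L.Pairwise fun a b => a.2 ≤ b.2 := by
    refine ⟨univ.toList.mergeSort fun a b => a.2 ≤ b.2,
      (List.mergeSort_perm _ _).nodup_iff.2 (nodup_toList _), by simp, ?_⟩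
    simpa using List.pairwise_mergeSort (le := fun a b : Fin m × Fin n => decide (a.2 ≤ b.2))
      (fun a b c => by simpa using le_trans) (fun a b => by simpa using le_total _ _) univ.toList
  refine ⟨L, hL2, ?_⟩
  have hY : ∀ q : Fin m × Fin n,
      BF (bd m n) fun x => ∑ l, xk (2 * q.2 + 1) (pq (q.1, l)) x := fun q =>
    ⟨⟨_, GF.sum _ fun l => (pq_gd _).gf _⟩, fun x t => Finset.sum_congr rfl fun l _ =>
      ((pq_gd (q.1, l)).bf (pq_sind _) q.2).2 x t⟩
  have e2 := Eqv.prod (fun q : Fin m × Fin n => (gam_spec q.1 0).1.bf (gam_spec q.1 0).2.1 q.2)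
    hY (fun q => (gam_spec q.1 q.2).2.2) L
  simp only [triangular L hL3 fun _ _ q' _ => hL2 q'] at e2
  rw [e2]
  exact integral_ne_zero hL1 hL2

lemma exists_eigen {N : Type} [Fintype N] [DecidableEq N]
    {T : Fin m → (Co m n → ℝ) → Matrix N N ℂ} (gT : ∀ j, Gd (bd m n) (T j))
    (sT : ∀ j, (bd m n).Sind (T j)) (uT : ∀ j x, T j x ∈ unitaryGroup N ℂ) {d : ℂ} (hd : d ≠ 0)
    (xT : ∀ j k x, xk (2 * k + 1) (T j) x = d • xk (2 * k + 1) (gam j) x)
    (z : Fin m × Fin n → ℂ) (hz : ∀ q, ‖z q‖ = 1) :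
    ∃ x, ∀ q : Fin m × Fin n, (T q.1 x - z q • 1).det = 0 := by
  by_contra hcon
  push Not at hcon
  let g : (Co m n → ℝ) → ℝ := fun x => ∑ q : Fin m × Fin n, ‖(T q.1 x - z q • 1).det‖ ^ 2
  have hg : Continuous g := continuous_finsetSum _ fun q _ =>
    ((MSm.det (f := fun x => T q.1 x - z q • 1)
      fun a b => ((gT q.1).sm a b).sub contDiff_const).continuous.norm).pow 2
  have hK : IsCompact (Set.pi Set.univ fun _ : Co m n => Set.Icc (0 : ℝ) 1) :=
    isCompact_univ_pi fun _ => isCompact_Icc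
  obtain ⟨x0, -, hx0⟩ := hK.exists_isMinOn ⟨0, fun _ _ => by simp⟩ hg.continuousOn
  have hpos : 0 < g x0 := by
    obtain ⟨q, hq⟩ := hcon x0
    exact Finset.sum_pos' (fun _ _ => sq_nonneg _) ⟨q, mem_univ _, by positivity⟩
  have hε0 : 0 < g x0 / (Fintype.card (Fin m × Fin n) + 1) := by positivity
  choose f gf sf ef zf using fun q : Fin m × Fin n =>
    exists_deform (gT q.1) (sT q.1) (uT q.1) (hz q) hε0
  obtain ⟨L, hL2, hL⟩ := exists_list (m := m) (n := n)
  have e0 : ((bd m n).I fun x => (L.map fun q => xk (2 * q.2 + 1) (f q) x).prod) = 0 := by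
    rw [Bdy.I, cube_eq]
    refine setIntegral_eq_zero_of_forall_eq_zero fun x hx => ?_
    obtain ⟨q, hq⟩ : ∃ q : Fin m × Fin n, g x0 / (Fintype.card (Fin m × Fin n) + 1) <
        ‖(T q.1 x - z q • 1).det‖ ^ 2 := by
      by_contra h
      push Not at h
      have h1 : g x ≤ Fintype.card (Fin m × Fin n) * (g x0 / (Fintype.card (Fin m × Fin n) + 1)) := by
        simpa using Finset.sum_le_card_nsmul univ _ _ fun q _ => h q
      have h2 : g x0 ≤ g x := hx0 hx
      have h3 : (Fintype.card (Fin m × Fin n) + 1) * (g x0 / (Fintype.card (Fin m × Fin n) + 1)) =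
        g x0 := mul_div_cancel₀ _ (by positivity)
      linarith
    rw [List.prod_eq_zero (List.mem_map.2 ⟨q, hL2 q, zf q x hq _⟩)]
    simp
  have e1 := Eqv.prod (fun q : Fin m × Fin n => (gT q.1).bf (sT q.1) q.2)
    (fun q => (gf q).bf (sf q) q.2) (fun q => ef q q.2) L
  simp only [xT, prod_map_smul, Bdy.I_smul, e0] at e1
  exact mul_ne_zero (pow_ne_zero _ hd) hL e1

lemma sgp_gam (e : SignType) (i : Fin m) : Gd (bd m n) (fun x => sgp e (gam i x)) ∧
    ∀ j x, xk (2 * j + 1) (fun x : Co m n → ℝ => sgp e (gam i x)) x =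
      ((e : ℤ) : ℂ) • xk (2 * j + 1) (gam i) x := by
  have hinv : (fun x : Co m n → ℝ => star (gam i x)) = fun x => (gam i x)⁻¹ := funext fun x =>
    (inv_eq_left_inv (mem_unitaryGroup_iff'.1 (gam_unitary i x))).symm
  have gγ := (gam_spec (n := n) i 0).1
  cases e
  · exact ⟨Gd.const (α := 1) (by simp), fun j x => by simpa [sgp] using xk_const _ _ _⟩
  · exact ⟨by simpa only [sgp, hinv] using gγ.inverse,
      fun j x => by simpa [sgp, hinv] using xk_inv gγ.sm gγ.unit j x⟩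
  · exact ⟨gγ, fun j x => by simp [sgp]⟩

theorem lemmaQ {Bk J : Type} [Fintype Bk] [DecidableEq Bk] [Fintype J] [DecidableEq J]
    (idx : Bk → Fin m) (ε : Fin m → Bk → SignType) (d : ℤ) (hd : d ≠ 0)
    (hε : ∀ j i, ∑ β, (if idx β = i then (ε j β : ℤ) else 0) = if i = j then d else 0)
    (α : Fin m → Matrix ((Fin n × Bk) ⊕ J) ((Fin n × Bk) ⊕ J) ℂ)
    (hα : ∀ j, α j ∈ unitaryGroup _ ℂ) (z : Fin m × Fin n → ℂ) (hz : ∀ q, ‖z q‖ = 1) :
    ∃ γ : Fin m → Matrix (Fin n) (Fin n) ℂ, (∀ i, γ i ∈ unitaryGroup _ ℂ) ∧ ∀ q : Fin m × Fin n,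
      (α q.1 * fromBlocks (blockDiagonal fun β => sgp (ε q.1 β) (γ (idx β))) 0 0 1 -
        z q • 1).det = 0 := by
  have uα : ∀ j, IsUnit (α j).det := fun j =>
    (Unitary.isUnit_coe (U := ⟨_, hα j⟩)).map detMonoidHom
  have one : Gd (bd m n) fun _ => (1 : Matrix J J ℂ) := Gd.const (by simp)
  have gB := fun j => Gd.blockDiagonal fun β => (sgp_gam (n := n) (ε j β) (idx β)).1
  have xT : ∀ j k (x : Co m n → ℝ), xk (2 * k + 1) (fun x => α j * fromBlocks
      (blockDiagonal fun β => sgp (ε j β) (gam (idx β) x)) 0 0 1) x =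
      (d : ℂ) • xk (2 * k + 1) (gam j) x := by
    intro j k x
    rw [xk_const_mul ((gB j).fromBlocks one).sm (uα j), xk_fromBlocks (gB j).unit one.unit,
      xk_const, add_zero, xk_blockDiagonal fun β => (sgp_gam _ _).1.unit]
    simp only [fun (e : SignType) (i : Fin m) => (sgp_gam (n := n) e i).2 k x]
    calc ∑ β, ((ε j β : ℤ) : ℂ) • xk (2 * k + 1) (gam (idx β)) x
        = ∑ β, ∑ i, ((if idx β = i then (ε j β : ℤ) else 0 : ℤ) : ℂ) • xk (2 * k + 1) (gam i) x := by
          simp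
      _ = ∑ i, ((if i = j then d else 0 : ℤ) : ℂ) • xk (2 * k + 1) (gam i) x := by
          rw [Finset.sum_comm]
          simp only [← Finset.sum_smul, ← Int.cast_sum, hε]
      _ = _ := by simp
  obtain ⟨x, hx⟩ := exists_eigen (d := d)
    (fun j => (Gd.const (uα j)).mul ((gB j).fromBlocks one))
    (fun j x t => by simp only [fun i => (gam_spec i 0).2.1 x t])
    (fun j x => mul_mem (hα j) (blocks_unitary fun β => sgp_unitary _ (gam_unitary _ x)))
    (by exact_mod_cast hd) xT z hz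
  exact ⟨fun i => gam i x, fun i => gam_unitary i x, hx⟩

end Vale.Agent.P174
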