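import Vale.Agent.P174.Homotopy
import Mathlib.Analysis.SpecialFunctions.SmoothTransition
import Mathlib.Analysis.InnerProductSpace.Calculus
import Mathlib.LinearAlgebra.Matrix.DotProduct
import Mathlib.LinearAlgebra.UnitaryGroup
import Mathlib.Analysis.Complex.Order

/-! Additivity of the odd trace forms under block sums and products, and the deformation that
makes a unitary map locally constant away from a prescribed eigenvalue. -/

open Finset Function Matrix
open scoped ContDiff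

namespace Vale.Agent.P174

variable {ι : Type} [Fintype ι] [DecidableEq ι] {B : Bdy ι}
variable {N N' : Type} [Fintype N] [DecidableEq N] [Fintype N'] [DecidableEq N']

omit [Fintype ι] in
lemma Bdy.Sind.update {Y : Type*} {u : (ι → ℝ) → Y} (h : B.Sind u) (x : ι → ℝ) (c : ℝ) :
    u (update x B.s c) = u x := by rw [update_eq_add, h]

lemma Gd.const {α : Matrix N N ℂ} (h : IsUnit α.det) : Gd B fun _ => α :=
  ⟨MSm.const α, fun _ => h, fun _ _ _ => rfl⟩

lemma Gd.mul {f g : (ι → ℝ) → Matrix N N ℂ} (hf : Gd B f) (hg : Gd B g) :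
    Gd B fun x => f x * g x :=
  ⟨hf.sm.mul hg.sm, fun x => by rw [det_mul]; exact (hf.unit x).mul (hg.unit x),
    fun x y h => by simp only [hf.inv x y h, hg.inv x y h]⟩

lemma Gd.inverse {f : (ι → ℝ) → Matrix N N ℂ} (hf : Gd B f) : Gd B fun x => (f x)⁻¹ :=
  ⟨hf.sm.inv hf.unit, fun x => isUnit_nonsing_inv_det _ (hf.unit x),
    fun x y h => by simp only [hf.inv x y h]⟩

lemma Gd.fromBlocks {f : (ι → ℝ) → Matrix N N ℂ} {g : (ι → ℝ) → Matrix N' N' ℂ} (hf : Gd B f)
    (hg : Gd B g) : Gd B fun x => fromBlocks (f x) 0 0 (g x) := by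
  refine ⟨?_, fun x => ?_, fun x y h => by simp only [hf.inv x y h, hg.inv x y h]⟩
  · rintro (a | a) (b | b)
    · exact hf.sm a b
    · exact contDiff_const
    · exact contDiff_const
    · exact hg.sm a b
  · rw [det_fromBlocks_zero₂₁]; exact (hf.unit x).mul (hg.unit x)

lemma Gd.blockDiagonal {f : N' → (ι → ℝ) → Matrix N N ℂ} (hf : ∀ β, Gd B (f β)) :
    Gd B fun x => blockDiagonal fun β => f β x := by
  refine ⟨?_, fun x => ?_, fun x y h => by simp only [fun β => (hf β).inv x y h]⟩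
  · rintro ⟨a, β⟩ ⟨b, β'⟩
    simp only [blockDiagonal_apply]
    split_ifs
    · exact (hf β).sm a b
    · exact contDiff_const
  · rw [det_blockDiagonal]; exact IsUnit.prod_univ_iff.2 fun β => (hf β).unit x

lemma xk_fromBlocks {f : (ι → ℝ) → Matrix N N ℂ} {g : (ι → ℝ) → Matrix N' N' ℂ}
    (hf : ∀ x, IsUnit (f x).det) (hg : ∀ x, IsUnit (g x).det) (k : ℕ) (x : ι → ℝ) :
    xk k (fun y => fromBlocks (f y) 0 0 (g y)) x = xk k f x + xk k g x := by
  have h1 : (fromBlocks (f x) 0 0 (g x))⁻¹ = fromBlocks (f x)⁻¹ 0 0 (g x)⁻¹ := by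
    apply inv_eq_left_inv
    simp [fromBlocks_multiply, nonsing_inv_mul _ (hf x), nonsing_inv_mul _ (hg x)]
  have h2 : D (fun y => fromBlocks (f y) 0 0 (g y)) x = fromBlocks (D f x) 0 0 (D g x) := by
    ext1 (a | a) (b | b)
    · rfl
    · exact d0_const _ _
    · exact d0_const _ _
    · rfl
  have h3 : lf ι (fromBlocks (f x)⁻¹ 0 0 (g x)⁻¹) = fromBlocks (lf ι (f x)⁻¹) 0 0 (lf ι (g x)⁻¹) := by
    ext1 (a | a) (b | b) <;> simp [lf_apply]
  have h4 : th (fun y => fromBlocks (f y) 0 0 (g y)) x = fromBlocks (th f x) 0 0 (th g x) := by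
    simp [th, h1, h2, h3, fromBlocks_multiply]
  rw [xk, h4, fromBlocks_diagonal_pow]
  simp [Matrix.trace, xk]

lemma xk_blockDiagonal {f : N' → (ι → ℝ) → Matrix N N ℂ} (hf : ∀ β x, IsUnit (f β x).det) (k : ℕ)
    (x : ι → ℝ) : xk k (fun y => blockDiagonal fun β => f β y) x = ∑ β, xk k (f β) x := by
  have h1 : (blockDiagonal fun β => f β x)⁻¹ = blockDiagonal fun β => (f β x)⁻¹ := by
    apply inv_eq_left_inv
    rw [← blockDiagonal_mul, ← blockDiagonal_one]
    congr 1
    funext β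
    exact nonsing_inv_mul _ (hf β x)
  have h2 : D (fun y => blockDiagonal fun β => f β y) x = blockDiagonal fun β => D (f β) x := by
    ext1 ⟨a, β⟩ ⟨b, β'⟩
    simp only [D_apply, blockDiagonal_apply]
    split_ifs
    · rfl
    · exact d0_const _ _
  have h3 : lf ι (blockDiagonal fun β => (f β x)⁻¹) = blockDiagonal fun β => lf ι (f β x)⁻¹ := by
    ext1 ⟨a, β⟩ ⟨b, β'⟩
    simp only [lf_apply, blockDiagonal_apply]
    split_ifs <;> simp
  have h4 : th (fun y => blockDiagonal fun β => f β y) x = blockDiagonal fun β => th (f β) x := by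
    rw [th, h1, h2, h3, ← blockDiagonal_mul]; rfl
  rw [xk, h4, ← blockDiagonal_pow, trace_blockDiagonal]
  rfl

omit [DecidableEq ι] in
lemma sm_coord (b : ι) : Sm fun x : ι → ℝ => (x b : ℂ) :=
  Complex.ofRealCLM.contDiff.comp (contDiff_apply ℝ ℝ b)

/-- The rotation from the identity to a quarter turn. -/
noncomputable def rotm (N : Type) [DecidableEq N] (t : ℝ) : Matrix (N ⊕ N) (N ⊕ N) ℂ :=
  1 + (t : ℂ) • fromBlocks (-1) (-1) 1 (-1)

lemma rotm_unit (t : ℝ) : IsUnit (rotm N t).det := by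
  have hc : ((1 - t) ^ 2 + t ^ 2 : ℂ) ≠ 0 := by
    have : (0 : ℝ) < (1 - t) ^ 2 + t ^ 2 := by nlinarith [sq_nonneg (2 * t - 1)]
    exact_mod_cast this.ne'
  refine isUnit_det_of_right_inverse (B := ((1 - t) ^ 2 + t ^ 2 : ℂ)⁻¹ •
    (1 + (t : ℂ) • fromBlocks (-1) 1 (-1) (-1))) ?_
  rw [Matrix.mul_smul, inv_smul_eq_iff₀ hc, rotm, ← fromBlocks_one]
  simp only [fromBlocks_smul, fromBlocks_add, fromBlocks_multiply, fromBlocks_inj,
    Matrix.mul_add, Matrix.mul_smul, Matrix.mul_one, Matrix.mul_neg, zero_add]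
  refine ⟨?_, ?_, ?_, ?_⟩ <;> module

lemma Eqv.mul {f g : (ι → ℝ) → Matrix N N ℂ} (hf : Gd B f) (hg : Gd B g) (sf : B.Sind f)
    (sg : B.Sind g) (j : ℕ) : Eqv B (xk (2 * j + 1) fun x => f x * g x)
      fun x => xk (2 * j + 1) f x + xk (2 * j + 1) g x := by
  have one : Gd B fun _ => (1 : Matrix N N ℂ) := Gd.const (by simp)
  have hR : Gd B fun x => rotm N (x B.s) :=
    ⟨(MSm.const _).add ((MSm.const _).smul (sm_coord _)), fun x => rotm_unit _,
      fun x y h => by simp only [B.inv_s x y h]⟩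
  have key := Eqv.homotopy (((hf.fromBlocks one).mul hR).mul (hg.fromBlocks one))
    ((hf.mul hg).fromBlocks one) ((Gd.const (rotm_unit (N := N) 1)).mul (hg.fromBlocks hf))
    (fun x => by simp [sf.update, sg.update, rotm, fromBlocks_multiply])
    (fun x => by
      simp only [sf.update, sg.update, update_self, rotm, ← fromBlocks_one, fromBlocks_smul,
        fromBlocks_add, fromBlocks_multiply]
      simp) j
  have e1 : (xk (2 * j + 1) fun x => fromBlocks (f x * g x) 0 0 (1 : Matrix N N ℂ)) =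
      xk (2 * j + 1) fun x => f x * g x := by
    funext x
    rw [xk_fromBlocks (hf.mul hg).unit one.unit, xk_const, add_zero]
  have e2 : (xk (2 * j + 1) fun x => rotm N 1 * fromBlocks (g x) 0 0 (f x)) =
      fun x => xk (2 * j + 1) f x + xk (2 * j + 1) g x := by
    funext x
    rw [xk_const_mul (hg.fromBlocks hf).sm (rotm_unit 1), xk_fromBlocks hg.unit hf.unit, add_comm]
  rwa [e1, e2] at key

lemma Gd.bf {f : (ι → ℝ) → Matrix N N ℂ} (hf : Gd B f) (sf : B.Sind f) (j : ℕ) :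
    BF B (xk (2 * j + 1) f) :=
  ⟨⟨_, hf.gf j⟩, fun x _ => xk_translate (fun y => sf y _) _ x⟩

lemma Eqv.listProd {κ : Type*} {f : κ → (ι → ℝ) → Matrix N N ℂ} (hf : ∀ l, Gd B (f l))
    (sf : ∀ l, B.Sind (f l)) (j : ℕ) (L : List κ) :
    Gd B (fun x => (L.map fun l => f l x).prod) ∧ B.Sind (fun x => (L.map fun l => f l x).prod) ∧
    Eqv B (xk (2 * j + 1) fun x => (L.map fun l => f l x).prod)
      fun x => (L.map fun l => xk (2 * j + 1) (f l) x).sum := by
  induction L with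
  | nil =>
    refine ⟨Gd.const (α := 1) (by simp), fun _ _ => rfl, ?_⟩
    have : (xk (2 * j + 1) fun _ : ι → ℝ => (1 : Matrix N N ℂ)) = fun _ => 0 :=
      funext (xk_const _ _)
    simpa [this] using Eqv.refl (B := B) (μ := fun _ => 0) continuous_const
  | cons l L ih =>
    simp only [List.map_cons, List.prod_cons, List.sum_cons]
    refine ⟨(hf l).mul ih.1, fun x t => by simp only [sf l x t, ih.2.1 x t], ?_⟩
    exact (Eqv.mul (hf l) ih.1 (sf l) ih.2.1 j).trans
      ((Eqv.refl ((hf l).gf j).sm.continuous).add ih.2.2)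

open scoped ComplexOrder in
lemma deform_unit {T : Matrix N N ℂ} (hT : T ∈ unitaryGroup N ℂ) {z : ℂ} (hz : ‖z‖ = 1) {r : ℝ}
    (hr : (T - z • 1).det = 0 → r = 0) : IsUnit (T + (r : ℂ) • (-T - z • 1)).det := by
  rw [isUnit_iff_ne_zero]
  intro h
  obtain ⟨v, hv, h0⟩ := Matrix.exists_mulVec_eq_zero_iff.2 h
  have h1 : (1 - r : ℂ) • T *ᵥ v = ((r : ℂ) * z) • v := by
    simp only [add_mulVec, smul_mulVec, sub_mulVec, neg_mulVec, one_mulVec] at h0
    rw [← sub_eq_zero, ← h0]; module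
  have h2 : star (T *ᵥ v) ⬝ᵥ (T *ᵥ v) = star v ⬝ᵥ v := by
    rw [star_mulVec, dotProduct_mulVec, vecMul_vecMul, ← star_eq_conjTranspose,
      mem_unitaryGroup_iff'.1 hT, vecMul_one]
  have h3 := congrArg (fun w => star w ⬝ᵥ w) h1
  simp only [star_smul, smul_dotProduct, dotProduct_smul, h2, smul_smul] at h3
  have hv' : star v ⬝ᵥ v ≠ 0 := fun e => hv (dotProduct_star_self_eq_zero.1 e)
  have h4 := smul_left_injective ℂ hv' h3
  have hzz : star z * z = 1 := by
    rw [RCLike.star_def, Complex.conj_mul', hz]; simp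
  have h5 : (r : ℂ) = 1 / 2 := by
    simp only [star_sub, star_one, star_mul', RCLike.star_def, Complex.conj_ofReal] at h4 hzz
    linear_combination (-1 / 2) * h4 - (r : ℂ) ^ 2 / 2 * hzz
  have h6 : (T - z • 1) *ᵥ v = 0 := by
    rw [sub_mulVec, smul_mulVec, one_mulVec, sub_eq_zero]
    rw [h5] at h1
    have := congrArg (fun w => (2 : ℂ) • w) h1
    simp only [smul_smul] at this
    convert this using 2
    · norm_num
    · ring
  have := hr (Matrix.exists_mulVec_eq_zero_iff.1 ⟨v, hv, h6⟩)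
  rw [this] at h5
  norm_num at h5

lemma exists_deform {T : (ι → ℝ) → Matrix N N ℂ} (hT : Gd B T) (sT : B.Sind T)
    (hU : ∀ x, T x ∈ unitaryGroup N ℂ) {z : ℂ} (hz : ‖z‖ = 1) {ε : ℝ} (hε : 0 < ε) :
    ∃ f : (ι → ℝ) → Matrix N N ℂ, Gd B f ∧ B.Sind f ∧
      (∀ j, Eqv B (xk (2 * j + 1) T) (xk (2 * j + 1) f)) ∧
      ∀ x, ε < ‖(T x - z • 1).det‖ ^ 2 → ∀ j, xk (2 * j + 1) f x = 0 := by
  let u : (ι → ℝ) → ℝ := fun x => ‖(T x - z • 1).det‖ ^ 2 / ε
  have hd : Sm fun x => (T x - z • 1).det :=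
    MSm.det fun a b => (hT.sm a b).sub contDiff_const
  have hu : Sm u := (hd.norm_sq ℝ).div_const ε
  let ρ : (ι → ℝ) → ℝ := fun x => Real.smoothTransition (u x)
  have hρ : Sm ρ := Real.smoothTransition.contDiff.comp hu
  have hρ0 : ∀ x, (T x - z • 1).det = 0 → ρ x = 0 := fun x h => by
    simp [ρ, u, h]
  have hM : MSm fun x => -T x - z • 1 := fun a b => (hT.sm a b).neg.sub contDiff_const
  have gd : ∀ r : (ι → ℝ) → ℝ, Sm r → B.Inv r →
      Gd B fun x => T x + ((r x * ρ x : ℝ) : ℂ) • (-T x - z • 1) := fun r hr ir =>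
    ⟨hT.sm.add (hM.smul (Complex.ofRealCLM.contDiff.comp (hr.mul hρ))),
      fun x => deform_unit (hU x) hz fun h => by rw [hρ0 x h, mul_zero],
      fun x y h => by simp only [ρ, u, hT.inv x y h, ir x y h]⟩
  have g1 := gd (fun _ => 1) contDiff_const fun _ _ _ => rfl
  refine ⟨_, g1, fun x t => by simp only [ρ, u, sT x t], fun j => ?_, fun x hx j => ?_⟩
  · exact Eqv.homotopy (gd _ (contDiff_apply ℝ ℝ B.s) B.inv_s) hT g1
      (fun x => by simp [sT.update]) (fun x => by simp [ρ, u, sT.update]) j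
  · have hev : ∀ᶠ y in nhds x, T y + ((1 * ρ y : ℝ) : ℂ) • (-T y - z • 1) = -(z • 1) := by
      have : ∀ᶠ y in nhds x, 1 < u y :=
        hu.continuous.continuousAt.eventually (lt_mem_nhds ((one_lt_div hε).2 hx))
      filter_upwards [this] with y hy
      rw [show ρ y = 1 from Real.smoothTransition.one_of_one_le hy.le]
      simp only [mul_one, Complex.ofReal_one, one_smul]
      abel
    have hD : D (fun y => T y + ((1 * ρ y : ℝ) : ℂ) • (-T y - z • 1)) x = 0 := by
      rw [← D_const (-(z • 1) : Matrix N N ℂ) x]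
      ext1 a b
      simp only [D_apply, d0, pd]
      rw [Filter.EventuallyEq.fderiv_eq (hev.mono fun y hy => by rw [hy])]
    rw [xk, th, hD]
    simp

end Vale.Agent.P174
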