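import Vale.Agent.P174.CombA

/-! The planar combinatorics: from a product of conjugates of relators that equals a nontrivial
coefficient to a short chain of weighted transpositions. -/

namespace Vale.Agent.P174

open Monoid

section Split

variable {I G : Type*} [Group G] [DecidableEq I] {m : ℕ} {lb : I → Fin m × Bool} {ω : Circle}
  {x : WP I (G × Circle)}

/-- Outside `l` the configuration is already terminal. -/
def Done (lb : I → Fin m × Bool) (ω : Circle) (x : WP I (G × Circle)) (l : List I) : Prop :=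
  ∀ p, p ∉ l → x.σ p ∉ l ∧ x.σ (x.σ p) = p ∧ lb (x.σ p) = sgn false (lb p) ∧ (x.wt p).1 = 1 ∧
    (x.wt p).2 * (x.wt (x.σ p)).2 = ω

lemma split_step {l₁ l₂ : List I} {r p q : I} (hc : Cyc x (l₁ ++ r :: p :: q :: l₂))
    (hd : Done lb ω x (l₁ ++ r :: p :: q :: l₂)) (h1 : lb q = sgn false (lb p))
    (h2 : (x.wt p).1 = 1) :
    ∃ x', Chain 1 x x' ∧ Cyc x' (l₁ ++ r :: l₂) ∧ Done lb ω x' (l₁ ++ r :: l₂) ∧
      word lb x' (l₁ ++ r :: l₂) = word lb x (l₁ ++ r :: p :: q :: l₂) := by
  obtain ⟨-, hnd, a, hp⟩ := hc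
  have hnd' := hnd
  simp only [List.nodup_append, List.nodup_cons, List.mem_cons] at hnd'
  have hrq : r ≠ q := by grind
  have hpr : p ≠ r := by grind
  have hpq : p ≠ q := by grind
  simp only [path_append, Path] at hp
  obtain ⟨_, e1, e0, e2, e3, e4⟩ := hp
  rw [e0] at e1
  set y : G × Circle := ((x.wt r).1, (x.wt p).2 * (x.wt r).2 * ω⁻¹) with hy
  have a1 : ∀ t ∈ l₁, Ag (x.step r q y) x t := fun t ht => ag_step (by grind) (by grind)
  have a2 : ∀ t ∈ l₂, Ag (x.step r q y) x t := fun t ht => ag_step (by grind) (by grind)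
  have a3 : Ag (x.step r q y) x p := ag_step hpr hpq
  have s1 : (x.step r q y).σ r = x.σ q := by simp [WP.step]
  have s2 : (x.step r q y).σ q = p := by simp [WP.step, e2]
  have s3 : (x.step r q y).σ p = q := by rw [a3.1, e3]
  have w1 : (x.step r q y).wt r = y * x.wt q := by simp [WP.step]
  have w2 : (x.step r q y).wt q = y⁻¹ * x.wt r := by simp [WP.step, hrq.symm]
  have w3 : (x.wt p).2 * (y⁻¹ * x.wt r).2 = ω := by
    simp [hy, mul_comm, mul_left_comm]
  refine ⟨x.step r q y, .step r q y hrq (.refl x), ⟨by simp, ?_, a, ?_⟩, fun t ht => ?_, ?_⟩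
  · exact hnd.sublist (by simp)
  · rw [path_append]
    refine ⟨r, e1.congr fun t ht => (a1 t ht).1, rfl, ?_⟩
    rw [s1]
    exact e4.congr fun t ht => (a2 t ht).1
  · by_cases htp : t = p
    · subst htp
      rw [s3, s2, w2, a3.2]
      exact ⟨by simp only [List.mem_append, List.mem_cons]; grind, rfl, h1, h2, w3⟩
    · by_cases htq : t = q
      · subst htq
        rw [s2, s3, w2, a3.2, h1, sgn_sgn, mul_comm]
        exact ⟨by simp only [List.mem_append, List.mem_cons]; grind, rfl, rfl, by simp [hy], w3⟩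
      · obtain ⟨b1, b2, b3, b4, b5⟩ := hd t (by simp at ht ⊢; tauto)
        have c1 : Ag (x.step r q y) x t := ag_step (fun h => ht (by simp [h])) htq
        have c2 : Ag (x.step r q y) x (x.σ t) :=
          ag_step (fun h => b1 (by simp [h])) fun h => b1 (by simp [h])
        rw [c1.1, c1.2, c2.1, c2.2]
        exact ⟨fun h => b1 (by simp at h ⊢; tauto), b2, b3, b4, b5⟩
  · simp only [word_append, word_cons, word_congr a1, word_congr a2, w1, h1, h2, gen_sgn]
    simp [hy, mul_assoc]

lemma split_all (N : ℕ) : ∀ (x : WP I (G × Circle)) (l : List I) (g : G), l.length = N →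
    Cyc x l → Done lb ω x l → word lb x l = Coprod.inl g → g ≠ 1 →
    ∃ c z p0, Chain c x z ∧ Terminal lb ω z p0 ∧ 2 * c + 2 = N := by
  induction N using Nat.strong_induction_on with
  | _ N ih =>
    intro x l g hN hc hd hw hg
    have h1 : ¬ l.IsChain fun p q => ¬ (lb q = sgn false (lb p) ∧ (x.wt p).1 = 1) := by
      intro h
      have := britton (l.map fun p => (lb p, (x.wt p).1)) g (by rw [List.map_map]; exact hw)
        ((List.isChain_map _).mpr h)
      exact hc.1 (List.map_eq_nil_iff.mp this)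
    rw [List.isChain_iff_forall_rel_of_append_cons_cons] at h1
    push Not at h1
    obtain ⟨p, q, l₁, l₂, rfl, h2, h3⟩ := h1
    have key : ∀ (l₁ l₂ : List I) (r : I) (g : G), (l₁ ++ r :: p :: q :: l₂).length = N →
        Cyc x (l₁ ++ r :: p :: q :: l₂) → Done lb ω x (l₁ ++ r :: p :: q :: l₂) →
        word lb x (l₁ ++ r :: p :: q :: l₂) = Coprod.inl g → g ≠ 1 →
        ∃ c z p0, Chain c x z ∧ Terminal lb ω z p0 ∧ 2 * c + 2 = N := by
      intro l₁ l₂ r g hN hc hd hw hg
      obtain ⟨x', a1, a2, a3, a4⟩ := split_step hc hd h2 h3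
      obtain ⟨c, z, p0, b1, b2, b3⟩ := ih _ (by simp at hN ⊢; omega) x' _ g rfl a2 a3
        (a4.trans hw) hg
      exact ⟨1 + c, z, p0, a1.trans b1, b2, by simp at hN b3; omega⟩
    rcases List.eq_nil_or_concat' l₁ with rfl | ⟨l₁, r, rfl⟩
    · rw [List.nil_append, word_cons, word_cons, h2, h3, gen_sgn] at hw
      rcases List.eq_nil_or_concat' l₂ with rfl | ⟨l₂, r, rfl⟩
      · obtain ⟨-, h4, a, h5⟩ := hc
        simp only [List.nil_append, Path] at h5
        obtain ⟨rfl, h5, h6⟩ := h5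
        have h7 : (x.wt q).1 = g := Coprod.inl_injective (by simpa [word_nil] using hw)
        have h8 : ∀ t, t = a ∨ t = q ∨ t ∉ [] ++ [a, q] := fun t => by simp; tauto
        refine ⟨0, x, q, .refl x, ⟨fun t => ?_, fun t => ?_, fun t ht => ?_, h7 ▸ hg,
          fun t ht ht' => ?_⟩, by simpa using hN⟩
        · rcases h8 t with rfl | rfl | h
          · rw [h5, h6]
          · rw [h6, h5]
          · exact (hd t h).2.1
        · rcases h8 t with rfl | rfl | h
          · rw [h5, h2]
          · rw [h6, h2, sgn_sgn]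
          · exact (hd t h).2.2.1
        · rcases h8 t with rfl | rfl | h
          exacts [h3, absurd rfl ht, (hd t h).2.2.2.1]
        · rcases h8 t with rfl | rfl | h
          exacts [absurd h5 ht', absurd rfl ht, (hd t h).2.2.2.2]
      · refine key l₂ [] r ((x.wt q).1⁻¹ * g * (x.wt q).1) (by simp at hN ⊢; omega)
          (by simpa using Cyc.rotate (l₁ := [p, q]) hc) (fun t ht => ?_) ?_
          (by simpa using mt (conj_eq_one_iff (a := (x.wt q).1⁻¹)).mp hg)
        · have := hd t (by simp at ht ⊢; tauto)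
          exact ⟨fun h => this.1 (by simp at h ⊢; tauto), this.2⟩
        · rw [word_append, word_cons, word_nil] at hw
          simp only [word_append, word_cons, word_nil, map_mul, map_inv, ← hw, h2, h3, gen_sgn]
          simp [mul_assoc]
    · exact key l₁ l₂ r g (by simpa using hN) (by simpa using hc) (by simpa using hd)
        (by simpa using hw) hg

end Split

/-- `v` is a product of the letters in the list, separated by coefficients. -/
inductive Dec (G : Type*) [Group G] {Λ : Type*} : List (Λ × Bool) → Coprod G (FreeGroup Λ) → Prop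
  | nil (u : G) : Dec G [] (Coprod.inl u)
  | cons (u : G) (a : Λ × Bool) {w : List (Λ × Bool)} {v : Coprod G (FreeGroup Λ)} :
      Dec G w v → Dec G (a :: w) (Coprod.inl u * gen G a * v)

lemma exists_dec {G : Type*} [Group G] {Λ : Type*} (v : Coprod G (FreeGroup Λ)) :
    ∃ w, Dec G w v := by
  induction v using Coprod.induction_on' with
  | one => exact ⟨[], by simpa using Dec.nil (1 : G)⟩
  | inl_mul u v ih =>
    obtain ⟨w, hw⟩ := ih
    cases hw with
    | nil u' => exact ⟨[], by simpa using Dec.nil (u * u')⟩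
    | cons u' a h => exact ⟨_, by simpa [mul_assoc] using h.cons (u * u') a⟩
  | inr_mul f v ih =>
    induction f using FreeGroup.induction_on generalizing v with
    | C1 => simpa using ih
    | of j => exact ih.elim fun w h => ⟨_, by simpa [gen] using h.cons 1 (j, true)⟩
    | inv_of j => exact ih.elim fun w h => ⟨_, by simpa [gen] using h.cons 1 (j, false)⟩
    | mul f f' h h' => simpa [mul_assoc] using h _ (h' _ ih)

section Faces

variable {G : Type*} [Group G] {m n : ℕ} {k : Fin m → ℕ} {J : Type} [DecidableEq J]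
  {lab : ∀ i, Fin (k i + 1) → Fin m × Bool} {κ : ∀ i, Fin (k i + 1) → G}
  {labJ : J → Fin m × Bool}

lemma reach_stems {w : List (Fin m × Bool)} {v W : Coprod G (FreeGroup (Fin m))} (h : Dec G w v)
    {c : ℕ} {l : List (Let n k J)} (hr : Reach (label lab labJ) (start n J κ) c l W)
    (hl : ∀ a, Sum.inr a ∉ l) (js : List J) (hj : js.Nodup) (hw : js.map labJ = w) :
    ∃ l', Reach (label lab labJ) (start n J κ) (c + js.length) l' (v * W * v⁻¹) ∧
      ∀ p, p ∈ l' ↔ p ∈ l ∨ ∃ j ∈ js, ∃ b, p = Sum.inr (j, b) := by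
  induction h generalizing js with
  | nil u =>
    obtain rfl := List.map_eq_nil_iff.mp hw
    exact ⟨l, hr.conj u, by simp⟩
  | cons u a _ ih =>
    obtain ⟨j, js, rfl, rfl, h1⟩ := List.map_eq_cons_iff.mp hw
    obtain ⟨h2, h3⟩ := List.nodup_cons.mp hj
    obtain ⟨l', h4, h5⟩ := ih js h3 h1
    have h6 : ∀ b, Sum.inr (j, b) ∉ l' := fun b => by simp [h5, hl, h2]
    have h7 := (h4.wrap (h6 true) (h6 false) (by simp) rfl rfl rfl rfl rfl).conj u
    refine ⟨_, by simpa [mul_assoc, label, sgn, add_assoc] using h7, fun p => ?_⟩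
    simp [h5]
    grind

lemma reach_face (φ : Fin m × Bool × Fin n) :
    ∃ l, Reach (label lab labJ) (start n J κ) 0 l
      (if φ.2.1 then relw lab κ φ.1 else (relw lab κ φ.1)⁻¹) ∧
      ∀ p, p ∈ l ↔ ∃ a, p = Sum.inl (φ.2.2, ⟨φ.1, a⟩, φ.2.1) := by
  obtain ⟨i, b, s⟩ := φ
  let f : Fin (k i + 1) → Let n k J := fun a => Sum.inl (s, ⟨i, a⟩, b)
  have hf : (List.ofFn f).Nodup := List.nodup_ofFn.mpr fun a a' h => by simpa [f] using h
  have hrot : ∀ a : Fin (k i), finRotate (k i + 1) a.castSucc = a.succ := fun a => by simp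
  cases b
  · have h1 : ∀ a, (start n J κ).σ (f a) = f ((finRotate _).symm a) := fun a => rfl
    have h2 := path_ofFn_rev (σ := (start n J κ).σ) f fun a => by
      rw [h1, ← hrot, Equiv.symm_apply_apply]
    rw [h1, ← finRotate_last, Equiv.symm_apply_apply] at h2
    have h3 := (Reach.base (lb := label lab labJ) ⟨by simp, List.nodup_reverse.mpr hf, _, h2⟩).conj
      (κ i (Fin.last _))⁻¹
    refine ⟨(List.ofFn f).reverse, ?_, fun p => by simp [f, eq_comm, -List.ofFn_succ]⟩
    convert h3 using 1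
    have h4 := ofFn_shift (fun a => (Coprod.inl (κ i a) : Coprod G (FreeGroup (Fin m))))
      (fun a => Coprod.inl (κ i ((finRotate _).symm a))) (fun a => gen G (lab i a))
      fun a => by rw [← hrot, Equiv.symm_apply_apply]
    rw [← finRotate_last, Equiv.symm_apply_apply] at h4
    have h5 : word (label lab labJ) (start n J κ) (List.ofFn f).reverse = (List.ofFn fun a =>
        Coprod.inl (κ i ((finRotate _).symm a)) * gen G (lab i a)).prod⁻¹ := by
      rw [List.prod_inv_reverse, word, List.map_reverse, List.map_ofFn, List.map_ofFn]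
      congr 3
      funext a
      simp [f, label, start, posWt, gen_sgn, -finRotate_symm_apply]
    rw [h5, eq_mul_inv_of_mul_eq h4]
    simp [relw, mul_assoc]
  · have h1 : ∀ a, (start n J κ).σ (f a) = f (finRotate _ a) := fun a => rfl
    have h2 := path_ofFn (σ := (start n J κ).σ) f fun a => by rw [h1, hrot]
    rw [h1, finRotate_last] at h2
    have h3 := Reach.base (lb := label lab labJ) ⟨by simp, hf, _, h2⟩
    refine ⟨List.ofFn f, ?_, fun p => by simp [f, eq_comm, -List.ofFn_succ]⟩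
    convert h3 using 1
    rw [word, List.map_ofFn]
    rfl

end Faces

lemma reach_fold {I Λ G Φ : Type*} [Group G] [DecidableEq I] {lb : I → Λ × Bool}
    {s : WP I (G × Circle)} (own : I → Φ) (len : Φ → ℕ) (T : Φ → Coprod G (FreeGroup Λ))
    (h : ∀ φ, ∃ l, Reach lb s (len φ) l (T φ) ∧ ∀ p, p ∈ l ↔ own p = φ) (φ : Φ) (L : List Φ)
    (hL : (φ :: L).Nodup) : ∃ l, Reach lb s (((φ :: L).map len).sum + L.length) l
      ((φ :: L).map T).prod ∧ ∀ p, p ∈ l ↔ own p ∈ φ :: L := by
  induction L generalizing φ with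
  | nil => simpa using h φ
  | cons ψ L ih =>
    obtain ⟨h1, h2⟩ := List.nodup_cons.mp hL
    obtain ⟨l, h3, h4⟩ := h φ
    obtain ⟨l', h5, h6⟩ := ih ψ h2
    have h7 := h3.merge h5 fun p hp hp' => h1 ((h4 p).mp hp ▸ (h6 p).mp hp')
    refine ⟨l ++ l', by simpa [add_assoc] using h7, fun p => ?_⟩
    rw [List.mem_append, h4, h6, List.mem_cons (a := own p) (b := φ)]

theorem comb {G : Type*} [Group G] {m n : ℕ} {k : Fin m → ℕ}
    (lab : ∀ i, Fin (k i + 1) → Fin m × Bool) (κ : ∀ i, Fin (k i + 1) → G)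
    (ord : List (Fin m × Bool × Fin n)) (hnd : ord.Nodup) (hall : ∀ φ, φ ∈ ord)
    (v : Fin m × Bool × Fin n → Coprod G (FreeGroup (Fin m))) (g : G) (hg : g ≠ 1)
    (hprod : (ord.map fun φ => v φ * (if φ.2.1 then relw lab κ φ.1 else (relw lab κ φ.1)⁻¹) *
      (v φ)⁻¹).prod = Coprod.inl g) :
    ∃ (J : Type) (_ : Fintype J) (_ : DecidableEq J) (labJ : J → Fin m × Bool), ∀ ω : Circle,
      ∃ (c : ℕ) (z : WP (Let n k J) (G × Circle)) (p0 : Let n k J),
        Chain c (start n J κ) z ∧ Terminal (label lab labJ) ω z p0 ∧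
        2 * c + 4 = 2 * Fintype.card J + 4 * (m * n) + Fintype.card (Let n k J) := by
  choose w hw using fun φ => exists_dec (v φ)
  obtain ⟨inst⟩ : Nonempty (DecidableEq (Σ φ, Fin (w φ).length)) := ⟨inferInstance⟩
  refine ⟨Σ φ, Fin (w φ).length, inferInstance, inst, fun j => (w j.1).get j.2, fun ω => ?_⟩
  obtain _ | ⟨φ₀, L⟩ := ord
  · exact absurd (Coprod.inl_injective (hprod.symm.trans (map_one _).symm)) hg
  obtain ⟨l, h1, h2⟩ := reach_fold (s := start n (Σ φ, Fin (w φ).length) κ)
    (lb := label lab fun j => (w j.1).get j.2)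
    (Sum.elim (fun a => (a.2.1.1, a.2.2, a.1)) fun a => a.1.1) (fun φ => (w φ).length)
    (fun φ => v φ * (if φ.2.1 then relw lab κ φ.1 else (relw lab κ φ.1)⁻¹) * (v φ)⁻¹) (fun φ => by
      obtain ⟨l, h1, h2⟩ := reach_face (lab := lab) (κ := κ)
        (labJ := fun j : Σ φ, Fin (w φ).length => (w j.1).get j.2) φ
      obtain ⟨l', h3, h4⟩ := reach_stems (hw φ) h1 (fun a => by simp [h2])
        (List.ofFn fun a => ⟨φ, a⟩) (List.nodup_ofFn.mpr fun a a' h => by simpa using h)
        (by rw [List.map_ofFn]; exact List.ofFn_get _)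
      refine ⟨l', by simpa using h3, ?_⟩
      obtain ⟨i, b, s⟩ := φ
      rintro (⟨s', ⟨i', a⟩, b'⟩ | ⟨⟨ψ, a⟩, b'⟩)
      · simp only [h4, h2, Sum.elim_inl]
        constructor
        · rintro (⟨_, ⟨⟩⟩ | ⟨_, _, _, ⟨⟩⟩)
          rfl
        · rintro ⟨⟩
          exact .inl ⟨a, rfl⟩
      · simp only [h4, h2, Sum.elim_inr, List.mem_ofFn]
        constructor
        · rintro (⟨_, ⟨⟩⟩ | ⟨_, ⟨_, rfl⟩, _, ⟨⟩⟩)
          rfl
        · rintro rfl
          exact .inr ⟨_, ⟨a, rfl⟩, b', rfl⟩) φ₀ L hnd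
  obtain ⟨x, h3, h4, ⟨u, h5⟩, -⟩ := h1 _ fun _ _ => ⟨rfl, rfl⟩
  have h6 : ∀ p, p ∈ l := fun p => (h2 p).mpr (hall _)
  obtain ⟨c, z, p0, h7, h8, h9⟩ := split_all (ω := ω) _ x l (u * g * u⁻¹) rfl h4
    (fun p hp => absurd (h6 p) hp) (by rw [h5, hprod]; simp) (by simpa using hg)
  refine ⟨_, z, p0, h3.trans h7, h8, ?_⟩
  have h10 : (φ₀ :: L).toFinset = Finset.univ := by
    ext φ
    simpa using hall φ
  have h11 : l.toFinset = Finset.univ := by
    ext p
    simpa using h6 p
  have h12 := List.toFinset_card_of_nodup hnd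
  have h13 := List.toFinset_card_of_nodup h4.2.1
  have h14 := List.sum_toFinset (fun φ => (w φ).length) hnd
  rw [h10] at h12 h14
  rw [h11, Finset.card_univ] at h13
  rw [h13, ← h14, Fintype.card_sigma]
  simp only [Fintype.card_fin, Finset.card_univ, Fintype.card_prod, Fintype.card_bool,
    List.length_cons] at h12 ⊢
  have h15 : m * (2 * n) = 2 * (m * n) := by ring
  omega

end Vale.Agent.P174
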