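import Vale.Agent.P174.WP
import Mathlib.GroupTheory.HNNExtension
import Mathlib.Tactic.Group

/-! Cycles of weighted permutations: words, merging and splitting. -/

namespace Vale.Agent.P174

open Monoid

section Path

variable {I : Type*} {σ σ' : I → I} {a b c : I} {l l₁ l₂ : List I}

/-- `l` lists the orbit of `a` under `σ`, and the next point is `b`. -/
def Path (σ : I → I) : I → List I → I → Prop
  | a, [], b => a = b
  | a, p :: l, b => a = p ∧ Path σ (σ p) l b

lemma path_append : Path σ a (l₁ ++ l₂) c ↔ ∃ b, Path σ a l₁ b ∧ Path σ b l₂ c := by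
  induction l₁ generalizing a with
  | nil => simp [Path]
  | cons p l ih => simp [Path, ih, and_assoc]

lemma Path.congr (h : Path σ a l b) (hσ : ∀ p ∈ l, σ' p = σ p) : Path σ' a l b := by
  induction l generalizing a with
  | nil => exact h
  | cons p l ih =>
    refine ⟨h.1, ?_⟩
    rw [hσ p (by simp)]
    exact ih h.2 fun q hq => hσ q (by simp [hq])

lemma path_ofFn {n : ℕ} (f : Fin (n + 1) → I) (h : ∀ a : Fin n, σ (f a.castSucc) = f a.succ) :
    Path σ (f 0) (List.ofFn f) (σ (f (Fin.last n))) := by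
  induction n with
  | zero => simp [Path]
  | succ n ih =>
    rw [List.ofFn_succ]
    refine ⟨rfl, ?_⟩
    rw [show σ (f 0) = f (Fin.succ 0) from h 0]
    exact ih (fun a => f a.succ) fun a => h a.succ

lemma path_ofFn_rev {n : ℕ} (f : Fin (n + 1) → I) (h : ∀ a : Fin n, σ (f a.succ) = f a.castSucc) :
    Path σ (f (Fin.last n)) (List.ofFn f).reverse (σ (f 0)) := by
  induction n with
  | zero => simp [Path]
  | succ n ih =>
    rw [List.ofFn_succ, List.reverse_cons, path_append]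
    exact ⟨_, ih (fun a => f a.succ) fun a => h a.succ, h 0, rfl⟩

end Path

lemma ofFn_shift {H : Type*} [Monoid H] {n : ℕ} (c c' g : Fin (n + 1) → H)
    (h : ∀ a : Fin n, c' a.succ = c a.castSucc) :
    (List.ofFn fun a => c' a * g a).prod * c (Fin.last n) =
      c' 0 * (List.ofFn fun a => g a * c a).prod := by
  induction n with
  | zero => simp [mul_assoc]
  | succ n ih =>
    have := ih (fun a => c a.succ) (fun a => c' a.succ) (fun a => g a.succ) fun a => h a.succ
    rw [List.ofFn_succ, List.ofFn_succ (f := fun a => g a * c a), List.prod_cons, List.prod_cons,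
      mul_assoc, ← Fin.succ_last, this, show c' (Fin.succ 0) = c 0 from h 0]
    simp only [mul_assoc]

lemma Chain.trans {I K : Type*} [DecidableEq I] [Group K] {k k' : ℕ} {x y z : WP I K}
    (h : Chain k x y) (h' : Chain k' y z) : Chain (k + k') x z := by
  induction h' with
  | refl => exact h
  | step p q y hpq _ ih => exact .step p q y hpq (ih h)

lemma gen_sgn (G : Type*) [Group G] {Λ : Type*} (a : Λ × Bool) :
    gen G (sgn false a) = (gen G a)⁻¹ := by
  obtain ⟨j, _ | _⟩ := a <;> simp [gen, sgn]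

lemma sgn_sgn {Λ : Type*} (a : Λ × Bool) : sgn false (sgn false a) = a := by
  simp [sgn]

section Britton

variable {G : Type*} [Group G] {m : ℕ}

/-- signed index of a letter -/
def sidx (a : Fin m × Bool) : Multiplicative ℤ :=
  Multiplicative.ofAdd (if a.2 then (a.1 : ℤ) else -(a.1 : ℤ))

/-- signed index of the first letter -/
def hdIdx : List ((Fin m × Bool) × G) → Multiplicative ℤ
  | [] => 1
  | a :: _ => sidx a.1

/-- the word in the HNN extension -/
def hnnList : List ((Fin m × Bool) × G) → List (ℤˣ × (G × Multiplicative ℤ))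
  | [] => []
  | a :: l => (if a.1.2 then 1 else -1, (a.2, sidx a.1 * hdIdx l)) :: hnnList l

lemma britton (l : List ((Fin m × Bool) × G)) (g : G)
    (h : (l.map fun a => gen G a.1 * Coprod.inl a.2).prod = Coprod.inl g)
    (hc : l.IsChain fun a b => ¬ (b.1 = sgn false a.1 ∧ a.2 = 1)) : l = [] := by
  let φ : (⊥ : Subgroup (G × Multiplicative ℤ)) ≃* (⊥ : Subgroup (G × Multiplicative ℤ)) :=
    MulEquiv.refl _
  let ψ : Coprod G (FreeGroup (Fin m)) →* HNNExtension _ ⊥ ⊥ φ :=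
    Coprod.lift (HNNExtension.of.comp (MonoidHom.inl _ _)) (FreeGroup.lift fun j =>
      HNNExtension.of (1, sidx (j, true)) * HNNExtension.t * HNNExtension.of (1, sidx (j, true)))
  have h1 : ∀ a, ψ (gen G a) = HNNExtension.of (1, sidx a) *
      HNNExtension.t ^ (((if a.2 then 1 else -1 : ℤˣ)) : ℤ) * HNNExtension.of (1, sidx a) := by
    rintro ⟨j, _ | _⟩
    · have : ((1 : G), sidx (j, false)) = ((1 : G), sidx (j, true))⁻¹ := by simp [sidx]
      simp [ψ, gen, this, mul_assoc, -Prod.inv_mk]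
    · simp [ψ, gen]
  have h2 : ∀ u, ψ (Coprod.inl u) = HNNExtension.of (u, 1) := fun u => by simp [ψ]
  have h3 : ∀ l : List ((Fin m × Bool) × G),
      ψ (l.map fun a => gen G a.1 * Coprod.inl a.2).prod = HNNExtension.of (1, hdIdx l) *
        ((hnnList l).map fun x => HNNExtension.t ^ (x.1 : ℤ) * HNNExtension.of x.2).prod := by
    intro l
    induction l with
    | nil => simp [hdIdx, hnnList, Prod.mk_one_one]
    | cons a l ih =>
      rw [List.map_cons, List.prod_cons, map_mul, map_mul, ih, h1, h2, hnnList, List.map_cons,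
        List.prod_cons, hdIdx]
      simp only [mul_assoc]
      congr 2
      rw [← mul_assoc, ← mul_assoc, ← map_mul, ← map_mul]
      simp
  have h4 : (hnnList l).IsChain fun a b =>
      a.2 ∈ HNNExtension.toSubgroup (⊥ : Subgroup (G × Multiplicative ℤ)) ⊥ a.1 → a.1 = b.1 := by
    clear h
    induction hc with
    | nil => exact .nil
    | singleton a => exact .singleton _
    | @cons_cons a b l hab _ ih =>
      refine .cons_cons (fun h => ?_) ih
      simp only [HNNExtension.toSubgroup, ite_self, Subgroup.mem_bot, Prod.mk_eq_one, hdIdx, sidx,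
        ← ofAdd_add, ofAdd_eq_one] at h
      obtain ⟨⟨i, _ | _⟩, u⟩ := a <;> obtain ⟨⟨j, _ | _⟩, u'⟩ := b <;>
        simp_all [sgn, Fin.ext_iff] <;> omega
  have h5 := HNNExtension.ReducedWord.toList_eq_nil_of_mem_of_range φ ⟨(1, hdIdx l), _, h4⟩
    ⟨(g, 1), by rw [← h2, ← h, h3]; rfl⟩
  cases l with
  | nil => rfl
  | cons a l => simp [hnnList] at h5

end Britton

variable {I Λ G : Type*} [Group G] [DecidableEq I] (lb : I → Λ × Bool)

/-- The word read along a list of points. -/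
def word (x : WP I (G × Circle)) (l : List I) : Coprod G (FreeGroup Λ) :=
  (l.map fun p => gen G (lb p) * Coprod.inl (x.wt p).1).prod

/-- `l` is a cycle of `x`. -/
def Cyc (x : WP I (G × Circle)) (l : List I) : Prop := l ≠ [] ∧ l.Nodup ∧ ∃ a, Path x.σ a l a

/-- `x` and `y` agree at `p`. -/
def Ag (x y : WP I (G × Circle)) (p : I) : Prop := x.σ p = y.σ p ∧ x.wt p = y.wt p

variable {lb} {x y s : WP I (G × Circle)} {l l₁ l₂ : List I} {k k₁ k₂ : ℕ}
  {W W₁ W₂ : Coprod G (FreeGroup Λ)}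

omit [DecidableEq I] in
lemma word_append : word lb x (l₁ ++ l₂) = word lb x l₁ * word lb x l₂ := by
  simp [word]

omit [DecidableEq I] in
lemma word_cons {p : I} :
    word lb x (p :: l) = gen G (lb p) * Coprod.inl (x.wt p).1 * word lb x l := by
  simp [word]

omit [DecidableEq I] in
lemma word_nil : word lb x [] = 1 := rfl

omit [DecidableEq I] in
lemma word_congr (h : ∀ p ∈ l, Ag x y p) : word lb x l = word lb y l := by
  unfold word
  rw [List.map_congr_left fun p hp => by rw [(h p hp).2]]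

omit [Group G] [DecidableEq I] in
lemma Cyc.congr (hc : Cyc y l) (h : ∀ p ∈ l, Ag x y p) : Cyc x l :=
  ⟨hc.1, hc.2.1, hc.2.2.imp fun _ ha => ha.congr fun p hp => (h p hp).1⟩

omit [Group G] [DecidableEq I] in
lemma Cyc.rotate (hc : Cyc x (l₁ ++ l₂)) : Cyc x (l₂ ++ l₁) := by
  obtain ⟨h1, h2, a, h3⟩ := hc
  obtain ⟨b, h4, h5⟩ := path_append.mp h3
  exact ⟨by simpa [or_comm, imp_iff_not_or] using h1, List.nodup_append_comm.mp h2, b,
    path_append.mpr ⟨a, h5, h4⟩⟩

lemma ag_step {p q r : I} {y : G × Circle} (h1 : r ≠ p) (h2 : r ≠ q) : Ag (x.step p q y) x r := by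
  simp [Ag, WP.step, h1, h2, Equiv.swap_apply_of_ne_of_ne h1 h2]

lemma exists_merge (h1 : Cyc x l₁) (h2 : Cyc x l₂) (hd : l₁.Disjoint l₂) (u : G) :
    ∃ x', Chain 1 x x' ∧ Cyc x' (l₁ ++ l₂) ∧
      word lb x' (l₁ ++ l₂) = word lb x l₁ * Coprod.inl u * word lb x l₂ * (Coprod.inl u)⁻¹ ∧
      ∀ r, r ∉ l₁ ++ l₂ → Ag x' x r := by
  obtain ⟨l₁, p, rfl⟩ := (List.eq_nil_or_concat' l₁).resolve_left h1.1
  obtain ⟨l₂, q, rfl⟩ := (List.eq_nil_or_concat' l₂).resolve_left h2.1
  have hnd := h1.2.1.append h2.2.1 hd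
  have hpq : p ≠ q := fun h => hd (a := p) (by simp) (by simp [h])
  have a1 : ∀ y, ∀ r ∈ l₁, Ag (x.step p q y) x r := fun y r hr => ag_step
    (fun h => by simp [← h, List.nodup_append] at hnd; grind)
    (fun h => hd (a := r) (by simp [hr]) (by simp [h]))
  have a2 : ∀ y, ∀ r ∈ l₂, Ag (x.step p q y) x r := fun y r hr => ag_step
    (fun h => hd (a := r) (by simp [h]) (by simp [hr]))
    (fun h => by simp [← h, List.nodup_append] at hnd; grind)
  refine ⟨x.step p q (x.wt p * (u, 1) * (x.wt q)⁻¹), .step p q _ hpq (.refl x),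
    ⟨by simp, hnd, ?_⟩, ?_, fun r hr => ag_step (fun h => hr (by simp [h])) fun h => hr (by simp [h])⟩
  · obtain ⟨a, ha⟩ := h1.2.2
    obtain ⟨b, hb⟩ := h2.2.2
    simp only [path_append, Path] at ha hb ⊢
    obtain ⟨_, ha, rfl, ha'⟩ := ha
    obtain ⟨_, hb, rfl, hb'⟩ := hb
    exact ⟨a, b, ⟨_, ha.congr fun r hr => (a1 _ r hr).1, rfl, by simp [WP.step, hb']⟩,
      _, hb.congr fun r hr => (a2 _ r hr).1, rfl, by simp [WP.step, ha']⟩
  · simp only [word_append, word_cons, word_nil, word_congr (a1 _), word_congr (a2 _)]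
    simp [WP.step, hpq.symm, mul_assoc]

/-- From any configuration agreeing with `s` on `l`, `k` moves inside `l` make `l` a cycle whose
word is conjugate to `W` by a coefficient. -/
def Reach (lb : I → Λ × Bool) (s : WP I (G × Circle)) (k : ℕ) (l : List I)
    (W : Coprod G (FreeGroup Λ)) : Prop :=
  ∀ y, (∀ p ∈ l, Ag y s p) → ∃ x, Chain k y x ∧ Cyc x l ∧
    (∃ h : G, word lb x l = Coprod.inl h * W * (Coprod.inl h)⁻¹) ∧ ∀ p, p ∉ l → Ag x y p

lemma Reach.base (h : Cyc s l) : Reach lb s 0 l (word lb s l) := fun y hy =>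
  ⟨y, .refl y, h.congr hy, ⟨1, by simp [word_congr hy]⟩, fun _ _ => ⟨rfl, rfl⟩⟩

lemma Reach.conj (h : Reach lb s k l W) (u : G) :
    Reach lb s k l (Coprod.inl u * W * (Coprod.inl u)⁻¹) := fun y hy => by
  obtain ⟨x, h1, h2, ⟨v, h3⟩, h4⟩ := h y hy
  exact ⟨x, h1, h2, ⟨v * u⁻¹, by simp [h3, mul_assoc]⟩, h4⟩

omit [Group G] [DecidableEq I] in
lemma Ag.trans {z : WP I (G × Circle)} {p : I} (h : Ag x y p) (h' : Ag y z p) : Ag x z p :=
  ⟨h.1.trans h'.1, h.2.trans h'.2⟩

lemma Reach.merge (h1 : Reach lb s k₁ l₁ W₁) (h2 : Reach lb s k₂ l₂ W₂) (hd : l₁.Disjoint l₂) :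
    Reach lb s (k₁ + k₂ + 1) (l₁ ++ l₂) (W₁ * W₂) := fun y hy => by
  obtain ⟨x₁, a1, a2, ⟨u₁, a3⟩, a4⟩ := h1 y fun p hp => hy p (by simp [hp])
  obtain ⟨x₂, b1, b2, ⟨u₂, b3⟩, b4⟩ := h2 x₁ fun p hp =>
    (a4 p fun h => hd h hp).trans (hy p (by simp [hp]))
  have b5 : ∀ p ∈ l₁, Ag x₂ x₁ p := fun p hp => b4 p (hd hp)
  obtain ⟨x, c1, c2, c3, c4⟩ := exists_merge (lb := lb) (a2.congr b5) b2 hd (u₁ * u₂⁻¹)
  refine ⟨x, (a1.trans b1).trans c1, c2, ⟨u₁, ?_⟩, fun p hp => (c4 p hp).trans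
    ((b4 p fun h => hp (by simp [h])).trans (a4 p fun h => hp (by simp [h])))⟩
  rw [c3, word_congr b5, a3, b3]
  simp [mul_assoc]

lemma Reach.wrap (h : Reach lb s k l W) {p q : I} (hp : p ∉ l) (hq : q ∉ l) (hpq : q ≠ p)
    (h1 : s.σ p = q) (h2 : s.σ q = p) (h3 : (s.wt p).1 = 1) (h4 : (s.wt q).1 = 1)
    (h5 : lb q = sgn false (lb p)) :
    Reach lb s (k + 1) (p :: l ++ [q]) (gen G (lb p) * W * (gen G (lb p))⁻¹) := fun y hy => by
  obtain ⟨x₁, a1, a2, ⟨u, a3⟩, a4⟩ := h y fun r hr => hy r (by simp [hr])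
  have a5 : ∀ r ∈ [q, p], Ag x₁ s r := by
    intro r hr
    rcases List.mem_pair.mp hr with rfl | rfl
    · exact (a4 r hq).trans (hy r (by simp))
    · exact (a4 r hp).trans (hy r (by simp))
  have a6 : Cyc s [q, p] := ⟨by simp, by simp [hpq], q, by simp [Path, h1, h2]⟩
  obtain ⟨x, c1, c2, c3, c4⟩ := exists_merge (lb := lb) (a6.congr a5) a2
    (by simp [hp, hq]) u⁻¹
  refine ⟨x, a1.trans c1, Cyc.rotate (l₁ := [q]) (l₂ := p :: l) c2, ⟨(x.wt q).1⁻¹, ?_⟩,
    fun r hr => (c4 r fun h => hr (by simp at h ⊢; tauto)).trans (a4 r fun h => hr (by simp [h]))⟩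
  rw [word_congr a5, a3, show [q, p] ++ l = q :: p :: l from rfl, word_cons] at c3
  simp only [word_cons (x := s), word_nil, h3, h4, h5, gen_sgn, map_one, map_inv] at c3
  rw [word_append, eq_inv_mul_of_mul_eq c3, word_cons, word_nil, h5, gen_sgn, map_inv]
  group

end Vale.Agent.P174
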