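import Mathlib.Algebra.BigOperators.Field
import Mathlib.Analysis.SpecialFunctions.Trigonometric.Basic
import Mathlib.Analysis.SpecialFunctions.Trigonometric.Deriv
import Mathlib.Analysis.SpecialFunctions.ExpDeriv
import Mathlib.Analysis.Calculus.Deriv.MeanValue
import Mathlib.Analysis.Complex.RealDeriv
import Mathlib.Algebra.Star.Module
import Mathlib.Algebra.Ring.GeomSum
import Mathlib.Algebra.Field.GeomSum

/-! A smoothed winding functional on a star algebra with a positive trace. -/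

namespace Vale.Agent.P174

open Complex Finset ComplexConjugate

variable {𝒜 : Type*} [Ring 𝒜] [StarRing 𝒜] [Algebra ℂ 𝒜]

/-- a positive trace. -/
structure IsTr (τ : 𝒜 →ₗ[ℂ] ℂ) : Prop where
  comm : ∀ x y, τ (x * y) = τ (y * x)
  nonneg : ∀ x, 0 ≤ (τ (star x * x)).re
  map_st : ∀ x, τ (star x) = conj (τ x)

/-- the smoothed winding functional. -/
noncomputable def FF (τ : 𝒜 →ₗ[ℂ] ℂ) (M : ℕ) (X : 𝒜) : ℝ :=
  ∑ j ∈ range M, ((M : ℝ) - j) / ((M + 1) * (j + 1)) * (τ (X ^ (j + 1))).im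

/-- the one-parameter unitary group of a projection. -/
noncomputable def BB (q : 𝒜) (t : ℝ) : 𝒜 := 1 + (exp (t * I) - 1) • q

/-- formal derivative of a power. -/
def DD (Z Y : 𝒜) : ℕ → 𝒜
  | 0 => 0
  | j + 1 => DD Z Y j * Z + Z ^ j * Y

omit [StarRing 𝒜] in
theorem hasDerivAt_pow_aux (X Y : 𝒜) (w : ℂ) (j : ℕ) (φ : 𝒜 →ₗ[ℂ] ℂ) :
    HasDerivAt (fun w : ℂ => φ ((X + w • Y) ^ j)) (φ (DD (X + w • Y) Y j)) w := by
  induction j generalizing φ with
  | zero => simpa [DD] using hasDerivAt_const w (φ 1)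
  | succ j ih =>
    have h1 := ih (φ ∘ₗ LinearMap.mulRight ℂ X)
    have h2 := (hasDerivAt_id w).mul (ih (φ ∘ₗ LinearMap.mulRight ℂ Y))
    have h3 := h1.add h2
    have e1 : (fun w : ℂ => φ ((X + w • Y) ^ (j + 1))) =
        (fun w : ℂ => (φ ∘ₗ LinearMap.mulRight ℂ X) ((X + w • Y) ^ j)) +
          (id * fun w : ℂ => (φ ∘ₗ LinearMap.mulRight ℂ Y) ((X + w • Y) ^ j)) := by
      funext w
      simp only [pow_succ, mul_add, mul_smul_comm, map_add, map_smul, Pi.add_apply, Pi.mul_apply,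
        id, LinearMap.comp_apply, LinearMap.mulRight_apply, smul_eq_mul]
    rw [e1]
    refine h3.congr_deriv ?_
    simp only [DD, mul_add, mul_smul_comm, map_add, map_smul, id, LinearMap.comp_apply,
      LinearMap.mulRight_apply, smul_eq_mul]
    ring

theorem IsTr.tr_DD {τ : 𝒜 →ₗ[ℂ] ℂ} (h : IsTr τ) (Z Y : 𝒜) (j k : ℕ) :
    τ (DD Z Y (j + 1) * Z ^ k) = (j + 1) * τ (Z ^ (j + k) * Y) := by
  induction j generalizing k with
  | zero =>
    simp only [DD, zero_mul, zero_add, pow_zero, one_mul, Nat.cast_zero]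
    exact h.comm _ _
  | succ j ih =>
    rw [DD, add_mul, map_add, mul_assoc, ← pow_succ', ih, h.comm (_ * Y), ← mul_assoc,
      ← pow_add]
    rw [show j + (k + 1) = j + 1 + k by ring, show k + (j + 1) = j + 1 + k by ring]
    push_cast
    ring

theorem IsTr.pow_comm {τ : 𝒜 →ₗ[ℂ] ℂ} (h : IsTr τ) (X Y : 𝒜) (j : ℕ) :
    τ ((X * Y) ^ (j + 1)) = τ ((Y * X) ^ (j + 1)) := by
  rw [pow_succ, ← mul_assoc, h.comm, mul_pow_mul, ← mul_assoc, ← pow_succ']

theorem IsTr.FF_comm {τ : 𝒜 →ₗ[ℂ] ℂ} (h : IsTr τ) (M : ℕ) (X Y : 𝒜) :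
    FF τ M (X * Y) = FF τ M (Y * X) := by
  simp only [FF, h.pow_comm X Y]

omit [StarRing 𝒜] in
theorem BB_mul_q {q : 𝒜} (hq : q * q = q) (t : ℝ) : BB q t * q = exp (t * I) • q := by
  rw [BB, add_mul, smul_mul_assoc, hq, one_mul, sub_smul, one_smul]
  abel

omit [StarRing 𝒜] in
theorem BB_zero (q : 𝒜) : BB q 0 = 1 := by simp [BB]

omit [StarRing 𝒜] in
theorem BB_pi (q : 𝒜) : BB q Real.pi = 1 - (2 : ℂ) • q := by
  rw [BB, exp_pi_mul_I, sub_eq_add_neg 1, ← neg_smul]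
  norm_num

omit [StarRing 𝒜] in
theorem BB_one (t : ℝ) : BB (1 : 𝒜) t = exp (t * I) • (1 : 𝒜) := by
  rw [BB, sub_smul, one_smul]
  abel

theorem star_BB_mul [StarModule ℂ 𝒜] {q : 𝒜} (hs : star q = q) (hq : q * q = q) (t : ℝ) :
    star (BB q t) * BB q t = 1 := by
  have h1 : conj (exp (t * I)) * exp (t * I) = 1 := by
    rw [← exp_conj, ← exp_add]
    simp
  rw [BB, star_add, star_one, star_smul, hs, add_mul, one_mul, mul_add, mul_one, smul_mul_assoc,
    mul_smul_comm, hq, smul_smul, add_assoc, ← add_smul, ← add_smul, add_eq_left]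
  have : exp (t * I) - 1 + (star (exp (t * I) - 1) + star (exp (t * I) - 1) * (exp (t * I) - 1))
      = 0 := by
    rw [star_sub, star_one, Complex.star_def]
    linear_combination h1
  rw [this, zero_smul]

theorem star_mul_BB [StarModule ℂ 𝒜] {X q : 𝒜} (hX : star X * X = 1) (hs : star q = q)
    (hq : q * q = q) (t : ℝ) : star (X * BB q t) * (X * BB q t) = 1 := by
  rw [star_mul, mul_assoc, ← mul_assoc (star X), hX, one_mul, star_BB_mul hs hq]

theorem IsTr.hasDerivAt_pow {τ : 𝒜 →ₗ[ℂ] ℂ} (h : IsTr τ) (X : 𝒜) {q : 𝒜} (hq : q * q = q)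
    (j : ℕ) (t : ℝ) :
    HasDerivAt (fun t : ℝ => (τ ((X * BB q t) ^ (j + 1))).im)
      ((j + 1) * (τ ((X * BB q t) ^ (j + 1) * q)).re) t := by
  have e : ∀ s : ℝ, X * BB q s = X + (exp (s * I) - 1) • (X * q) := fun s => by
    rw [BB, mul_add, mul_one, mul_smul_comm]
  have h1 : HasDerivAt (fun s : ℂ => exp (s * I) - 1) (exp (t * I) * I) (t : ℂ) := by
    simpa using (((hasDerivAt_id (t : ℂ)).mul_const I).cexp).sub_const 1
  have h2 := (hasDerivAt_pow_aux X (X * q) (exp (t * I) - 1) (j + 1) τ).comp (t : ℂ) h1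
  have h3 := Complex.imCLM.hasFDerivAt.comp_hasDerivAt t h2.comp_ofReal
  have e2 : (fun t : ℝ => (τ ((X * BB q t) ^ (j + 1))).im) =
      Complex.imCLM ∘ fun y : ℝ => ((fun w : ℂ => τ ((X + w • (X * q)) ^ (j + 1))) ∘
        fun s : ℂ => exp (s * I) - 1) y := by
    funext s
    simp only [e, Function.comp_apply, imCLM_apply]
  rw [e2]
  refine h3.congr_deriv ?_
  have h4 := h.tr_DD (X * BB q t) (X * q) j 0
  rw [pow_zero, mul_one, add_zero] at h4
  have h5 : (X * BB q t) ^ (j + 1) * q = exp (t * I) • ((X * BB q t) ^ j * (X * q)) := by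
    rw [pow_succ, mul_assoc, mul_assoc X, BB_mul_q hq, mul_smul_comm, mul_smul_comm]
  rw [← e, h4, h5, map_smul, smul_eq_mul, imCLM_apply]
  have : ((j : ℂ) + 1) * τ ((X * BB q t) ^ j * (X * q)) * (exp (t * I) * I) =
      (((j : ℝ) + 1 : ℝ) : ℂ) * (exp (t * I) * τ ((X * BB q t) ^ j * (X * q))) * I := by
    push_cast
    ring
  rw [this, mul_I_im, re_ofReal_mul]

/-- the Fejer identity. -/
theorem IsTr.fejer {τ : 𝒜 →ₗ[ℂ] ℂ} (h : IsTr τ) {Z q : 𝒜} (hZ : star Z * Z = 1)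
    (hs : star q = q) (M : ℕ) :
    (τ (star (∑ r ∈ range (M + 1), Z ^ r) * (∑ r ∈ range (M + 1), Z ^ r) * q)).re =
      (M + 1) * (τ q).re + 2 * ∑ j ∈ range M, ((M : ℝ) - j) * (τ (Z ^ (j + 1) * q)).re := by
  have hpow : ∀ r, star (Z ^ r) * Z ^ r = 1 := by
    intro r
    induction r with
    | zero => simp
    | succ r ih =>
      rw [pow_succ, star_mul, mul_assoc, ← mul_assoc (star (Z ^ r)), ih, one_mul, hZ]
  induction M with
  | zero => simp
  | succ M ih =>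
    have e1 : star (∑ r ∈ range (M + 1), Z ^ r) * Z ^ (M + 1) =
        ∑ j ∈ range (M + 1), Z ^ (j + 1) := by
      rw [star_sum, sum_mul, ← sum_range_reflect]
      refine sum_congr rfl fun j hj => ?_
      have hj' := mem_range.mp hj
      rw [show M + 1 = (M + 1 - 1 - j) + (j + 1) by omega, pow_add, ← mul_assoc]
      rw [show M + 1 - 1 - j + (j + 1) - 1 - j = M + 1 - 1 - j by omega, hpow, one_mul]
    have e2 : (τ (star (Z ^ (M + 1)) * (∑ r ∈ range (M + 1), Z ^ r) * q)).re =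
        (τ ((∑ j ∈ range (M + 1), Z ^ (j + 1)) * q)).re := by
      rw [← e1, ← conj_re, ← h.map_st, star_mul, star_mul, star_star, hs, h.comm]
    rw [sum_range_succ _ (M + 1), star_add, add_mul, mul_add, mul_add, hpow, e1]
    simp only [add_mul, map_add, add_re, one_mul]
    rw [ih, e2, sum_mul, map_sum, re_sum]
    have e3 : ∑ j ∈ range (M + 1), (((M + 1 : ℕ) : ℝ) - j) * (τ (Z ^ (j + 1) * q)).re =
        ∑ j ∈ range M, ((M : ℝ) - j) * (τ (Z ^ (j + 1) * q)).re +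
          ∑ j ∈ range (M + 1), (τ (Z ^ (j + 1) * q)).re := by
      have : ∑ j ∈ range M, ((M : ℝ) - j) * (τ (Z ^ (j + 1) * q)).re =
          ∑ j ∈ range (M + 1), ((M : ℝ) - j) * (τ (Z ^ (j + 1) * q)).re := by
        rw [sum_range_succ, sub_self, zero_mul, add_zero]
      rw [this, ← sum_add_distrib]
      refine sum_congr rfl fun j _ => ?_
      push_cast
      ring
    rw [e3]
    push_cast
    ring

/-- the Fejer kernel term. -/
noncomputable def KK (τ : 𝒜 →ₗ[ℂ] ℂ) (M : ℕ) (Z q : 𝒜) : ℝ :=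
  (τ (star (∑ r ∈ range (M + 1), Z ^ r) * (∑ r ∈ range (M + 1), Z ^ r) * q)).re / (M + 1)

theorem IsTr.KK_nonneg {τ : 𝒜 →ₗ[ℂ] ℂ} (h : IsTr τ) (M : ℕ) (Z : 𝒜) {q : 𝒜} (hs : star q = q)
    (hq : q * q = q) : 0 ≤ KK τ M Z q := by
  refine div_nonneg ?_ (by positivity)
  have := h.nonneg ((∑ r ∈ range (M + 1), Z ^ r) * q)
  rwa [star_mul, hs, mul_assoc, h.comm, mul_assoc, mul_assoc, hq, ← mul_assoc] at this

theorem IsTr.hasDerivAt_FF [StarModule ℂ 𝒜] {τ : 𝒜 →ₗ[ℂ] ℂ} (h : IsTr τ) (M : ℕ) {X q : 𝒜}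
    (hX : star X * X = 1) (hs : star q = q) (hq : q * q = q) (t : ℝ) :
    HasDerivAt (fun t : ℝ => FF τ M (X * BB q t))
      ((KK τ M (X * BB q t) q - (τ q).re) / 2) t := by
  have h1 := HasDerivAt.fun_sum (u := range M) fun j _ =>
    (h.hasDerivAt_pow X hq j t).const_mul (((M : ℝ) - j) / ((M + 1) * (j + 1)))
  refine h1.congr_deriv ?_
  rw [KK, h.fejer (star_mul_BB hX hs hq t) hs]
  have : ∑ j ∈ range M, ((M : ℝ) - j) / ((M + 1) * (j + 1)) *
      ((j + 1) * (τ ((X * BB q t) ^ (j + 1) * q)).re) =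
      (∑ j ∈ range M, ((M : ℝ) - j) * (τ ((X * BB q t) ^ (j + 1) * q)).re) / (M + 1) := by
    rw [sum_div]
    refine sum_congr rfl fun j _ => ?_
    field_simp
  rw [this]
  field_simp
  ring

/-- Lemma P. -/
theorem IsTr.FF_mul_BB [StarModule ℂ 𝒜] {τ : 𝒜 →ₗ[ℂ] ℂ} (h : IsTr τ) (M : ℕ) {X q : 𝒜}
    (hX : star X * X = 1) (hs : star q = q) (hq : q * q = q) {t : ℝ} (ht : 0 ≤ t) :
    FF τ M X - t * (τ q).re / 2 ≤ FF τ M (X * BB q t) := by
  have hd : ∀ s : ℝ, HasDerivAt (fun s : ℝ => FF τ M (X * BB q s) + s * ((τ q).re / 2))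
      (KK τ M (X * BB q s) q / 2) s := fun s => by
    refine ((h.hasDerivAt_FF M hX hs hq s).add ((hasDerivAt_id s).mul_const _)).congr_deriv ?_
    ring
  have hm : Monotone fun s : ℝ => FF τ M (X * BB q s) + s * ((τ q).re / 2) :=
    monotone_of_deriv_nonneg (fun s => (hd s).differentiableAt) fun s => by
      rw [(hd s).deriv]
      exact div_nonneg (h.KK_nonneg M _ hs hq) two_pos.le
  have := hm ht
  simp only [BB_zero, mul_one, zero_mul, add_zero] at this
  linarith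

theorem IsTr.FF_mul_prod [StarModule ℂ 𝒜] {τ : 𝒜 →ₗ[ℂ] ℂ} (h : IsTr τ) (M : ℕ) (qs : List 𝒜)
    (hq : ∀ q ∈ qs, star q = q ∧ q * q = q) {X : 𝒜} (hX : star X * X = 1) :
    FF τ M X - Real.pi / 2 * (qs.map fun q => (τ q).re).sum ≤
      FF τ M (X * (qs.map fun q => 1 - (2 : ℂ) • q).prod) := by
  induction qs generalizing X with
  | nil => simp
  | cons q qs ih =>
    obtain ⟨hs, hqq⟩ := hq q List.mem_cons_self
    have h1 := ih (fun q' hq' => hq q' (List.mem_cons_of_mem _ hq'))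
      (star_mul_BB hX hs hqq Real.pi)
    have h2 := h.FF_mul_BB M hX hs hqq Real.pi_pos.le
    rw [List.map_cons, List.map_cons, List.sum_cons, List.prod_cons, ← mul_assoc, ← BB_pi]
    linarith

/-- the scalar functional. -/
noncomputable def GG (M : ℕ) (z : ℂ) : ℝ :=
  ∑ j ∈ range M, ((M : ℝ) - j) / ((M + 1) * (j + 1)) * (z ^ (j + 1)).im

theorem GG_conj (M : ℕ) (z : ℂ) : GG M (conj z) = -GG M z := by
  simp only [GG, ← map_pow, conj_im, mul_neg, sum_neg_distrib]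

theorem isTr_id : IsTr (LinearMap.id : ℂ →ₗ[ℂ] ℂ) where
  comm x y := mul_comm x y
  nonneg x := by
    change 0 ≤ (conj x * x).re
    rw [← normSq_eq_conj_mul_self, ofReal_re]
    exact normSq_nonneg x
  map_st _ := rfl

theorem exists_GG_ge {a ε : ℝ} (ha : 0 < a) (ha' : a ≤ Real.pi) (hε : 0 < ε) :
    ∃ M : ℕ, ∀ x, a ≤ x → x ≤ Real.pi → (Real.pi - x) / 2 - ε ≤ GG M (exp (x * I)) := by
  have hc : Real.cos a < 1 := by
    rw [← Real.cos_zero]
    exact Real.cos_lt_cos_of_nonneg_of_le_pi le_rfl ha' ha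
  obtain ⟨M, hM⟩ := exists_nat_ge (8 / (ε * (2 - 2 * Real.cos a)))
  refine ⟨M, fun x hx hx' => ?_⟩
  have hB : ∀ s : ℝ, (1 : ℂ) * BB (1 : ℂ) s = exp (s * I) := fun s => by
    rw [BB_one, one_mul, smul_eq_mul, mul_one]
  have hd : ∀ s : ℝ, HasDerivAt (fun s : ℝ => GG M (exp (s * I)) + s * ((1 - ε / 2) / 2))
      ((KK LinearMap.id M (exp (s * I)) 1 - ε / 2) / 2) s := fun s => by
    have h1 := isTr_id.hasDerivAt_FF M (X := 1) (q := 1) (by simp) (by simp) (by simp) s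
    simp only [hB] at h1
    refine (h1.add ((hasDerivAt_id s).mul_const _)).congr_deriv ?_
    simp only [LinearMap.id_apply, one_re]
    ring
  have hK : ∀ s : ℝ, a ≤ s → s ≤ Real.pi → KK LinearMap.id M (exp (s * I)) 1 ≤ ε / 2 := by
    intro s hs hs'
    have h1 : Real.cos s ≤ Real.cos a := Real.cos_le_cos_of_nonneg_of_le_pi ha.le hs' hs
    have h2 : normSq (exp (s * I) - 1) = 2 - 2 * Real.cos s := by
      rw [normSq_apply]
      simp only [sub_re, exp_ofReal_mul_I_re, one_re, sub_im, exp_ofReal_mul_I_im, one_im]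
      linear_combination Real.sin_sq_add_cos_sq s
    have h3 : normSq (exp (s * I) ^ (M + 1) - 1) ≤ 4 := by
      rw [normSq_eq_norm_sq]
      have : ‖exp (s * I) ^ (M + 1) - 1‖ ≤ 2 := by
        refine (norm_sub_le _ _).trans ?_
        rw [norm_pow, norm_exp_ofReal_mul_I, one_pow, norm_one]
        norm_num
      nlinarith [norm_nonneg (exp (s * I) ^ (M + 1) - 1)]
    have h4 : normSq (∑ r ∈ range (M + 1), exp (s * I) ^ r) * (2 - 2 * Real.cos s) ≤ 4 := by
      rw [← h2, ← normSq_mul, geom_sum_mul]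
      exact h3
    have h5 : KK LinearMap.id M (exp (s * I)) 1 =
        normSq (∑ r ∈ range (M + 1), exp (s * I) ^ r) / (M + 1) := by
      rw [KK, LinearMap.id_apply, mul_one, Complex.star_def, ← normSq_eq_conj_mul_self, ofReal_re]
    have h6 : 0 < 2 - 2 * Real.cos a := by linarith
    rw [div_le_iff₀ (mul_pos hε h6)] at hM
    have h7 := normSq_nonneg (∑ r ∈ range (M + 1), exp (s * I) ^ r)
    rw [h5, div_le_iff₀ (by positivity)]
    have h8 : normSq (∑ r ∈ range (M + 1), exp (s * I) ^ r) * (2 - 2 * Real.cos a) ≤ 4 := by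
      nlinarith
    refine le_of_mul_le_mul_right ?_ h6
    nlinarith [mul_pos hε h6]
  have hm : AntitoneOn (fun s : ℝ => GG M (exp (s * I)) + s * ((1 - ε / 2) / 2))
      (Set.Icc a Real.pi) := by
    refine antitoneOn_of_deriv_nonpos (convex_Icc _ _)
      (fun s _ => (hd s).continuousAt.continuousWithinAt)
      (fun s _ => (hd s).differentiableAt.differentiableWithinAt) fun s hs => ?_
    rw [interior_Icc] at hs
    rw [(hd s).deriv]
    linarith [hK s hs.1.le hs.2.le]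
  have h1 := hm ⟨hx, hx'⟩ ⟨ha', le_rfl⟩ hx'
  have h2 : GG M (exp (Real.pi * I)) = 0 := by
    have := GG_conj M (exp (Real.pi * I))
    rw [exp_pi_mul_I] at this ⊢
    rw [map_neg, map_one] at this
    linarith
  simp only [h2] at h1
  have h3 := Real.pi_le_four
  nlinarith

end Vale.Agent.P174
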