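import Vale.Agent.P174.GA
import Vale.Agent.P174.TraceAbs
import Mathlib.Analysis.SpecialFunctions.Complex.Circle
import Mathlib.Analysis.Real.Pi.Bounds
import Mathlib.GroupTheory.OrderOfElement
import Mathlib.Analysis.SpecialFunctions.Trigonometric.Deriv
import Mathlib.Analysis.Calculus.Deriv.MeanValue

/-! The trace inequality. -/

namespace Vale.Agent.P174

open Complex

open Finset ComplexConjugate

theorem isTr_mtr {G : Type*} [Group G] {I : Type} [Fintype I] [DecidableEq I] :
    IsTr (mtr : Matrix I I (GA G) →ₗ[ℂ] ℂ) := ⟨mtr_comm, mtr_nonneg, mtr_star⟩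

theorem isTr_tr {G : Type*} [Group G] : IsTr (GA.tr : GA G →ₗ[ℂ] ℂ) :=
  ⟨GA.tr_comm, GA.tr_nonneg, GA.tr_star⟩

theorem isTr_trace {I : Type} [Fintype I] [DecidableEq I] :
    IsTr (Matrix.traceLinearMap I ℂ ℂ) where
  comm x y := Matrix.trace_mul_comm x y
  nonneg x := by
    have := mtr_nonneg (lift PUnit.{1} x)
    rwa [← lift_star, ← map_mul, mtr_lift] at this
  map_st x := Matrix.trace_conjTranspose x

theorem FF_diagonal {G : Type*} [Group G] {I : Type} [Fintype I] [DecidableEq I] (M : ℕ)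
    (v : I → GA G) : FF mtr M (Matrix.diagonal v) = ∑ p, FF GA.tr M (v p) := by
  simp only [FF, Matrix.diagonal_pow, mtr_apply, Matrix.diagonal_apply_eq, Pi.pow_apply, im_sum,
    mul_sum]
  rw [sum_comm]

theorem tr_rho_pow {G : Type*} [Group G] (k : G × Circle) (j : ℕ) [Decidable (k.1 ^ j = 1)] :
    GA.tr (rho k ^ j) = if k.1 ^ j = 1 then (k.2 : ℂ) ^ j else 0 := by
  rw [← map_pow, rho_apply, Prod.pow_fst, GA.tr_single, Prod.pow_snd, Circle.coe_pow]

theorem FF_rho_one {G : Type*} [Group G] (M : ℕ) (z : Circle) :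
    FF GA.tr M (rho ((1 : G), z)) = GG M z := by
  classical
  simp only [FF, GG, tr_rho_pow, one_pow, if_true]

theorem star_rho_mul {G : Type*} [Group G] (k : G × Circle) : star (rho k) * rho k = 1 := by
  rw [star_rho, ← map_mul, inv_mul_cancel, map_one]

theorem FF_rho_ge {G : Type*} [Group G] (M : ℕ) (k : G × Circle) (hk : k.1 ≠ 1) :
    -(Real.pi / 4) ≤ FF GA.tr M (rho k) := by
  classical
  obtain ⟨g, z⟩ := k
  obtain ⟨r, hr2, hr⟩ : ∃ r : ℕ, 2 ≤ r ∧ ∀ j, g ^ (j + 1) = 1 → r ∣ j + 1 := by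
    by_cases h0 : orderOf g = 0
    · refine ⟨2, le_rfl, fun j hj => ?_⟩
      have := orderOf_dvd_of_pow_eq_one hj
      rw [h0, zero_dvd_iff] at this
      omega
    · refine ⟨orderOf g, ?_, fun j hj => orderOf_dvd_of_pow_eq_one hj⟩
      have : orderOf g ≠ 1 := fun h => hk (orderOf_eq_one_iff.mp h)
      omega
  obtain ⟨θ, rfl⟩ := Circle.exp_surjective z
  have hr0 : (2 : ℝ) ≤ r := by exact_mod_cast hr2
  have hpi := Real.pi_pos
  obtain ⟨n, s, hs0, hs1, rfl⟩ : ∃ (n : ℤ) (s : ℝ), 0 ≤ s ∧ s ≤ Real.pi / 2 ∧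
      θ = n * (Real.pi / r) + s := by
    have hp : 0 < Real.pi / r := by positivity
    refine ⟨⌊θ / (Real.pi / r)⌋, θ - ⌊θ / (Real.pi / r)⌋ * (Real.pi / r),
      Int.sub_floor_div_mul_nonneg θ hp, ?_, by ring⟩
    refine (Int.sub_floor_div_mul_lt θ hp).le.trans ?_
    exact div_le_div_of_nonneg_left hpi.le two_pos hr0
  have h1 := isTr_tr.FF_mul_BB M (star_rho_mul (g, Circle.exp (n * (Real.pi / r)))) (q := 1)
    (star_one _) (one_mul _) hs0
  have h2 : rho (g, Circle.exp (n * (Real.pi / r))) * BB 1 s =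
      rho (g, Circle.exp (n * (Real.pi / r) + s)) := by
    rw [BB_one, mul_smul_comm, mul_one, rho_apply, rho_apply, MonoidAlgebra.smul_single,
      Circle.exp_add, Circle.coe_mul, smul_eq_mul, mul_comm (exp _), Circle.coe_exp s]
  have h3 : FF GA.tr M (rho (g, Circle.exp (n * (Real.pi / r)))) = 0 := by
    refine sum_eq_zero fun j _ => ?_
    rw [tr_rho_pow]
    split_ifs with hj
    · obtain ⟨c, hc⟩ := hr j hj
      have hc' : ((j + 1 : ℕ) : ℝ) = r * c := by exact_mod_cast hc
      rw [← Circle.coe_pow, ← Circle.exp_nsmul, Circle.coe_exp, exp_ofReal_mul_I_im, nsmul_eq_mul,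
        hc']
      have : (r : ℝ) * c * (n * (Real.pi / r)) = ((c * n : ℤ) : ℝ) * Real.pi := by
        push_cast
        field_simp
      rw [this, Real.sin_int_mul_pi, mul_zero]
    · simp
  have h4 : (GA.tr (1 : GA G)).re = 1 := by
    rw [MonoidAlgebra.one_def, GA.tr_single, if_pos rfl, one_re]
  rw [h2, h3, h4] at h1
  linarith

section Upper

variable {I : Type} [Fintype I] [DecidableEq I] {K : Type} [Fintype K] [DecidableEq K]

omit [DecidableEq I] in
theorem exists_normalize (u : I → ℂ) (hu : u ≠ 0) :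
    ∃ c : ℂ, ∑ i, star (c * u i) * (c * u i) = 1 := by
  have hs : 0 < ∑ i, normSq (u i) := by
    obtain ⟨i, hi⟩ := Function.ne_iff.mp hu
    exact sum_pos' (fun i _ => normSq_nonneg _) ⟨i, mem_univ _, normSq_pos.mpr hi⟩
  refine ⟨((Real.sqrt (∑ i, normSq (u i)))⁻¹ : ℝ), ?_⟩
  simp only [Complex.star_def, ← normSq_eq_conj_mul_self, normSq_mul, normSq_ofReal]
  rw [← ofReal_sum, ← mul_sum, ← mul_inv, Real.mul_self_sqrt hs.le, inv_mul_cancel₀ hs.ne',
    ofReal_one]

theorem exists_frame (U : Matrix I I ℂ) (hU : star U * U = 1) (z : K → ℂ)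
    (hz : ∀ k, conj (z k) * z k = 1) (hinj : Function.Injective z)
    (hev : ∀ k, ∃ u : I → ℂ, u ≠ 0 ∧ U.mulVec u = z k • u) :
    ∃ N : Matrix I K ℂ, N.conjTranspose * N = 1 ∧ U * N = N * Matrix.diagonal z ∧
      N.conjTranspose * U = Matrix.diagonal z * N.conjTranspose := by
  choose u hu0 hu using hev
  choose c hc using fun k => exists_normalize (u k) (hu0 k)
  obtain ⟨N, hN⟩ : ∃ N : Matrix I K ℂ, ∀ i k, N i k = c k * u k i :=
    ⟨Matrix.of fun i k => c k * u k i, fun _ _ => rfl⟩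
  have h1 : U * N = N * Matrix.diagonal z := by
    ext i k
    have := congrFun (hu k) i
    rw [Matrix.mul_diagonal, Matrix.mul_apply, hN]
    simp only [Matrix.mulVec, dotProduct, Pi.smul_apply, smul_eq_mul] at this
    simp only [hN, mul_left_comm _ (c k), ← mul_sum, this]
    ring
  have h2 : N.conjTranspose * U.conjTranspose =
      (Matrix.diagonal z).conjTranspose * N.conjTranspose := by
    rw [← Matrix.conjTranspose_mul, h1, Matrix.conjTranspose_mul]
  have hU' : U.conjTranspose * U = 1 := hU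
  have h3 : N.conjTranspose = (Matrix.diagonal z).conjTranspose * (N.conjTranspose * U) := by
    rw [← Matrix.mul_assoc, ← h2, Matrix.mul_assoc, hU', Matrix.mul_one]
  have h4 : N.conjTranspose * U = Matrix.diagonal z * N.conjTranspose := by
    have : Matrix.diagonal z * (Matrix.diagonal z).conjTranspose = 1 := by
      rw [Matrix.diagonal_conjTranspose, Matrix.diagonal_mul_diagonal, ← Matrix.diagonal_one]
      congr 1
      funext k
      rw [mul_comm]
      exact hz k
    conv_rhs => rw [h3]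
    rw [← Matrix.mul_assoc, this, Matrix.one_mul]
  refine ⟨N, ?_, h1, h4⟩
  have h5 : Matrix.diagonal z * (N.conjTranspose * N) =
      (N.conjTranspose * N) * Matrix.diagonal z := by
    rw [← Matrix.mul_assoc, ← h4, Matrix.mul_assoc, h1, Matrix.mul_assoc]
  ext k l
  by_cases hkl : k = l
  · subst hkl
    rw [Matrix.one_apply_eq, Matrix.mul_apply, ← hc k]
    simp only [Matrix.conjTranspose_apply, hN]
  · have := congrFun (congrFun h5 k) l
    rw [Matrix.diagonal_mul, Matrix.mul_diagonal, mul_comm] at this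
    rw [Matrix.one_apply_ne hkl]
    by_contra h0
    exact hkl (hinj (mul_left_cancel₀ h0 this))

theorem FF_upper (M : ℕ) (U : Matrix I I ℂ) (hU : star U * U = 1) (z : K → ℂ)
    (hz : ∀ k, conj (z k) * z k = 1) (hinj : Function.Injective z)
    (hev : ∀ k, ∃ u : I → ℂ, u ≠ 0 ∧ U.mulVec u = z k • u) (t : ℝ) (ht : 0 ≤ t) :
    FF (Matrix.traceLinearMap I ℂ ℂ) M (exp (-(t * Complex.I)) • U) ≤
      FF (Matrix.traceLinearMap I ℂ ℂ) M U + t * Fintype.card I / 2 +
        ∑ k, (GG M (exp (-(t * Complex.I)) * z k) - GG M (z k)) := by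
  obtain ⟨N, h1, h2, h3⟩ := exists_frame U hU z hz hinj hev
  obtain ⟨w, hw⟩ : ∃ w, w = exp (-(t * Complex.I)) := ⟨_, rfl⟩
  have hw1 : w * exp (t * Complex.I) = 1 := by rw [hw, ← exp_add, neg_add_cancel, exp_zero]
  have hw2 : star w = exp (t * Complex.I) := by
    rw [hw, Complex.star_def, ← exp_conj]
    simp
  rw [← hw]
  obtain ⟨E, hE⟩ : ∃ E : (K → ℂ) → Matrix I I ℂ,
      ∀ a, E a = N * Matrix.diagonal a * N.conjTranspose := ⟨_, fun _ => rfl⟩
  have E1 : ∀ a b, E a * E b = E (fun k => a k * b k) := fun a b => by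
    rw [hE, hE, hE, ← Matrix.diagonal_mul_diagonal]
    simp only [Matrix.mul_assoc]
    rw [← Matrix.mul_assoc N.conjTranspose, h1, Matrix.one_mul]
  have E2 : ∀ a, U * E a = E (fun k => z k * a k) := fun a => by
    rw [hE, hE, ← Matrix.diagonal_mul_diagonal, ← Matrix.mul_assoc, ← Matrix.mul_assoc, h2]
    simp only [Matrix.mul_assoc]
  have E3 : ∀ a, E a * U = E (fun k => a k * z k) := fun a => by
    rw [hE, hE, ← Matrix.diagonal_mul_diagonal, Matrix.mul_assoc, h3]
    simp only [Matrix.mul_assoc]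
  have E4 : ∀ a b, E a + E b = E (fun k => a k + b k) := fun a b => by
    rw [hE, hE, hE, ← Matrix.diagonal_add, Matrix.mul_add, Matrix.add_mul]
  have E5 : ∀ a, (E a).trace = ∑ k, a k := fun a => by
    rw [hE, Matrix.trace_mul_comm, ← Matrix.mul_assoc, h1, Matrix.one_mul, Matrix.trace_diagonal]
  have E6 : ∀ (c : ℂ) a, c • E a = E (fun k => c * a k) := fun c a => by
    rw [hE, hE, ← Matrix.smul_mul, ← Matrix.mul_smul, ← Matrix.diagonal_smul]
    rfl
  have E7 : star (E fun _ => 1) = E fun _ => 1 := by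
    rw [hE, Matrix.diagonal_one, Matrix.mul_one, Matrix.star_eq_conjTranspose,
      Matrix.conjTranspose_mul, Matrix.conjTranspose_conjTranspose]
  have E8 : ∀ j a, U ^ j * E a = E (fun k => z k ^ j * a k) := fun j a => by
    induction j with
    | zero => simp
    | succ j ih =>
      rw [pow_succ', mul_assoc, ih, E2]
      simp only [pow_succ', mul_assoc]
  have hs : star (1 - E fun _ => 1) = 1 - E fun _ => 1 := by rw [star_sub, star_one, E7]
  have hq : (1 - E fun _ => 1) * (1 - E fun _ => 1) = 1 - E fun _ => 1 := by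
    rw [mul_sub, mul_one, sub_mul, one_mul, E1]
    simp
  have hW : star (w • U) * (w • U) = 1 := by
    rw [star_smul, smul_mul_smul_comm, hU, hw2, mul_comm, hw1, one_smul]
  have hP := isTr_trace.FF_mul_BB M hW hs hq ht
  have hV : w • U * BB (1 - E fun _ => 1) t = U + E (fun k => w * z k - z k) := by
    have : E (fun k => w * z k - z k) = (w - 1) • (U * E fun _ => 1) := by
      rw [E2, E6]
      congr 1
      funext k
      ring
    rw [this, BB, mul_add, mul_one, smul_mul_smul_comm, mul_sub w, hw1, mul_one, mul_sub, mul_one]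
    module
  have hpow : ∀ j, (U + E (fun k => w * z k - z k)) ^ j =
      U ^ j + E (fun k => (w * z k) ^ j - z k ^ j) := fun j => by
    induction j with
    | zero => simp [hE]
    | succ j ih =>
      rw [pow_succ, ih, add_mul, mul_add, mul_add, E8, E3, E1, ← pow_succ, add_assoc, E4, E4]
      congr 2
      funext k
      ring
  have hF : FF (Matrix.traceLinearMap I ℂ ℂ) M (U + E (fun k => w * z k - z k)) =
      FF (Matrix.traceLinearMap I ℂ ℂ) M U + ∑ k, (GG M (w * z k) - GG M (z k)) := by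
    simp only [FF, GG, hpow, Matrix.traceLinearMap_apply, Matrix.trace_add, E5, add_im, im_sum,
      sub_im, mul_add, sum_add_distrib, mul_sum, ← sum_sub_distrib, mul_sub]
    rw [sum_comm]
  have hT : (Matrix.traceLinearMap I ℂ ℂ (1 - E fun _ => 1)).re ≤ Fintype.card I := by
    rw [Matrix.traceLinearMap_apply, Matrix.trace_sub, Matrix.trace_one, E5]
    simp
  rw [hV, hF] at hP
  nlinarith

end Upper

theorem trace_contra {G : Type*} [Group G] {I : Type} [Fintype I] [DecidableEq I]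
    {Φ : Type} [Fintype Φ] (φ0 : ℝ) (hφ : 0 < φ0)
    (hφ' : 10 * ((Fintype.card I : ℝ) + Fintype.card Φ + 1) * φ0 ≤ 1)
    (A C : Matrix I I ℂ) (hA : star A = A) (hA2 : A * A = 1) (hC : star C = C) (hC2 : C * C = 1)
    (ψ : Φ → ℝ) (hψ : Function.Injective ψ) (hψ1 : ∀ l, 0 < ψ l ∧ ψ l ≤ φ0 / 2)
    (hev : ∀ l, ∃ u : I → ℂ, u ≠ 0 ∧ (A * C).mulVec u = exp (ψ l * Complex.I) • u)
    (qs : List (Matrix I I (GA G))) (hq : ∀ q ∈ qs, star q = q ∧ q * q = q)
    (hR : (qs.map fun q => (mtr q).re).sum ≤ (Fintype.card I : ℝ) + 2 * Fintype.card Φ - 2)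
    (d : I → G × Circle) (p0 : I) (hd : ∀ p, p ≠ p0 → d p = (1, Circle.exp φ0))
    (hd0 : (d p0).1 ≠ 1) (X Y : Matrix I I (GA G))
    (hXY : X * Y = exp (-(φ0 * Complex.I)) • lift G (A * C))
    (hYX : Y * X = Matrix.diagonal (fun p => rho (d p)) * (qs.map fun q => 1 - (2 : ℂ) • q).prod) :
    False := by
  classical
  have hL : (1 : ℝ) ≤ Fintype.card I := by
    exact_mod_cast Fintype.card_pos_iff.mpr ⟨p0⟩
  have hn : (0 : ℝ) ≤ Fintype.card Φ := Nat.cast_nonneg _
  have hpi := Real.pi_gt_three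
  have hφ1 : φ0 ≤ 1 / 20 := by nlinarith
  obtain ⟨M, hM⟩ := exists_GG_ge (a := φ0 / 2) (ε := φ0) (by linarith) (by linarith) hφ
  -- the lower bound
  have hD : star (Matrix.diagonal fun p => rho (d p)) * (Matrix.diagonal fun p => rho (d p)) =
      1 := by
    rw [Matrix.star_eq_conjTranspose, Matrix.diagonal_conjTranspose, Matrix.diagonal_mul_diagonal,
      ← Matrix.diagonal_one]
    congr 1
    funext p
    exact star_rho_mul _
  have h1 := isTr_mtr.FF_mul_prod M qs hq hD
  have h2 : ((Fintype.card I : ℝ) - 1) * ((Real.pi - φ0) / 2 - φ0) - Real.pi / 4 ≤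
      FF mtr M (Matrix.diagonal fun p => rho (d p)) := by
    rw [FF_diagonal, ← add_sum_erase _ _ (mem_univ p0)]
    have e1 := FF_rho_ge M (d p0) hd0
    have e2 : ∑ p ∈ univ.erase p0, FF GA.tr M (rho (d p)) =
        ((Fintype.card I : ℝ) - 1) * GG M (exp (φ0 * Complex.I)) := by
      rw [sum_congr rfl fun p hp => by rw [hd p (ne_of_mem_erase hp), FF_rho_one, Circle.coe_exp],
        sum_const, card_erase_of_mem (mem_univ _), card_univ, nsmul_eq_mul,
        Nat.cast_pred (Fintype.card_pos_iff.mpr ⟨p0⟩)]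
    have e3 := mul_le_mul_of_nonneg_left (hM φ0 (by linarith) (by linarith)) (sub_nonneg.mpr hL)
    linarith
  -- the upper bound
  have hUs : star (A * C) = C * A := by rw [star_mul, hA, hC]
  have hU : star (A * C) * (A * C) = 1 := by
    rw [hUs, mul_assoc, ← mul_assoc A, hA2, one_mul, hC2]
  have h3 : FF (Matrix.traceLinearMap I ℂ ℂ) M (A * C) = 0 := by
    refine sum_eq_zero fun j _ => ?_
    have e1 := isTr_trace.map_st ((A * C) ^ (j + 1))
    rw [star_pow, hUs, isTr_trace.pow_comm C A] at e1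
    rw [conj_eq_iff_im.mp e1.symm, mul_zero]
  obtain ⟨θ, hθ1, hθ2⟩ : ∃ θ : Φ ⊕ Φ → ℝ, (∀ l, θ (Sum.inl l) = ψ l) ∧
      ∀ l, θ (Sum.inr l) = -ψ l := ⟨Sum.elim ψ fun l => -ψ l, fun _ => rfl, fun _ => rfl⟩
  have hθ : ∀ k, -(φ0 / 2) ≤ θ k ∧ θ k ≤ φ0 / 2 := by
    rintro (l | l)
    · rw [hθ1]
      constructor <;> linarith [hψ1 l]
    · rw [hθ2]
      constructor <;> linarith [hψ1 l]
  have hθi : Function.Injective θ := by
    rintro (l | l) (l' | l') h
    · rw [hθ1, hθ1] at h
      rw [hψ h]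
    · rw [hθ1, hθ2] at h
      linarith [hψ1 l, hψ1 l']
    · rw [hθ1, hθ2] at h
      linarith [hψ1 l, hψ1 l']
    · rw [hθ2, hθ2, neg_inj] at h
      rw [hψ h]
  have hz : ∀ x : ℝ, conj (exp (x * Complex.I)) = exp ((-x : ℝ) * Complex.I) := fun x => by
    rw [← exp_conj]
    simp
  have hz' : ∀ x : ℝ, conj (exp (x * Complex.I)) * exp (x * Complex.I) = 1 := fun x => by
    rw [hz, ← exp_add]
    simp
  have h4 := FF_upper M (A * C) hU (fun k => exp (θ k * Complex.I)) (fun k => hz' _) ?_ ?_ φ0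
    hφ.le
  rotate_left
  · intro k l hkl
    apply hθi
    have e1 := congrArg Complex.im hkl
    simp only [exp_ofReal_mul_I_im] at e1
    exact Real.injOn_sin ⟨by linarith [hθ k], by linarith [hθ k]⟩
      ⟨by linarith [hθ l], by linarith [hθ l]⟩ e1
  · rintro (l | l)
    · rw [hθ1]
      exact hev l
    · obtain ⟨u, hu0, hu⟩ := hev l
      refine ⟨A.mulVec u, fun h => hu0 ?_, ?_⟩
      · rw [← Matrix.one_mulVec u, ← hA2, ← Matrix.mulVec_mulVec, h, Matrix.mulVec_zero]
      · have e1 : (C * A).mulVec u = conj (exp (ψ l * Complex.I)) • u := by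
          have e2 : (C * A).mulVec ((A * C).mulVec u) = u := by
            rw [Matrix.mulVec_mulVec, ← hUs, hU, Matrix.one_mulVec]
          rw [hu, Matrix.mulVec_smul] at e2
          conv_rhs => rw [← e2, smul_smul, hz', one_smul]
        rw [hθ2, ← hz, Matrix.mulVec_mulVec, mul_assoc, ← Matrix.mulVec_mulVec, e1,
          Matrix.mulVec_smul]
  have h5 : ∑ k, GG M (exp (θ k * Complex.I)) = 0 := by
    rw [Fintype.sum_sum_type, ← sum_add_distrib]
    refine sum_eq_zero fun l _ => ?_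
    rw [hθ1, hθ2, ← hz, GG_conj, add_neg_cancel]
  have h6 : ∑ k, GG M (exp (-(φ0 * Complex.I)) * exp (θ k * Complex.I)) ≤
      2 * Fintype.card Φ * -((Real.pi - 3 * φ0 / 2) / 2 - φ0) := by
    refine (sum_le_card_nsmul _ _ (-((Real.pi - 3 * φ0 / 2) / 2 - φ0)) fun k _ => ?_).trans ?_
    · have e1 : exp (-(φ0 * Complex.I)) * exp (θ k * Complex.I) =
          conj (exp ((φ0 - θ k : ℝ) * Complex.I)) := by
        rw [hz, ← exp_add]
        congr 1
        push_cast
        ring
      have e2 := hM (φ0 - θ k) (by linarith [hθ k]) (by linarith [hθ k])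
      rw [e1, GG_conj]
      linarith [hθ k]
    · rw [card_univ, Fintype.card_sum, nsmul_eq_mul]
      push_cast
      linarith
  have h7 : FF mtr M (X * Y) =
      FF (Matrix.traceLinearMap I ℂ ℂ) M (exp (-(φ0 * Complex.I)) • (A * C)) := by
    rw [hXY, ← map_smul]
    simp only [FF, ← map_pow, mtr_lift, Matrix.traceLinearMap_apply]
  rw [← hYX, ← isTr_mtr.FF_comm, h7] at h1
  rw [sum_sub_distrib, h3, h5] at h4
  have h8 := mul_le_mul_of_nonneg_left hR (by linarith : 0 ≤ Real.pi / 2)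
  nlinarith [mul_nonneg hn hφ.le]

end Vale.Agent.P174
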