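import Vale.Agent.P174.Mat
import Vale.Agent.P174.LemmaQ
import Vale.Agent.P174.Comb
import Vale.Agent.P174.Trace

/-! Assembly: a balanced product of conjugates of relators with exponent matrix `d • 1` cannot be
a nontrivial coefficient. -/

open Finset Matrix

namespace Vale.Agent.P174

lemma lift_one (G : Type*) [Group G] {I : Type*} [Fintype I] [DecidableEq I] :
    lift G (1 : Matrix I I ℂ) = 1 := map_one _

lemma lift_mul (G : Type*) [Group G] {I : Type*} [Fintype I] [DecidableEq I] (X Y : Matrix I I ℂ) :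
    lift G (X * Y) = lift G X * lift G Y := map_mul _ _ _

lemma lift_comm {G : Type*} [Group G] {I : Type*} [Fintype I] [DecidableEq I] (X : Matrix I I ℂ)
    (p q : I) (x : GA G) : x * lift G X p q = lift G X p q * x :=
  (Algebra.commutes (X p q) x).symm

section gam
variable {N Bk J : Type} [Fintype N] [DecidableEq N] [Fintype Bk] [DecidableEq Bk]
  [Fintype J] [DecidableEq J]

omit [Fintype N] [DecidableEq N] [Fintype Bk] [Fintype J] in
lemma star_Gam (M : Bk → Matrix N N ℂ) :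
    star (Gam (J := J) M) = Gam fun β => star (M β) := by
  simp [Gam, star_eq_conjTranspose, fromBlocks_conjTranspose, blockDiagonal_conjTranspose]

lemma lift_Gam (G : Type*) [Group G] (M : Bk → Matrix N N ℂ) :
    lift G (Gam (J := J) M) = Gam fun β => lift G (M β) := by
  ext1 p r
  rw [lift_apply]
  rcases p with ⟨s, β⟩ | j <;> rcases r with ⟨s', β'⟩ | j'
  · simp only [Gam, fromBlocks_apply₁₁, blockDiagonal_apply, lift_apply]
    split_ifs <;> simp
  · simp [Gam]
  · simp [Gam]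
  · simp only [Gam, fromBlocks_apply₂₂, one_apply]
    split_ifs
    · rfl
    · simp

lemma diag_Gam (e : (N × Bk) ⊕ J → ℂ) (he : ∀ s s' β, e (.inl (s, β)) = e (.inl (s', β)))
    (M : Bk → Matrix N N ℂ) : diagonal e * Gam M = Gam M * diagonal e := by
  have := pm_mul_Gam (Equiv.refl Bk) (Equiv.refl J) e M fun s s' β => by rw [he s s', mul_comm]
  rwa [pm_eq_diagonal (by rintro (⟨_, _⟩ | _) <;> rfl)] at this

lemma diag_Gam_congr (e : (N × Bk) ⊕ J → ℂ) {M M' : Bk → Matrix N N ℂ}
    (h : ∀ s β, e (.inl (s, β)) = 0 ∨ M β = M' β) : diagonal e * Gam M = diagonal e * Gam M' := by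
  ext1 p r
  rw [diagonal_mul, diagonal_mul]
  rcases p with ⟨s, β⟩ | j <;> rcases r with ⟨s', β'⟩ | j'
  · rcases h s β with h | h <;> simp [Gam, blockDiagonal_apply, h]
  all_goals rfl

omit [Fintype N] [Fintype Bk] [Fintype J] in
lemma Gam_one : Gam (J := J) (fun _ : Bk => (1 : Matrix N N ℂ)) = 1 := by
  rw [Gam, ← fromBlocks_one, ← blockDiagonal_one]; rfl

end gam

lemma lift_pm (G : Type*) [Group G] {I : Type*} [Fintype I] [DecidableEq I] (σ : Equiv.Perm I)
    (a : I → Circle) : lift G (pm σ fun p => (a p : ℂ)) = pm σ fun p => rho (1, a p) := by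
  ext1 p r
  rw [lift_apply, pm_apply, pm_apply]
  split_ifs
  · rfl
  · simp

/-- An eigenvector of the truncated matrix is an eigenvector of the full one. -/
lemma eigen_transfer {I : Type} [Fintype I] [DecidableEq I] {E W Γ Γ' : Matrix I I ℂ}
    (hE : E * E = E) (h1 : E * W = W * E) (h2 : E * Γ = Γ * E) (h3 : E * Γ' = E * Γ)
    (h4 : (1 - E) * Γ' = 1 - E) {z : ℂ} (hz : z + 1 ≠ 0)
    (hd : ((E * W - (1 - E)) * Γ' - z • 1).det = 0) : ∃ u, u ≠ 0 ∧ (W * Γ) *ᵥ u = z • u := by
  obtain ⟨u, hu, h⟩ := Matrix.exists_mulVec_eq_zero_iff.2 hd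
  have e1 : (E * W - (1 - E)) * Γ' = W * Γ * E - (1 - E) := by
    rw [Matrix.sub_mul, h4, h1, Matrix.mul_assoc, h3, h2, Matrix.mul_assoc]
  have e2 : (1 - E) * (W * Γ * E - (1 - E) - z • 1) = -(z + 1) • (1 - E) := by
    have : E * (W * Γ * E) = W * Γ * E := by
      rw [← Matrix.mul_assoc, ← Matrix.mul_assoc, h1, Matrix.mul_assoc W, h2, ← Matrix.mul_assoc,
        Matrix.mul_assoc _ E E, hE]
    simp only [Matrix.mul_sub, Matrix.sub_mul, Matrix.one_mul, Matrix.mul_one, Matrix.mul_smul,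
      this, hE]
    module
  rw [e1] at h
  have h5 : (1 - E) *ᵥ u = 0 := by
    have := congrArg ((1 - E) *ᵥ ·) h
    simp only [mulVec_mulVec, e2, mulVec_zero, smul_mulVec] at this
    exact (smul_eq_zero.1 this).resolve_left (neg_ne_zero.2 hz)
  refine ⟨u, hu, ?_⟩
  rw [sub_mulVec, sub_mulVec, h5, sub_zero, smul_mulVec, one_mulVec, sub_eq_zero,
    ← mulVec_mulVec] at h
  rw [sub_mulVec, one_mulVec, sub_eq_zero] at h5
  rwa [← h5] at h

lemma trunc_unitary {I : Type} [Fintype I] [DecidableEq I] {E W : Matrix I I ℂ}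
    (hE : E * E = E) (hE' : star E = E) (hW : W ∈ unitaryGroup I ℂ) (h1 : E * W = W * E) :
    E * W - (1 - E) ∈ unitaryGroup I ℂ := by
  have h2 : E * (W * E) = E * W := by rw [← h1, ← Matrix.mul_assoc, hE]
  have h3 : E * (star W * E) = star W * E := by
    have := congrArg star h2
    simpa only [star_mul, hE', Matrix.mul_assoc] using this
  rw [mem_unitaryGroup_iff]
  simp only [star_sub, star_mul, star_one, hE', Matrix.mul_sub, Matrix.sub_mul, Matrix.one_mul,
    Matrix.mul_one, Matrix.mul_assoc, h2, h3, hE]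
  rw [← Matrix.mul_assoc W, mem_unitaryGroup_iff.1 hW, Matrix.one_mul, hE]
  abel

variable {G : Type*} [Group G] {m n : ℕ} {k : Fin m → ℕ} {J : Type} [Fintype J] [DecidableEq J]

variable (n k J) in
/-- Orientation reversal on all letters. -/
def iota : Equiv.Perm (Let n k J) :=
  Equiv.sumCongr (Equiv.prodCongr (Equiv.refl _) (flip _)) (flip J)

/-- The sign of an orientation. -/
def sb (b : Bool) : SignType := if b then 1 else -1

variable (k) in
/-- The blocks of the face pairing. -/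
def Mg (γ : Fin m → Matrix (Fin n) (Fin n) ℂ) (β : Pos k) : Matrix (Fin n) (Fin n) ℂ :=
  sgp (sb β.2) (γ β.1.1)

variable (k J) in
/-- The face pairing. -/
noncomputable def Cm (γ : Fin m → Matrix (Fin n) (Fin n) ℂ) : Matrix (Let n k J) (Let n k J) ℂ :=
  pm (iota n k J) (fun _ => 1) * Gam (Mg k γ)

omit [Fintype J] [DecidableEq J] in
lemma iota_iota (p : Let n k J) : iota n k J (iota n k J p) = p := by
  rcases p with ⟨_, _, _⟩ | ⟨_, _⟩ <;> simp [iota, flip]

omit [Fintype J] in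
lemma star_c1 : star (pm (iota n k J) fun _ => (1 : ℂ)) = pm (iota n k J) fun _ => 1 := by
  rw [star_pm]
  exact pm_congr (fun p => by rw [Equiv.symm_apply_eq, iota_iota]) (by simp)

lemma c1_unitary : (pm (iota n k J) fun _ => (1 : ℂ)) ∈ unitaryGroup _ ℂ := by
  rw [mem_unitaryGroup_iff, star_c1, pm_mul]
  exact pm_eq_one iota_iota (by simp)

lemma star_Cm (γ : Fin m → Matrix (Fin n) (Fin n) ℂ) : star (Cm k J γ) = Cm k J γ := by
  rw [Cm, star_mul, star_c1, star_Gam, iota, pm_mul_Gam _ _ _ _ (by simp)]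
  congr 2
  funext ⟨_, b⟩
  cases b <;> simp [Mg, sb, flip, sgp]

lemma Cm_sq {γ : Fin m → Matrix (Fin n) (Fin n) ℂ} (hγ : ∀ i, γ i ∈ unitaryGroup _ ℂ) :
    Cm k J γ * Cm k J γ = 1 := by
  nth_rewrite 1 [← star_Cm]
  exact mem_unitaryGroup_iff'.1
    (mul_mem c1_unitary (blocks_unitary fun β => sgp_unitary _ (hγ _)))

lemma lift_c1 : lift G (pm (iota n k J) fun _ => (1 : ℂ)) = pm (iota n k J) fun _ => 1 := by
  exact (lift_pm G (iota n k J) fun _ => 1).trans (pm_congr (fun _ => rfl) fun _ => map_one rho)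

lemma start_Cm (κ : ∀ i, Fin (k i + 1) → G) (γ : Fin m → Matrix (Fin n) (Fin n) ℂ) :
    mat (start n J κ) * lift G (Cm k J γ) = lift G (Cm k J γ) * star (mat (start n J κ)) := by
  set S := mat (start n J κ)
  have h1 : S * lift G (Gam (Mg k γ)) = lift G (Gam (Mg k γ)) * S := by
    have h0 := pm_mul_Gam (rot k) (flip J) (fun p => rho ((start n J κ).wt p))
      (fun β => lift G (Mg k γ β)) fun s s' β => lift_comm _ s s' _
    have h00 : (fun β => lift G (Mg k γ (rot k β))) = fun β => lift G (Mg k γ β) := by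
      funext ⟨_, b⟩
      cases b <;> rfl
    rw [h00, ← lift_Gam] at h0
    exact h0
  have h2 : S * pm (iota n k J) (fun _ => 1) * S = pm (iota n k J) fun _ => 1 := by
    simp only [S, mat, pm_mul]
    refine pm_congr ?_ ?_
    · rintro (⟨s, ⟨i, a⟩, _ | _⟩ | ⟨j, b⟩) <;>
        simp [start, iota, rot, flip, -finRotate_apply, -finRotate_symm_apply]
    · rintro (⟨s, ⟨i, a⟩, _ | _⟩ | ⟨j, b⟩) <;>
        simp [start, iota, rot, flip, posWt, ← map_mul, Prod.mk_one_one, -finRotate_apply, -finRotate_symm_apply]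
  have h3 : S * star S = 1 := mat_mul_star _
  rw [Cm, lift_mul, lift_c1]
  calc S * (pm (iota n k J) (fun _ => 1) * lift G (Gam (Mg k γ)))
      = S * (pm (iota n k J) (fun _ => 1) * (lift G (Gam (Mg k γ)) * S)) * star S := by
        simp only [Matrix.mul_assoc, h3, Matrix.mul_one]
    _ = _ := by rw [← h1, ← Matrix.mul_assoc, ← Matrix.mul_assoc, h2]

lemma mtr_B (κ : ∀ i, Fin (k i + 1) → G) (γ : Fin m → Matrix (Fin n) (Fin n) ℂ) :
    mtr (lift G (Cm k J γ) * star (mat (start n J κ))) = 2 * Fintype.card J := by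
  classical
  rw [← start_Cm, mtr_apply, Fintype.sum_sum_type, Finset.sum_eq_zero, zero_add,
    Finset.sum_congr rfl (g := fun _ => 1)]
  · simp [mul_comm]
  · rintro ⟨j, b⟩ _
    rw [mat, pm_mul_apply, lift_apply, Cm, pm_mul_apply]
    simp [start, iota, flip, Gam, GA.tr_single]
  · rintro ⟨s, ⟨i, a⟩, b⟩ _
    rw [mat, pm_mul_apply, lift_apply, Cm, pm_mul_apply]
    cases b <;> simp [start, iota, flip, rot, Gam, blockDiagonal_apply]

omit [Fintype J] [DecidableEq J] in
lemma label_iota {Λ : Type*} (lab : ∀ i, Fin (k i + 1) → Λ × Bool) (labJ : J → Λ × Bool)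
    (p : Let n k J) : label lab labJ (iota n k J p) = sgn false (label lab labJ p) := by
  rcases p with ⟨_, _, _ | _⟩ | ⟨_, _ | _⟩ <;> simp [label, iota, flip, sgn]

/-- The exponent of the `j`-th unknown in a letter. -/
def expo {Λ : Type*} [DecidableEq Λ] (j : Λ) (a : Λ × Bool) : ℤ :=
  if a.1 = j then (if a.2 then 1 else -1) else 0

lemma eigen (lab : ∀ i, Fin (k i + 1) → Fin m × Bool) (labJ : J → Fin m × Bool) {d : ℤ}
    (hd : d ≠ 0) (hexp : ∀ i j, ∑ a, expo j (lab i a) = if i = j then d else 0)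
    (σ : Equiv.Perm (Let n k J)) (hσ : ∀ p, label lab labJ (σ p) = sgn false (label lab labJ p))
    (α : Let n k J → ℂ) (hA : pm σ α ∈ unitaryGroup _ ℂ) (z : Fin m × Fin n → ℂ)
    (hz : ∀ q, ‖z q‖ = 1) (hz' : ∀ q, z q + 1 ≠ 0) :
    ∃ γ : Fin m → Matrix (Fin n) (Fin n) ℂ, (∀ i, γ i ∈ unitaryGroup _ ℂ) ∧
      ∀ q, ∃ u, u ≠ 0 ∧ (pm σ α * Cm k J γ) *ᵥ u = z q • u := by
  let e : Fin m → Let n k J → ℂ := fun j p => if label lab labJ p = (j, true) then 1 else 0
  let W := pm σ α * pm (iota n k J) fun _ => (1 : ℂ)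
  have hE : ∀ j, diagonal (e j) * diagonal (e j) = diagonal (e j) := fun j => by
    rw [diagonal_mul_diagonal]; congr 1; funext p; simp only [e]; split_ifs <;> simp
  have hE' : ∀ j, star (diagonal (e j)) = diagonal (e j) := fun j => by
    rw [star_eq_conjTranspose, diagonal_conjTranspose]; congr 1; funext p
    simp only [e, Pi.star_apply]; split_ifs <;> simp
  have hW : ∀ j, diagonal (e j) * W = W * diagonal (e j) := fun j => by
    ext1 p r
    rw [diagonal_mul, mul_diagonal, show W = _ from pm_mul _ _ _ _, pm_apply]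
    split_ifs with h
    · have : label lab labJ r = label lab labJ p := by
        rw [h, Equiv.trans_apply, label_iota, hσ]; simp [sgn]
      simp only [e, this, mul_comm]
    · simp
  let ε : Fin m → Pos k → SignType := fun j β =>
    if sgn β.2 (lab β.1.1 β.1.2) = (j, true) then sb β.2 else 0
  have hε : ∀ j i, ∑ β : Pos k, (if β.1.1 = i then (ε j β : ℤ) else 0) =
      if i = j then d else 0 := by
    intro j i
    rw [← hexp, Fintype.sum_prod_type, Fintype.sum_sigma, Finset.sum_eq_single i _ (by simp)]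
    · refine Finset.sum_congr rfl fun a _ => ?_
      simp only [ε, expo, Fintype.sum_bool, if_true]
      obtain ⟨j', b⟩ := lab i a
      by_cases h : j' = j <;> cases b <;> simp [sgn, sb, h]
    · intro i' _ hi; simp [hi]
  obtain ⟨γ, hγ, h⟩ := lemmaQ (fun β : Pos k => β.1.1) ε d hd hε
    (fun j => diagonal (e j) * W - (1 - diagonal (e j)))
    (fun j => trunc_unitary (hE j) (hE' j) (mul_mem hA c1_unitary) (hW j)) z hz
  refine ⟨γ, hγ, fun q => ?_⟩
  rw [Cm, ← Matrix.mul_assoc]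
  refine eigen_transfer (hE q.1) (hW q.1) (diag_Gam _ (fun _ _ _ => rfl) _) ?_ ?_ (hz' q) (h q)
  · refine diag_Gam_congr _ fun s β => ?_
    by_cases hb : sgn β.2 (lab β.1.1 β.1.2) = (q.1, true)
    · right; simp only [ε, if_pos hb, Mg]
    · left; exact if_neg hb
  · have : (1 : Matrix (Let n k J) (Let n k J) ℂ) - diagonal (e q.1) =
        diagonal fun p => 1 - e q.1 p := by rw [← diagonal_one, diagonal_sub]
    rw [this]
    refine (diag_Gam_congr _ (M' := fun _ => 1) fun s β => ?_).trans (by rw [Gam_one, mul_one])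
    by_cases hb : sgn β.2 (lab β.1.1 β.1.2) = (q.1, true)
    · left; exact sub_eq_zero.2 (if_pos hb).symm
    · right; simp only [ε, if_neg hb]; rfl

lemma refl_proj {I : Type*} [Fintype I] [DecidableEq I] {T : Matrix I I (GA G)} (h1 : star T = T)
    (h2 : T * T = 1) : star ((1 / 2 : ℂ) • (1 - T)) = (1 / 2 : ℂ) • (1 - T) ∧
      ((1 / 2 : ℂ) • (1 - T)) * ((1 / 2 : ℂ) • (1 - T)) = (1 / 2 : ℂ) • (1 - T) := by
  refine ⟨by simp [star_smul, h1], ?_⟩
  simp only [smul_mul_smul_comm, sub_mul, mul_sub, one_mul, mul_one, h2]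
  module

lemma mtr_proj {I : Type*} [Fintype I] [DecidableEq I] (T : Matrix I I (GA G)) :
    (mtr ((1 / 2 : ℂ) • (1 - T))).re = (Fintype.card I - (mtr T).re) / 2 := by
  have : mtr (1 : Matrix I I (GA G)) = Fintype.card I := by
    rw [← lift_one G, mtr_lift, trace_one]
  rw [map_smul, map_sub, this]
  simp
  ring

theorem core (lab : ∀ i, Fin (k i + 1) → Fin m × Bool) (κ : ∀ i, Fin (k i + 1) → G) {d : ℤ}
    (hd : d ≠ 0) (hexp : ∀ i j, ∑ a, expo j (lab i a) = if i = j then d else 0)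
    (ord : List (Fin m × Bool × Fin n)) (hnd : ord.Nodup) (hall : ∀ φ, φ ∈ ord)
    (v : Fin m × Bool × Fin n → Monoid.Coprod G (FreeGroup (Fin m))) (g : G)
    (hprod : (ord.map fun φ => v φ * (if φ.2.1 then relw lab κ φ.1 else (relw lab κ φ.1)⁻¹) *
      (v φ)⁻¹).prod = Monoid.Coprod.inl g) : g = 1 := by
  by_contra hg
  obtain ⟨J, _, _, labJ, hJ⟩ := comb lab κ ord hnd hall v g hg hprod
  set L : ℝ := (Fintype.card (Let n k J) : ℝ) with hL
  set F : ℝ := (Fintype.card (Fin m × Fin n) : ℝ) with hF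
  have hL0 : 0 ≤ L := Nat.cast_nonneg _
  have hF0 : 0 ≤ F := Nat.cast_nonneg _
  obtain ⟨φ0, hφ, hφ'⟩ : ∃ φ0 : ℝ, 0 < φ0 ∧ 10 * (L + F + 1) * φ0 ≤ 1 :=
    ⟨(10 * (L + F + 1))⁻¹, by positivity, (mul_inv_cancel₀ (by positivity)).le⟩
  have hφ1 : φ0 ≤ 1 := by nlinarith
  set t := Circle.exp φ0 with ht
  obtain ⟨c, z, p0, hch, hT, hc⟩ := hJ (t ^ 4)
  have hfix : ∀ p, z.σ p ≠ p := fun p h => by
    have := hT.lab p
    rw [h] at this
    simpa [sgn] using congrArg Prod.snd this
  let α : Let n k J → Circle := fun r =>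
    if r = z.σ p0 then (z.wt r).2 / t ^ 2 else t ^ 2 / (z.wt (z.σ r)).2
  have hα : ∀ r, α r * α (z.σ r) = 1 := by
    intro r
    by_cases h1 : r = z.σ p0
    · subst h1; simp [α, hT.invol, (hfix p0).symm]
    by_cases h2 : r = p0
    · subst h2; simp [α, h1]
    have h3 : z.σ r ≠ p0 := fun h => h1 (by rw [← h, hT.invol])
    simp only [α, if_neg h1, if_neg (z.σ.injective.ne h2), hT.invol]
    rw [div_mul_div_comm, mul_comm (z.wt _).2, hT.scal r h2 h3, ← pow_add, div_self']
  set A : Matrix _ _ ℂ := pm z.σ fun p => (α p : ℂ) with hA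
  have hsymm : ∀ p, z.σ.symm p = z.σ p := fun p => by rw [Equiv.symm_apply_eq, hT.invol]
  have hA1 : star A = A := by
    rw [hA, star_pm]
    refine pm_congr hsymm fun p => ?_
    rw [hsymm, eq_inv_of_mul_eq_one_left (hα p), Circle.coe_inv_eq_conj]; rfl
  have hA2 : A * A = 1 := by
    rw [hA, pm_mul]
    exact pm_eq_one hT.invol fun p => by rw [← Circle.coe_mul, hα, Circle.coe_one]
  let ψ : Fin m × Fin n → ℝ := fun q => φ0 / 2 / ((Fintype.equivFin _ q : ℕ) + 1)
  have hψ1 : ∀ q, 0 < ψ q ∧ ψ q ≤ φ0 / 2 := fun q =>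
    ⟨by positivity, div_le_self (by positivity) (by simp)⟩
  have hψ : Function.Injective ψ := fun q q' h => by
    rw [div_eq_div_iff (by positivity) (by positivity), mul_right_inj' (by positivity),
      add_left_inj, Nat.cast_inj] at h
    exact (Fintype.equivFin _).injective (Fin.ext h.symm)
  obtain ⟨γ, hγ, hev⟩ := eigen lab labJ hd hexp z.σ hT.lab _
    (mem_unitaryGroup_iff.2 (by rw [← hA, hA1, hA2])) (fun q => Complex.exp (ψ q * Complex.I))
    (fun q => Complex.norm_exp_ofReal_mul_I _) fun q h => by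
      have h1 := congrArg Complex.re h
      have h2 := Real.cos_pos_of_mem_Ioo (x := ψ q)
        ⟨by linarith [(hψ1 q).1, Real.pi_pos], by linarith [(hψ1 q).2, Real.two_le_pi]⟩
      simp only [Complex.add_re, Complex.exp_ofReal_mul_I_re, Complex.one_re, Complex.zero_re] at h1
      linarith
  obtain ⟨Ts, hTs1, hTs2, hTs3⟩ := hch.spec
  set Bm := lift G (Cm k J γ) * star (mat (start n J κ)) with hBm
  have hB1 : star Bm = Bm := by
    rw [hBm, star_mul, star_star, ← lift_star, star_Cm, start_Cm]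
  have hB2 : Bm * Bm = 1 := by
    nth_rewrite 2 [← hB1]
    rw [hBm, star_mul, star_star, ← lift_star, star_Cm, Matrix.mul_assoc, ← Matrix.mul_assoc (star _),
      star_mul_mat, Matrix.one_mul, ← lift_mul, Cm_sq hγ, lift_one]
  refine trace_contra φ0 hφ hφ' A (Cm k J γ) hA1 hA2 (star_Cm γ) (Cm_sq hγ) ψ hψ hψ1 hev
    ((Bm :: Ts).map fun T => (1 / 2 : ℂ) • (1 - T)) ?_ ?_
    (fun p => ((z.wt p).1, t⁻¹ * (z.wt p).2 * α (z.σ p))) p0 ?_ hT.ne
    (Complex.exp (-(φ0 * Complex.I)) • (lift G A * (Bm :: Ts).prod)) (mat z) ?_ ?_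
  · refine List.forall_mem_map.2 fun T hT => ?_
    rcases List.mem_cons.1 hT with rfl | h
    · exact refl_proj hB1 hB2
    · exact refl_proj (hTs2 T h).1 (hTs2 T h).2.1
  · rw [List.map_map, List.map_cons, List.sum_cons, List.map_congr_left (g := fun _ => (1 : ℝ))
      fun T h => by rw [Function.comp, mtr_proj, (hTs2 T h).2.2]; ring]
    have h1 : (2 * c + 4 : ℝ) = 2 * Fintype.card J + 4 * F + L := by
      rw [hF, hL, Fintype.card_prod, Fintype.card_fin, Fintype.card_fin]; exact_mod_cast hc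
    rw [Function.comp, mtr_proj, hBm, mtr_B, ← hL, ← hF]
    simp [hTs1]
    linarith
  · intro p hp
    refine Prod.ext (hT.triv p hp) ?_
    simp only [α, if_neg (z.σ.injective.ne hp), hT.invol, ← ht]
    rw [mul_assoc, mul_div_cancel, sq, inv_mul_cancel_left]
  · rw [Matrix.smul_mul, List.prod_cons, Matrix.mul_assoc, Matrix.mul_assoc, ← hTs3, hBm,
      Matrix.mul_assoc, star_mul_mat, Matrix.mul_one, lift_mul]
  · rw [List.map_map, List.map_congr_left (g := id) fun T _ => by
      simp only [Function.comp, id]; module, List.map_id, Matrix.mul_smul, ← Matrix.mul_assoc,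
      ← Matrix.smul_mul, hA, lift_pm, mat, pm_mul, pm_eq_diagonal hT.invol, ← diagonal_smul]
    congr 2
    funext p
    simp only [Pi.smul_apply, rho_apply, MonoidAlgebra.single_mul_single, mul_one,
      MonoidAlgebra.smul_single, smul_eq_mul, Circle.coe_mul, ht, Circle.coe_inv, Circle.coe_exp,
      Complex.exp_neg, mul_assoc]

end Vale.Agent.P174
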