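import Vale.Agent.P174.Forms
import Mathlib.MeasureTheory.Constructions.Pi
import Mathlib.MeasureTheory.Integral.Prod
import Mathlib.MeasureTheory.Integral.IntervalIntegral.FundThmCalculus
import Mathlib.Analysis.Calculus.Deriv.Pi

/-! Integration over the unit cube and the fundamental theorem of calculus in one coordinate. -/

open Finset MeasureTheory Set Function
open scoped ContDiff

namespace Vale.Agent.P174

variable {ι : Type} [Fintype ι] [DecidableEq ι]

/-- Lebesgue measure on the unit interval. -/
noncomputable def unitI : Measure ℝ := volume.restrict (Icc 0 1)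

instance : IsProbabilityMeasure unitI := ⟨by simp [unitI]⟩

variable (ι) in
/-- Lebesgue measure on the unit cube. -/
noncomputable def cube : Measure (ι → ℝ) := Measure.pi fun _ => unitI

instance : IsProbabilityMeasure (cube ι) := by unfold cube; infer_instance

omit [DecidableEq ι] in
lemma cube_eq : cube ι = volume.restrict (Set.pi univ fun _ : ι => Icc (0 : ℝ) 1) := by
  rw [cube, volume_pi, Measure.restrict_pi_pi]; rfl

omit [DecidableEq ι] in
lemma integrable_cube {h : (ι → ℝ) → ℂ} (hh : Continuous h) : Integrable h (cube ι) := by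
  rw [cube_eq]
  exact hh.continuousOn.integrableOn_compact (isCompact_univ_pi fun _ => isCompact_Icc)

lemma mp_update (b : ι) : MeasurePreserving (fun p : (ι → ℝ) × ℝ => update p.1 b p.2)
    ((cube ι).prod unitI) (cube ι) := by
  have hm : Measurable fun p : (ι → ℝ) × ℝ => update p.1 b p.2 := measurable_update'
  refine ⟨hm, (Measure.pi_eq fun s hs => ?_).symm⟩
  rw [Measure.map_apply hm (MeasurableSet.univ_pi hs)]
  have : (fun p : (ι → ℝ) × ℝ => update p.1 b p.2) ⁻¹' Set.pi univ s =
      (Set.pi univ (update s b univ)) ×ˢ s b := by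
    ext ⟨x, t⟩
    simp only [Set.mem_preimage, Set.mem_pi, Set.mem_univ, true_imp_iff, Set.mem_prod]
    constructor
    · intro h
      refine ⟨fun i => ?_, by simpa using h b⟩
      by_cases hi : i = b
      · subst hi; simp
      · simpa [hi] using h i
    · rintro ⟨h1, h2⟩ i
      by_cases hi : i = b
      · subst hi; simpa using h2
      · simpa [hi] using h1 i
  rw [this, Measure.prod_prod, cube, Measure.pi_pi,
    ← Finset.mul_prod_erase _ _ (Finset.mem_univ b), ← Finset.mul_prod_erase _ _ (Finset.mem_univ b)]
  rw [update_self, measure_univ, one_mul, mul_comm]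
  congr 1
  exact Finset.prod_congr rfl fun i hi => by rw [update_of_ne (Finset.ne_of_mem_erase hi)]

lemma hasDerivAt_pd {E : Type*} [NormedAddCommGroup E] [NormedSpace ℝ E] {h : (ι → ℝ) → E}
    (hh : Sm h) (b : ι) (x : ι → ℝ) (t : ℝ) :
    HasDerivAt (fun t => h (update x b t)) (pd b h (update x b t)) t :=
  (hh.diff _).hasFDerivAt.comp_hasDerivAt t (hasDerivAt_update x b t)

lemma integral_pd {h : (ι → ℝ) → ℂ} (hh : Sm h) (b : ι) :
    ∫ x, pd b h x ∂cube ι = ∫ x, h (update x b 1) ∂cube ι - ∫ x, h (update x b 0) ∂cube ι := by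
  have hc : Continuous (pd b h) := (hh.pd b).continuous
  have hu : ∀ c, Continuous fun x : ι → ℝ => h (update x b c) := fun c =>
    hh.continuous.comp (continuous_id.update b continuous_const)
  have hi : Integrable (fun p : (ι → ℝ) × ℝ => pd b h (update p.1 b p.2)) ((cube ι).prod unitI) :=
    (mp_update b).integrable_comp_of_integrable (integrable_cube hc)
  rw [← integral_sub (integrable_cube (hu 1)) (integrable_cube (hu 0)), ← (mp_update b).map_eq,
    integral_map (mp_update b).measurable.aemeasurable hc.aestronglyMeasurable,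
    (mp_update b).map_eq, integral_prod _ hi]
  refine integral_congr_ae (Filter.Eventually.of_forall fun x => ?_)
  have h1 := intervalIntegral.integral_eq_sub_of_hasDerivAt (a := 0) (b := 1)
    (fun t _ => hasDerivAt_pd hh b x t)
    ((hc.comp (continuous_const.update b continuous_id)).intervalIntegrable _ _)
  rw [intervalIntegral.integral_of_le zero_le_one, ← integral_Icc_eq_integral_Ioc] at h1
  exact h1

omit [DecidableEq ι] in
lemma integral_cube_pos {h : (ι → ℝ) → ℝ} (hh : Continuous h)
    (h0 : ∀ x, (∀ b, x b ∈ Icc (0 : ℝ) 1) → 0 ≤ h x) (h1 : 0 < h fun _ => 1 / 2) :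
    0 < ∫ x, h x ∂cube ι := by
  have hK : IsCompact (Set.pi univ fun _ : ι => Icc (0 : ℝ) 1) :=
    isCompact_univ_pi fun _ => isCompact_Icc
  rw [cube_eq, setIntegral_pos_iff_support_of_nonneg_ae]
  · have ho : IsOpen ({x | 0 < h x} ∩ Set.pi univ fun _ : ι => Ioo (0 : ℝ) 1) :=
      (isOpen_lt continuous_const hh).inter (isOpen_set_pi finite_univ fun _ _ => isOpen_Ioo)
    refine (ho.measure_pos volume ⟨fun _ => 1 / 2, h1, fun _ _ => by norm_num⟩).trans_le
      (measure_mono ?_)
    rintro x ⟨hx1, hx2⟩
    exact ⟨ne_of_gt hx1, fun i hi => Ioo_subset_Icc_self (hx2 i hi)⟩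
  · refine (ae_restrict_iff' hK.measurableSet).2 (Filter.Eventually.of_forall fun x hx => ?_)
    exact h0 x fun b => hx b (Set.mem_univ b)
  · exact hh.continuousOn.integrableOn_compact hK

end Vale.Agent.P174
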