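import Mathlib.GroupTheory.Coprod.Basic
import Mathlib.GroupTheory.FreeGroup.Basic
import Mathlib.LinearAlgebra.Matrix.Rank

namespace Vale.Agent.P174

/-- The homomorphism `G * F_n → ℤ^n` that kills `G` and sends `x_j` to `e_j`. -/
def expSum (G : Type*) [Group G] (n : ℕ) :
    Monoid.Coprod G (FreeGroup (Fin n)) →* Multiplicative (Fin n → ℤ) :=
  Monoid.Coprod.lift 1 (FreeGroup.lift fun j => Multiplicative.ofAdd (Pi.single j 1))

/-- The exponent-sum matrix of a system of equations. -/
def expMatrix {G : Type*} [Group G] {m n : ℕ} (w : Fin m → Monoid.Coprod G (FreeGroup (Fin n))) :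
    Matrix (Fin m) (Fin n) ℤ :=
  Matrix.of fun i j => Multiplicative.toAdd (expSum G n (w i)) j

end Vale.Agent.P174
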