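import Mathlib.Analysis.Matrix.Normed
import Mathlib.Analysis.Complex.Basic
import Mathlib.Data.Fintype.Powerset

/-! A concrete Grassmann algebra: creation and annihilation operators on the fermionic Fock
space of a finite index type. -/

open Finset

namespace Vale.Agent.P174

/-- Operators on the Fock space. -/
def Fk (ι : Type) : Type := Matrix (Finset ι) (Finset ι) ℂ

variable {ι : Type} [Fintype ι] [DecidableEq ι]

section
open scoped Matrix.Norms.Operator
noncomputable instance : NormedRing (Fk ι) :=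
  inferInstanceAs (NormedRing (Matrix (Finset ι) (Finset ι) ℂ))
noncomputable instance : NormedAlgebra ℂ (Fk ι) :=
  inferInstanceAs (NormedAlgebra ℂ (Matrix (Finset ι) (Finset ι) ℂ))
end
instance : FiniteDimensional ℂ (Fk ι) :=
  inferInstanceAs (Module.Finite ℂ (Matrix (Finset ι) (Finset ι) ℂ))

lemma Fk.mul_apply (A B : Fk ι) (T U : Finset ι) : (A * B) T U = ∑ V, A T V * B V U := rfl
lemma Fk.add_apply (A B : Fk ι) (T U : Finset ι) : (A + B) T U = A T U + B T U := rfl
lemma Fk.neg_apply (A : Fk ι) (T U : Finset ι) : (-A) T U = -A T U := rfl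
lemma Fk.zero_apply (T U : Finset ι) : (0 : Fk ι) T U = 0 := rfl
lemma Fk.smul_apply (c : ℂ) (A : Fk ι) (T U : Finset ι) : (c • A) T U = c * A T U := rfl
lemma Fk.one_apply (T U : Finset ι) : (1 : Fk ι) T U = if T = U then 1 else 0 := rfl
omit [Fintype ι] [DecidableEq ι] in
lemma Fk.ext {A B : Fk ι} (h : ∀ T U, A T U = B T U) : A = B := Matrix.ext h
lemma Fk.sum_apply {κ : Type*} (s : Finset κ) (A : κ → Fk ι) (T U : Finset ι) :
    (∑ k ∈ s, A k) T U = ∑ k ∈ s, A k T U := Matrix.sum_apply T U s A

/-- The Jordan-Wigner sign. -/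
noncomputable def sg (b : ι) (S : Finset ι) : ℂ :=
  (-1) ^ (S.filter fun c => Fintype.equivFin ι c < Fintype.equivFin ι b).card

/-- The sign of a pair. -/
noncomputable def sp (c b : ι) : ℂ := if Fintype.equivFin ι c < Fintype.equivFin ι b then -1 else 1

lemma sg_insert (b : ι) {c : ι} {S : Finset ι} (h : c ∉ S) : sg b (insert c S) = sp c b * sg b S := by
  unfold sg sp
  rw [filter_insert]
  split_ifs with h1
  · rw [card_insert_of_notMem (by simp [h]), pow_succ]; ring
  · simp

omit [DecidableEq ι] in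
lemma sg_mul_self (b : ι) (S : Finset ι) : sg b S * sg b S = 1 := by
  unfold sg
  rw [← mul_pow]; simp

omit [DecidableEq ι] in
lemma sg_ne_zero (b : ι) (S : Finset ι) : sg b S ≠ 0 := by
  unfold sg; simp

omit [DecidableEq ι] in
lemma sp_swap {b c : ι} (h : b ≠ c) : sp c b = -sp b c := by
  unfold sp
  have : Fintype.equivFin ι b ≠ Fintype.equivFin ι c := fun e => h ((Fintype.equivFin ι).injective e)
  rcases lt_or_gt_of_ne this with h1 | h1
  · simp [h1, h1.le]
  · simp [h1, h1.le]

omit [DecidableEq ι] in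
lemma sp_mul_self (b c : ι) : sp c b * sp c b = 1 := by
  unfold sp; split_ifs <;> simp

/-- Creation operator. -/
noncomputable def cre (b : ι) : Fk ι := fun T U => if b ∈ T ∧ U = T.erase b then sg b U else 0

/-- Annihilation operator. -/
noncomputable def ann (a : ι) : Fk ι := fun T U => if a ∉ T ∧ U = insert a T then sg a T else 0

lemma cre_mul (b : ι) (M : Fk ι) (T U : Finset ι) :
    (cre b * M) T U = if b ∈ T then sg b (T.erase b) * M (T.erase b) U else 0 := by
  rw [Fk.mul_apply]
  by_cases h : b ∈ T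
  · simp [cre, h]
  · simp [cre, h]

lemma ann_mul (a : ι) (M : Fk ι) (T U : Finset ι) :
    (ann a * M) T U = if a ∉ T then sg a T * M (insert a T) U else 0 := by
  rw [Fk.mul_apply]
  by_cases h : a ∈ T
  · simp [ann, h]
  · simp [ann, h]

lemma cre_anticomm (b c : ι) : cre b * cre c = -(cre c * cre b) := by
  rw [← mul_one (cre b * cre c), ← mul_one (cre c * cre b), mul_assoc, mul_assoc]
  refine Fk.ext fun T U => ?_
  rw [Fk.neg_apply, cre_mul, cre_mul, cre_mul, cre_mul]
  by_cases hbc : b = c
  · subst hbc; simp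
  by_cases hb : b ∈ T <;> by_cases hc : c ∈ T <;> simp [hb, hc, hbc, Ne.symm hbc]
  have e1 : T.erase b = insert c ((T.erase b).erase c) :=
    (insert_erase (mem_erase.2 ⟨Ne.symm hbc, hc⟩)).symm
  have e2 : T.erase c = insert b ((T.erase b).erase c) := by
    rw [erase_right_comm]; exact (insert_erase (mem_erase.2 ⟨hbc, hb⟩)).symm
  have s1 : sg b (T.erase b) = sp c b * sg b ((T.erase b).erase c) := by
    conv_lhs => rw [e1]
    exact sg_insert b (by simp)
  have s2 : sg c (T.erase c) = sp b c * sg c ((T.erase b).erase c) := by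
    conv_lhs => rw [e2]
    exact sg_insert c (by simp)
  rw [s1, s2, erase_right_comm (a := c) (b := b), sp_swap hbc]
  ring

lemma cre_mul_self (b : ι) : cre b * cre b = 0 := by
  have h := cre_anticomm b b
  have : (2 : ℂ) • (cre b * cre b) = 0 := by
    rw [two_smul]; nth_rewrite 1 [h]; simp
  simpa using this

lemma ann_cre (a b : ι) : ann a * cre b = (if a = b then 1 else 0) - cre b * ann a := by
  rw [eq_sub_iff_add_eq, ← mul_one (ann a * cre b), ← mul_one (cre b * ann a), mul_assoc, mul_assoc]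
  refine Fk.ext fun T U => ?_
  rw [Fk.add_apply, cre_mul, ann_mul, ann_mul, cre_mul]
  by_cases hab : a = b
  · subst hab
    by_cases ha : a ∈ T
    · simp [ha, ← mul_assoc, sg_mul_self]
      rw [insert_erase ha]
    · simp [ha, ← mul_assoc, sg_mul_self]
      rw [erase_insert ha]
  · rw [if_neg hab, Fk.zero_apply]
    by_cases ha : a ∈ T <;> by_cases hb : b ∈ T <;> simp [ha, hb, hab, Ne.symm hab]
    have e1 : (insert a T).erase b = insert a (T.erase b) := erase_insert_of_ne hab
    have e2 : T = insert b (T.erase b) := (insert_erase hb).symm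
    have s1 : sg a T = sp b a * sg a (T.erase b) := by
      conv_lhs => rw [e2]
      exact sg_insert a (by simp)
    rw [e1, sg_insert b (by simp [ha]), s1, sp_swap hab]
    have := sp_mul_self b a
    linear_combination (-(sg a (T.erase b) * sg b (T.erase b) * (1 : Fk ι) (insert a (T.erase b)) U)) * this

/-- The top coefficient. -/
noncomputable def top : Fk ι →L[ℂ] ℂ :=
  LinearMap.toContinuousLinearMap
    { toFun := fun A => A univ ∅
      map_add' := fun _ _ => rfl
      map_smul' := fun _ _ => rfl }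

lemma top_apply (A : Fk ι) : top A = A univ ∅ := rfl

/-- Contraction with a vector. -/
noncomputable def ctr (v : ι → ℝ) : Fk ι := ∑ a, (v a : ℂ) • ann a

/-- Operators preserving the kernel of a contraction. -/
def Kil (v : ι → ℝ) : Subalgebra ℂ (Fk ι) where
  carrier := {A | ∀ M : Fk ι, ctr v * M = 0 → ctr v * (A * M) = 0}
  mul_mem' := fun {A B} hA hB M hM => by rw [mul_assoc]; exact hA _ (hB M hM)
  add_mem' := fun {A B} hA hB M hM => by rw [add_mul, mul_add, hA M hM, hB M hM, add_zero]
  algebraMap_mem' := fun c M hM => by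
    rw [← Algebra.smul_def, mul_smul_comm, hM, smul_zero]

lemma oneform_mem_Kil {v : ι → ℝ} {c : ι → ℂ} (h : ∑ b, (v b : ℂ) * c b = 0) :
    ∑ b, c b • cre b ∈ Kil v := by
  intro M hM
  have : ctr v * ∑ b, c b • cre b = -((∑ b, c b • cre b) * ctr v) := by
    simp only [ctr, Finset.sum_mul, Finset.mul_sum, smul_mul_smul_comm, ann_cre, smul_sub,
      Finset.sum_sub_distrib]
    have h1 : ∑ b, ∑ a, ((v a : ℂ) * c b) • (if a = b then (1 : Fk ι) else 0) = 0 := by
      simp only [smul_ite, smul_zero, Finset.sum_ite_eq', mem_univ, if_true]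
      rw [← Finset.sum_smul, h, zero_smul]
    rw [h1, zero_sub, Finset.sum_comm]
    simp only [mul_comm]
  rw [← mul_assoc, this, neg_mul, mul_assoc, hM, mul_zero, neg_zero]

lemma cre_mem_Kil {v : ι → ℝ} {b : ι} (h : v b = 0) : cre b ∈ Kil v := by
  have := oneform_mem_Kil (v := v) (c := Pi.single b 1) (by simp [Pi.single_apply, h])
  simpa [Pi.single_apply] using this

lemma top_eq_zero_of_Kil {v : ι → ℝ} (hv : v ≠ 0) {A : Fk ι} (hA : A ∈ Kil v) : top A = 0 := by
  obtain ⟨b, hb⟩ := Function.ne_iff.1 hv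
  obtain ⟨M, hMd⟩ : ∃ M : Fk ι, ∀ T U, M T U = if T = ∅ ∧ U = ∅ then 1 else 0 :=
    ⟨fun T U => if T = ∅ ∧ U = ∅ then 1 else 0, fun _ _ => rfl⟩
  have hM : ctr v * M = 0 := by
    refine Fk.ext fun T U => ?_
    simp only [ctr, Finset.sum_mul, smul_mul_assoc, Fk.sum_apply, Fk.smul_apply, ann_mul, hMd,
      Fk.zero_apply]
    simp
  have h1 := congrFun (congrFun (hA M hM) (univ.erase b)) ∅
  simp only [ctr, Finset.sum_mul, smul_mul_assoc, Fk.sum_apply, Fk.smul_apply, ann_mul,
    Fk.zero_apply] at h1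
  rw [Finset.sum_eq_single b (fun a _ hab => by simp [hab]) (by simp)] at h1
  simp only [mem_erase, ne_eq, not_true_eq_false, false_and, not_false_eq_true, if_true,
    insert_erase (mem_univ b), mul_eq_zero, Complex.ofReal_eq_zero, sg_ne_zero, false_or] at h1
  have h2 : (A * M) univ ∅ = A univ ∅ := by simp [Fk.mul_apply, hMd]
  rw [top_apply, ← h2]
  exact h1.resolve_left hb

/-- Operators raising the number of particles in `S` by at least `k`. -/
def Deg (S : Finset ι) (k : ℕ) : Submodule ℂ (Fk ι) where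
  carrier := {A | ∀ T U, A T U ≠ 0 → (U ∩ S).card + k ≤ (T ∩ S).card}
  add_mem' := fun {A B} hA hB T U h => by
    rw [Fk.add_apply] at h
    by_cases h1 : A T U = 0
    · exact hB T U (by simpa [h1] using h)
    · exact hA T U h1
  zero_mem' := fun T U h => absurd rfl h
  smul_mem' := fun c A hA T U h => hA T U (right_ne_zero_of_mul h)

lemma Deg.mul {S : Finset ι} {k l : ℕ} {A B : Fk ι} (hA : A ∈ Deg S k) (hB : B ∈ Deg S l) :
    A * B ∈ Deg S (k + l) := by
  intro T U h
  rw [Fk.mul_apply] at h
  obtain ⟨V, _, hV⟩ := Finset.exists_ne_zero_of_sum_ne_zero h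
  have h1 := hA T V (left_ne_zero_of_mul hV)
  have h2 := hB V U (right_ne_zero_of_mul hV)
  omega

lemma Deg.mono {S : Finset ι} {k l : ℕ} (h : l ≤ k) {A : Fk ι} (hA : A ∈ Deg S k) :
    A ∈ Deg S l := fun T U hT => by have := hA T U hT; omega

lemma Deg.one (S : Finset ι) : (1 : Fk ι) ∈ Deg S 0 := by
  intro T U h
  rw [Fk.one_apply] at h
  have : T = U := by by_contra h1; simp [h1] at h
  simp [this]

lemma Deg.eq_zero {S : Finset ι} {k : ℕ} (h : S.card < k) {A : Fk ι} (hA : A ∈ Deg S k) :
    A = 0 := by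
  refine Fk.ext fun T U => ?_
  by_contra h1
  have h2 := hA T U h1
  have h3 : (T ∩ S).card ≤ S.card := card_le_card inter_subset_right
  omega

lemma Deg.cre_zero (S : Finset ι) (b : ι) : cre b ∈ Deg S 0 := by
  intro T U h
  have : U = T.erase b := by by_contra h1; simp [cre, h1] at h
  rw [this, add_zero]
  exact card_le_card (inter_subset_inter_right (erase_subset _ _))

lemma Deg.cre_one {S : Finset ι} {b : ι} (hb : b ∈ S) : cre b ∈ Deg S 1 := by
  intro T U h
  have h1 : b ∈ T ∧ U = T.erase b := by by_contra h1; simp [cre, h1] at h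
  rw [h1.2, erase_inter, card_erase_add_one (mem_inter.2 ⟨h1.1, hb⟩)]

lemma Deg.pow {S : Finset ι} {k : ℕ} {A : Fk ι} (hA : A ∈ Deg S k) (r : ℕ) :
    A ^ r ∈ Deg S (k * r) := by
  induction r with
  | zero => simpa using Deg.one S
  | succ r ih => rw [pow_succ, Nat.mul_succ]; exact Deg.mul ih hA

lemma prod_cre_ne_zero (l : List ι) (hl : l.Nodup) : (l.map cre).prod l.toFinset ∅ ≠ 0 := by
  induction l with
  | nil => simp [Fk.one_apply]
  | cons b l ih =>
    rw [List.nodup_cons] at hl
    rw [List.map_cons, List.prod_cons, cre_mul, List.toFinset_cons, if_pos (mem_insert_self _ _),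
      erase_insert (by simpa using hl.1)]
    exact mul_ne_zero (sg_ne_zero _ _) (ih hl.2)

lemma top_prod_ne_zero {l : List ι} (hl : l.Nodup) (h : ∀ b, b ∈ l) :
    top (l.map cre).prod ≠ 0 := by
  have := prod_cre_ne_zero l hl
  rwa [show l.toFinset = univ from eq_univ_of_forall fun b => by simpa using h b] at this

end Vale.Agent.P174
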