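import Vale.Agent.P174.Fock
import Mathlib.Analysis.Calculus.FDeriv.Symmetric
import Mathlib.Analysis.Calculus.ContDiff.Operations
import Mathlib.Analysis.Calculus.FDeriv.Mul

/-! Differential forms on a coordinate space as functions into the Grassmann algebra. -/

open Finset
open scoped ContDiff

namespace Vale.Agent.P174

variable {ι : Type} [Fintype ι] [DecidableEq ι]

section pd
variable {E : Type*} [NormedAddCommGroup E] [NormedSpace ℝ E]

/-- Smooth functions on the coordinate space. -/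
abbrev Sm (u : (ι → ℝ) → E) : Prop := ContDiff ℝ ∞ u

/-- Derivative in one coordinate direction. -/
noncomputable def pd (b : ι) (u : (ι → ℝ) → E) (x : ι → ℝ) : E := fderiv ℝ u x (Pi.single b 1)

omit [DecidableEq ι] in
lemma Sm.diff {u : (ι → ℝ) → E} (h : Sm u) (x : ι → ℝ) : DifferentiableAt ℝ u x :=
  (h.differentiable (by simp)) x

lemma Sm.pd {u : (ι → ℝ) → E} (h : Sm u) (b : ι) : Sm (pd b u) :=
  (h.fderiv_right (m := ∞) (by simp)).clm_apply contDiff_const

omit [Fintype ι] in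
lemma pd_const (b : ι) (c : E) (x : ι → ℝ) : pd b (fun _ => c) x = 0 := by simp [pd]

lemma pd_add {u w : (ι → ℝ) → E} (hu : Sm u) (hw : Sm w) (b : ι) (x : ι → ℝ) :
    pd b (fun y => u y + w y) x = pd b u x + pd b w x := by
  simp [pd, fderiv_fun_add (hu.diff x) (hw.diff x)]

lemma pd_sum {κ : Type*} (s : Finset κ) {u : κ → (ι → ℝ) → E} (hu : ∀ k ∈ s, Sm (u k)) (b : ι)
    (x : ι → ℝ) : pd b (fun y => ∑ k ∈ s, u k y) x = ∑ k ∈ s, pd b (u k) x := by
  simp [pd, fderiv_fun_sum fun k hk => (hu k hk).diff x]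

lemma pd_clm {F : Type*} [NormedAddCommGroup F] [NormedSpace ℝ F] (L : E →L[ℝ] F)
    {u : (ι → ℝ) → E} (hu : Sm u) (b : ι) (x : ι → ℝ) :
    pd b (fun y => L (u y)) x = L (pd b u x) := by
  have := (L.hasFDerivAt.comp x (hu.diff x).hasFDerivAt).fderiv
  unfold pd
  rw [show (fun y => L (u y)) = L ∘ u from rfl, this]; rfl

lemma pd_comm {u : (ι → ℝ) → E} (hu : Sm u) (b c : ι) (x : ι → ℝ) :
    pd b (pd c u) x = pd c (pd b u) x := by
  have h1 : ∀ b c : ι, pd b (pd c u) x = fderiv ℝ (fderiv ℝ u) x (Pi.single b 1) (Pi.single c 1) := by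
    intro b c
    exact pd_clm (ContinuousLinearMap.apply ℝ E (Pi.single c 1))
      (u := fderiv ℝ u) (hu.fderiv_right (m := ∞) (by simp)) b x
  rw [h1, h1]
  exact (hu.contDiffAt.isSymmSndFDerivAt (by
    rw [minSmoothness_of_isRCLikeNormedField]; exact WithTop.coe_le_coe.2 le_top)) _ _

lemma pd_mul {A : Type*} [NormedRing A] [NormedAlgebra ℝ A] {u w : (ι → ℝ) → A} (hu : Sm u)
    (hw : Sm w) (b : ι) (x : ι → ℝ) :
    pd b (fun y => u y * w y) x = pd b u x * w x + u x * pd b w x := by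
  simp [pd, fderiv_fun_mul' (hu.diff x) (hw.diff x), add_comm]

lemma fderiv_eq_sum_pd (u : (ι → ℝ) → E) (x v : ι → ℝ) :
    fderiv ℝ u x v = ∑ b, v b • pd b u x := by
  conv_lhs => rw [← Finset.univ_sum_single v]
  rw [map_sum]
  refine Finset.sum_congr rfl fun b _ => ?_
  rw [pd, ← map_smul]
  congr 1
  ext c; simp [Pi.single_apply]

end pd

lemma pd_smul {u : (ι → ℝ) → ℂ} {w : (ι → ℝ) → Fk ι} (hu : Sm u) (hw : Sm w) (b : ι)
    (x : ι → ℝ) : pd b (fun y => u y • w y) x = pd b u x • w x + u x • pd b w x := by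
  simp [pd, fderiv_fun_smul (hu.diff x) (hw.diff x), add_comm]

/-- The exterior derivative. -/
noncomputable def ed (μ : (ι → ℝ) → Fk ι) (x : ι → ℝ) : Fk ι := ∑ b, cre b * pd b μ x

/-- The differential of a scalar function. -/
noncomputable def d0 (u : (ι → ℝ) → ℂ) (x : ι → ℝ) : Fk ι := ∑ b, pd b u x • cre b

/-- Elements of parity `p`. -/
def Par (p : ℕ) : Submodule ℂ (Fk ι) where
  carrier := {a | ∀ b, cre b * a = (-1 : ℂ) ^ p • (a * cre b)}
  add_mem' := fun {A B} hA hB b => by rw [mul_add, add_mul, hA b, hB b, smul_add]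
  zero_mem' := fun b => by simp
  smul_mem' := fun c A hA b => by rw [mul_smul_comm, hA b, smul_mul_assoc, smul_comm]

lemma Par.mul {p q : ℕ} {A B : Fk ι} (hA : A ∈ Par p) (hB : B ∈ Par q) : A * B ∈ Par (p + q) := by
  intro b
  rw [← mul_assoc, hA b, smul_mul_assoc, mul_assoc, hB b, mul_smul_comm, smul_smul, pow_add,
    mul_assoc]

lemma Par.one : (1 : Fk ι) ∈ Par 0 := fun b => by simp

lemma Par.cre (c : ι) : cre c ∈ Par 1 := fun b => by rw [cre_anticomm]; simp

/-- One-forms. -/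
noncomputable def One : Submodule ℂ (Fk ι) := Submodule.span ℂ (Set.range cre)

lemma cre_mem_One (b : ι) : cre b ∈ (One : Submodule ℂ (Fk ι)) := Submodule.subset_span ⟨b, rfl⟩

lemma One.comm {η A : Fk ι} {p : ℕ} (hη : η ∈ One) (hA : A ∈ Par p) :
    η * A = (-1 : ℂ) ^ p • (A * η) := by
  induction hη using Submodule.span_induction with
  | mem x hx => obtain ⟨b, rfl⟩ := hx; exact hA b
  | zero => simp
  | add x y _ _ hx hy => rw [add_mul, mul_add, hx, hy, smul_add]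
  | smul c x _ hx => rw [smul_mul_assoc, hx, mul_smul_comm, smul_comm]

lemma One.par {η : Fk ι} (hη : η ∈ One) : η ∈ Par 1 :=
  (Submodule.span_le.2 (by rintro _ ⟨b, rfl⟩; exact Par.cre b) : One ≤ Par 1) hη

lemma One.mul_self {η : Fk ι} (hη : η ∈ One) : η * η = 0 := by
  have h := One.comm hη (One.par hη)
  have : (2 : ℂ) • (η * η) = 0 := by
    rw [two_smul]; nth_rewrite 1 [h]; simp
  simpa using this

lemma d0_mem_One (u : (ι → ℝ) → ℂ) (x : ι → ℝ) : d0 u x ∈ One :=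
  Submodule.sum_mem _ fun b _ => Submodule.smul_mem _ _ (cre_mem_One b)

lemma Sm.d0 {u : (ι → ℝ) → ℂ} (hu : Sm u) : Sm (d0 u) :=
  ContDiff.sum fun b _ => (hu.pd b).smul contDiff_const

lemma ed_add {μ η : (ι → ℝ) → Fk ι} (hμ : Sm μ) (hη : Sm η) (x : ι → ℝ) :
    ed (fun y => μ y + η y) x = ed μ x + ed η x := by
  simp only [ed, pd_add hμ hη, mul_add, Finset.sum_add_distrib]

lemma ed_sum {κ : Type*} (s : Finset κ) {μ : κ → (ι → ℝ) → Fk ι} (hμ : ∀ k ∈ s, Sm (μ k))
    (x : ι → ℝ) : ed (fun y => ∑ k ∈ s, μ k y) x = ∑ k ∈ s, ed (μ k) x := by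
  simp only [ed, pd_sum s hμ, Finset.mul_sum]
  exact Finset.sum_comm

lemma ed_const (c : Fk ι) (x : ι → ℝ) : ed (fun _ => c) x = 0 := by simp [ed, pd_const]

lemma ed_mul {μ η : (ι → ℝ) → Fk ι} (hμ : Sm μ) (hη : Sm η) {p : ℕ} (x : ι → ℝ)
    (hp : μ x ∈ Par p) :
    ed (fun y => μ y * η y) x = ed μ x * η x + (-1 : ℂ) ^ p • (μ x * ed η x) := by
  simp only [ed, pd_mul hμ hη, mul_add, Finset.sum_add_distrib, Finset.sum_mul, Finset.mul_sum,
    Finset.smul_sum, ← mul_assoc]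
  congr 1
  refine Finset.sum_congr rfl fun b _ => ?_
  rw [hp b, smul_mul_assoc]

lemma ed_smul {u : (ι → ℝ) → ℂ} {μ : (ι → ℝ) → Fk ι} (hu : Sm u) (hμ : Sm μ) (x : ι → ℝ) :
    ed (fun y => u y • μ y) x = d0 u x * μ x + u x • ed μ x := by
  simp only [ed, d0, pd_smul hu hμ, mul_add, Finset.sum_add_distrib, Finset.sum_mul,
    Finset.smul_sum, mul_smul_comm, smul_mul_assoc]

lemma ed_d0 {u : (ι → ℝ) → ℂ} (hu : Sm u) (x : ι → ℝ) : ed (d0 u) x = 0 := by
  have h : ed (d0 u) x = ∑ b, ∑ c, pd c (pd b u) x • (cre c * cre b) := by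
    have := ed_sum univ (μ := fun b y => pd b u y • cre b)
      (fun b _ => (hu.pd b).smul contDiff_const) x
    refine this.trans (Finset.sum_congr rfl fun b _ => ?_)
    rw [ed_smul (hu.pd b) contDiff_const, ed_const, smul_zero, add_zero, d0, Finset.sum_mul]
    simp only [smul_mul_assoc]
  have h2 : ed (d0 u) x = -ed (d0 u) x := by
    conv_rhs => rw [h, Finset.sum_comm]
    rw [h, ← Finset.sum_neg_distrib]
    refine Finset.sum_congr rfl fun b _ => ?_
    rw [← Finset.sum_neg_distrib]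
    refine Finset.sum_congr rfl fun c _ => ?_
    rw [pd_comm hu, cre_anticomm, smul_neg]
  have : (2 : ℂ) • ed (d0 u) x = 0 := by
    rw [two_smul]; nth_rewrite 1 [h2]; simp
  simpa using this

lemma d0_const (c : ℂ) (x : ι → ℝ) : d0 (fun _ => c) x = 0 := by simp [d0, pd_const]

lemma d0_add {u w : (ι → ℝ) → ℂ} (hu : Sm u) (hw : Sm w) (x : ι → ℝ) :
    d0 (fun y => u y + w y) x = d0 u x + d0 w x := by
  simp only [d0, pd_add hu hw, add_smul, Finset.sum_add_distrib]

lemma d0_sum {κ : Type*} (s : Finset κ) {u : κ → (ι → ℝ) → ℂ} (hu : ∀ k ∈ s, Sm (u k))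
    (x : ι → ℝ) : d0 (fun y => ∑ k ∈ s, u k y) x = ∑ k ∈ s, d0 (u k) x := by
  simp only [d0, pd_sum s hu, Finset.sum_smul]
  exact Finset.sum_comm

lemma d0_mul {u w : (ι → ℝ) → ℂ} (hu : Sm u) (hw : Sm w) (x : ι → ℝ) :
    d0 (fun y => u y * w y) x = w x • d0 u x + u x • d0 w x := by
  simp only [d0, pd_mul hu hw, add_smul, Finset.sum_add_distrib, Finset.smul_sum, smul_smul,
    mul_comm (w x)]

end Vale.Agent.P174
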