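import Mathlib.Algebra.MonoidAlgebra.Basic
import Mathlib.Analysis.Complex.Circle
import Mathlib.LinearAlgebra.Matrix.ConjTranspose
import Mathlib.LinearAlgebra.Matrix.Trace
import Mathlib.Data.Matrix.Basic

/-! The complex group algebra as a star algebra with its canonical positive trace, and the
matrix algebras over it. -/

open Finset ComplexConjugate

namespace Vale.Agent.P174

/-- The complex group algebra. -/
abbrev GA (G : Type*) : Type _ := MonoidAlgebra ℂ G

variable {G : Type*} [Group G]

noncomputable instance : Star (GA G) where
  star x := MonoidAlgebra.ofCoeff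
    (Finsupp.mapRange (fun z => conj z) (map_zero _) (Finsupp.equivMapDomain (Equiv.inv G) x.coeff))

lemma GA.coeff_star (x : GA G) (g : G) : (star x).coeff g = conj (x.coeff g⁻¹) := rfl

lemma GA.star_single (g : G) (c : ℂ) :
    star (MonoidAlgebra.single g c : GA G) = MonoidAlgebra.single g⁻¹ (conj c) := by
  classical
  ext h
  rw [GA.coeff_star]
  simp only [MonoidAlgebra.coeff_single, Finsupp.single_apply]
  by_cases e : g = h⁻¹
  · subst e; simp
  · rw [if_neg e, if_neg (fun e' => e (by rw [← e', inv_inv])), map_zero]

lemma GA.star_add (x y : GA G) : star (x + y) = star x + star y := by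
  ext g; simp [GA.coeff_star]

lemma GA.star_zero : star (0 : GA G) = 0 := by
  ext g; simp [GA.coeff_star]

noncomputable instance : StarRing (GA G) where
  star_involutive x := by ext g; simp [GA.coeff_star]
  star_add := GA.star_add
  star_mul x y := by
    induction x using MonoidAlgebra.induction_linear with
    | zero => simp [GA.star_zero]
    | add a b ha hb => simp only [add_mul, GA.star_add, ha, hb, mul_add]
    | single g c =>
      induction y using MonoidAlgebra.induction_linear with
      | zero => simp [GA.star_zero]
      | add a b ha hb => simp only [add_mul, GA.star_add, ha, hb, mul_add]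
      | single h d => simp [GA.star_single, MonoidAlgebra.single_mul_single, mul_comm]

instance : StarModule ℂ (GA G) where
  star_smul c x := by ext g; simp [GA.coeff_star]

/-- The canonical trace on the group algebra. -/
noncomputable def GA.tr : GA G →ₗ[ℂ] ℂ where
  toFun x := x.coeff 1
  map_add' x y := by simp
  map_smul' c x := by simp

lemma GA.tr_apply (x : GA G) : GA.tr x = x.coeff 1 := rfl

lemma GA.tr_single (g : G) (c : ℂ) [Decidable (g = 1)] :
    GA.tr (MonoidAlgebra.single g c : GA G) = if g = 1 then c else 0 := by
  simp [GA.tr_apply, Finsupp.single_apply]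

lemma GA.tr_comm (x y : GA G) : GA.tr (x * y) = GA.tr (y * x) := by
  classical
  induction x using MonoidAlgebra.induction_linear with
  | zero => simp
  | add a b ha hb => simp only [add_mul, map_add, ha, hb, mul_add]
  | single g c =>
    induction y using MonoidAlgebra.induction_linear with
    | zero => simp
    | add a b ha hb => simp only [add_mul, map_add, ha, hb, mul_add]
    | single h d =>
      simp only [MonoidAlgebra.single_mul_single, GA.tr_single, mul_comm c d, mul_eq_one_comm]

lemma GA.tr_star (x : GA G) : GA.tr (star x) = conj (GA.tr x) := by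
  simp [GA.tr_apply, GA.coeff_star]

lemma GA.tr_nonneg (x : GA G) : 0 ≤ (GA.tr (star x * x)).re := by
  classical
  rw [GA.tr_apply, MonoidAlgebra.coeff_mul, Finsupp.sum, Complex.re_sum]
  refine Finset.sum_nonneg fun g _ => ?_
  rw [Finsupp.sum, Complex.re_sum]
  refine Finset.sum_nonneg fun h _ => ?_
  split_ifs with e
  · have : g⁻¹ = h := inv_eq_of_mul_eq_one_right e
    rw [GA.coeff_star, this, ← Complex.normSq_eq_conj_mul_self, Complex.ofReal_re]
    exact Complex.normSq_nonneg _
  · simp

variable {I : Type*} [Fintype I] [DecidableEq I]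

/-- The trace on matrices over the group algebra. -/
noncomputable def mtr : Matrix I I (GA G) →ₗ[ℂ] ℂ := GA.tr ∘ₗ Matrix.traceLinearMap I ℂ (GA G)

omit [DecidableEq I] in
lemma mtr_apply (X : Matrix I I (GA G)) : mtr X = ∑ i, GA.tr (X i i) := by
  simp [mtr, Matrix.trace]

omit [DecidableEq I] in
lemma mtr_comm (X Y : Matrix I I (GA G)) : mtr (X * Y) = mtr (Y * X) := by
  simp only [mtr_apply, Matrix.mul_apply, map_sum]
  rw [Finset.sum_comm]
  simp only [GA.tr_comm (X _ _)]

omit [DecidableEq I] in
lemma mtr_star (X : Matrix I I (GA G)) : mtr (star X) = conj (mtr X) := by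
  simp only [mtr_apply, map_sum, Matrix.star_apply, GA.tr_star]

omit [DecidableEq I] in
lemma mtr_nonneg (X : Matrix I I (GA G)) : 0 ≤ (mtr (star X * X)).re := by
  simp only [mtr_apply, Matrix.mul_apply, map_sum, Complex.re_sum, Matrix.star_apply]
  exact Finset.sum_nonneg fun _ _ => Finset.sum_nonneg fun _ _ => GA.tr_nonneg _

/-- The unitary attached to a group element and a unit scalar. -/
noncomputable def rho : G × Circle →* GA G where
  toFun k := MonoidAlgebra.single k.1 (k.2 : ℂ)
  map_one' := rfl
  map_mul' k l := by simp [MonoidAlgebra.single_mul_single]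

lemma rho_apply (k : G × Circle) : rho k = MonoidAlgebra.single k.1 (k.2 : ℂ) := rfl

lemma star_rho (k : G × Circle) : star (rho k) = rho k⁻¹ := by
  rw [rho_apply, GA.star_single, rho_apply, ← Circle.coe_inv_eq_conj]; rfl

/-- Scalar matrices as matrices over the group algebra. -/
noncomputable def lift (G : Type*) [Group G] : Matrix I I ℂ →ₐ[ℂ] Matrix I I (GA G) :=
  (Algebra.ofId ℂ (GA G)).mapMatrix

lemma lift_apply (X : Matrix I I ℂ) (p q : I) :
    lift G X p q = MonoidAlgebra.single 1 (X p q) := rfl

lemma lift_star (X : Matrix I I ℂ) : lift G (star X) = star (lift G X) := by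
  ext1 p q
  rw [Matrix.star_apply, lift_apply, lift_apply, GA.star_single, inv_one]; rfl

lemma mtr_lift (X : Matrix I I ℂ) : mtr (lift G X) = X.trace := by
  classical
  simp [mtr_apply, lift_apply, GA.tr_single, Matrix.trace]

end Vale.Agent.P174
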