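import Vale.Agent.P174.MatForms
import Vale.Agent.P174.Cube

/-! Stokes' theorem on the cube with collapsed or periodic faces, and homotopy invariance. -/

open Finset MeasureTheory Function
open scoped ContDiff

namespace Vale.Agent.P174

variable {ι : Type} [Fintype ι] [DecidableEq ι]

/-- Boundary data: a homotopy coordinate, periodic coordinates, and collapsing directions on
the remaining faces. -/
structure Bdy (ι : Type) where
  /-- the homotopy coordinate -/
  s : ι
  /-- the periodic coordinates -/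
  per : ι → Prop
  /-- the collapsing direction on the face `x b = c` -/
  vec : ι → ℝ → ι → ℝ
  per_s : ¬per s
  vec_ne : ∀ b c, b ≠ s → ¬per b → vec b c ≠ 0
  vec_self : ∀ b c, vec b c b = 0
  vec_s : ∀ b c, vec b c s = 0

variable (B : Bdy ι)

/-- The face `x b = c` that gets collapsed. -/
def Bdy.Face (b : ι) (c : ℝ) (x : ι → ℝ) : Prop :=
  b ≠ B.s ∧ ¬B.per b ∧ (c = 0 ∨ c = 1) ∧ x b = c

/-- The identifications. -/
def Bdy.Rel (x y : ι → ℝ) : Prop :=
  (∃ b, B.per b ∧ y = x + Pi.single b 1) ∨ ∃ b c, ∃ t : ℝ, B.Face b c x ∧ y = x + t • B.vec b c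

/-- Functions compatible with the identifications. -/
def Bdy.Inv {Y : Type*} (u : (ι → ℝ) → Y) : Prop := ∀ x y, B.Rel x y → u y = u x

/-- Functions that do not depend on the homotopy coordinate. -/
def Bdy.Sind {Y : Type*} (u : (ι → ℝ) → Y) : Prop := ∀ x t, u (x + Pi.single B.s t) = u x

omit [Fintype ι] in
lemma Bdy.inv_s : B.Inv fun x => x B.s := by
  rintro x y (⟨b, hb, rfl⟩ | ⟨b, c, t, _, rfl⟩)
  · have : B.s ≠ b := fun e => B.per_s (e ▸ hb)
    simp [this]
  · simp [B.vec_s]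

/-- Closed forms of parity `p` compatible with the identifications. -/
structure GF (p : ℕ) (μ : (ι → ℝ) → Fk ι) : Prop where
  sm : Sm μ
  closed : ∀ x, ed μ x = 0
  par : ∀ x, μ x ∈ Par p
  per : ∀ b, B.per b → ∀ x, μ (x + Pi.single b 1) = μ x
  kil : ∀ b c x, B.Face b c x → μ x ∈ Kil (B.vec b c)

variable {B}

lemma GF.one : GF B 0 fun _ => 1 :=
  ⟨contDiff_const, ed_const _, fun _ => Par.one, fun _ _ _ => rfl, fun _ _ _ _ => one_mem _⟩

lemma GF.mul {p q : ℕ} {μ η : (ι → ℝ) → Fk ι} (hμ : GF B p μ) (hη : GF B q η) :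
    GF B (p + q) fun x => μ x * η x where
  sm := hμ.sm.mul hη.sm
  closed x := by rw [ed_mul hμ.sm hη.sm x (hμ.par x), hμ.closed, hη.closed]; simp
  par x := Par.mul (hμ.par x) (hη.par x)
  per b hb x := by rw [hμ.per b hb, hη.per b hb]
  kil b c x h := mul_mem (hμ.kil b c x h) (hη.kil b c x h)

lemma GF.add {p : ℕ} {μ η : (ι → ℝ) → Fk ι} (hμ : GF B p μ) (hη : GF B p η) :
    GF B p fun x => μ x + η x where
  sm := hμ.sm.add hη.sm
  closed x := by rw [ed_add hμ.sm hη.sm x, hμ.closed, hη.closed]; simp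
  par x := add_mem (hμ.par x) (hη.par x)
  per b hb x := by rw [hμ.per b hb, hη.per b hb]
  kil b c x h := add_mem (hμ.kil b c x h) (hη.kil b c x h)

lemma GF.zero (p : ℕ) : GF B p fun _ => 0 :=
  ⟨contDiff_const, ed_const _, fun _ => zero_mem _, fun _ _ _ => rfl, fun _ _ _ _ => zero_mem _⟩

lemma GF.sum {κ : Type*} (s : Finset κ) {p : ℕ} {μ : κ → (ι → ℝ) → Fk ι}
    (hμ : ∀ k, GF B p (μ k)) : GF B p fun x => ∑ k ∈ s, μ k x := by
  classical
  induction s using Finset.induction_on with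
  | empty => simpa using GF.zero p
  | insert a s ha ih => simpa only [Finset.sum_insert ha] using (hμ a).add ih

/-- Pairing with a creation operator and the top coefficient. -/
noncomputable def topc (b : ι) : Fk ι →L[ℝ] ℂ :=
  (top.comp (ContinuousLinearMap.mul ℂ (Fk ι) (cre b))).restrictScalars ℝ

lemma topc_apply (b : ι) (A : Fk ι) : topc b A = top (cre b * A) := rfl

omit [Fintype ι] in
lemma update_eq_add (x : ι → ℝ) (b : ι) (c : ℝ) : update x b c = x + Pi.single b (c - x b) := by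
  ext a
  by_cases h : a = b
  · subst h; simp
  · simp [h]

lemma GF.stokes {p : ℕ} {μ : (ι → ℝ) → Fk ι} (hμ : GF B p μ) :
    ∫ x, top (cre B.s * μ (update x B.s 1)) ∂cube ι =
      ∫ x, top (cre B.s * μ (update x B.s 0)) ∂cube ι := by
  have hs : ∀ b, Sm fun y => topc b (μ y) := fun b => (topc b).contDiff.comp hμ.sm
  have h0 : ∑ b, ∫ x, pd b (fun y => topc b (μ y)) x ∂cube ι = 0 := by
    rw [← integral_finsetSum _ fun b _ => integrable_cube ((hs b).pd b).continuous]
    have : ∀ x, ∑ b, pd b (fun y => topc b (μ y)) x = 0 := by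
      intro x
      simp only [pd_clm _ hμ.sm]
      simp only [topc_apply, ← map_sum]
      exact (congrArg top (hμ.closed x)).trans (map_zero _)
    simp [this]
  rw [Finset.sum_eq_single B.s _ (by simp), integral_pd (hs _), sub_eq_zero] at h0
  · exact h0
  intro b _ hb
  rw [integral_pd (hs b), sub_eq_zero]
  by_cases hp : B.per b
  · congr 1
    ext x
    rw [← hμ.per b hp (update x b 0)]
    congr 2
    ext a
    by_cases h : a = b
    · subst h; simp
    · simp [h]
  · have : ∀ c : ℝ, c = 0 ∨ c = 1 → ∀ x, topc b (μ (update x b c)) = 0 := fun c hc x =>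
      top_eq_zero_of_Kil (B.vec_ne b c hb hp)
        (mul_mem (cre_mem_Kil (B.vec_self b c)) (hμ.kil b c _ ⟨hb, hp, hc, by simp⟩))
    simp [this]

variable {N : Type} [Fintype N] [DecidableEq N]

variable (B) in
/-- Smooth invertible matrix functions compatible with the identifications. -/
structure Gd (f : (ι → ℝ) → Matrix N N ℂ) : Prop where
  sm : MSm f
  unit : ∀ x, IsUnit (f x).det
  inv : B.Inv f

lemma xk_translate {f : (ι → ℝ) → Matrix N N ℂ} {v : ι → ℝ} (h : ∀ y, f (y + v) = f y) (k : ℕ)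
    (x : ι → ℝ) : xk k f (x + v) = xk k f x := by
  have : D f (x + v) = D f x := by
    ext1 a b
    simp only [D_apply, d0, pd]
    rw [← fderiv_comp_add_right]
    simp only [h]
  rw [xk, th, this, h, xk, th]

lemma d0_mem_Kil {u : (ι → ℝ) → ℂ} (hu : Sm u) {x v : ι → ℝ} (h : ∀ t : ℝ, u (x + t • v) = u x) :
    d0 u x ∈ Kil v := by
  apply oneform_mem_Kil
  have h1 : HasDerivAt (fun t : ℝ => x + t • v) v 0 := by
    simpa using ((hasDerivAt_id (0 : ℝ)).smul_const v).const_add x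
  have h2 : HasFDerivAt u (fderiv ℝ u x) (x + (0 : ℝ) • v) := by
    simpa using (hu.diff x).hasFDerivAt
  have h3 := h2.comp_hasDerivAt (0 : ℝ) h1
  have h4 : (u ∘ fun t : ℝ => x + t • v) = fun _ => u x := funext h
  rw [h4] at h3
  have h5 := h3.unique (hasDerivAt_const _ _)
  rw [fderiv_eq_sum_pd] at h5
  simpa using h5

lemma Gd.gf {f : (ι → ℝ) → Matrix N N ℂ} (hf : Gd B f) (j : ℕ) :
    GF B (2 * j + 1) (xk (2 * j + 1) f) where
  sm := xk_sm hf.sm hf.unit _
  closed := ed_xk hf.sm hf.unit j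
  par := xk_par _ f
  per b hb := xk_translate (fun y => hf.inv _ _ (Or.inl ⟨b, hb, rfl⟩)) _
  kil b c x h := by
    have h1 : MIn (Subalgebra.toSubmodule (Kil (B.vec b c))) (th f x) :=
      MIn.lf_mul _ fun a a' => d0_mem_Kil (hf.sm a a') fun t => by
        rw [hf.inv _ _ (Or.inr ⟨b, c, t, h, rfl⟩)]
    exact (MIn.pow (S := fun _ => Subalgebra.toSubmodule (Kil (B.vec b c))) (one_mem (Kil _))
      (fun _ _ ha _ hb => mul_mem (s := Kil _) ha hb) h1 _).trace

omit [Fintype N] [DecidableEq N] in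
lemma cre_smul_mul {N' N'' : Type} [Fintype N'] {k : ℕ} (b : ι) {P : Matrix N N' (Fk ι)}
    (hP : MIn (Par k) P) (Q : Matrix N' N'' (Fk ι)) :
    cre b • (P * Q) = (-1 : ℂ) ^ k • (P * (cre b • Q)) := by
  ext1 a c
  simp only [Matrix.smul_apply, Matrix.mul_apply, smul_eq_mul, Finset.mul_sum, Finset.smul_sum]
  refine Finset.sum_congr rfl fun d _ => ?_
  rw [← mul_assoc, hP a d b, smul_mul_assoc, mul_assoc]

lemma cre_xk_update {H : (ι → ℝ) → Matrix N N ℂ} (hH : MSm H) (s : ι) (c : ℝ) (k : ℕ)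
    (x : ι → ℝ) :
    cre s * xk k H (update x s c) = cre s * xk k (fun y => H (update y s c)) x := by
  have hupd : Sm fun y : ι → ℝ => update y s c := by
    refine contDiff_pi.2 fun a => ?_
    by_cases h : a = s
    · subst h; simpa using contDiff_const
    · simpa [h] using contDiff_apply ℝ ℝ a
  have h1 : cre s • D H (update x s c) = cre s • D (fun y => H (update y s c)) x := by
    ext1 a a'
    simp only [Matrix.smul_apply, smul_eq_mul, D_apply, d0, Finset.mul_sum, mul_smul_comm]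
    refine Finset.sum_congr rfl fun b _ => ?_
    by_cases hb : b = s
    · subst hb; simp [cre_mul_self]
    congr 1
    have e1 := hasDerivAt_pd (hH a a') b (update x s c) (x b)
    have e2 := hasDerivAt_pd (h := fun y => H (update y s c) a a') ((hH a a').comp hupd) b x (x b)
    rw [update_eq_self] at e2
    rw [← update_comm hb, update_eq_self] at e1
    simp only [update_comm hb] at e2
    exact e1.unique e2
  have h2 : cre s • th H (update x s c) = cre s • th (fun y => H (update y s c)) x := by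
    rw [th, th, cre_smul_mul s (MIn.lf Par.one _), cre_smul_mul s (MIn.lf Par.one _), h1]
  have h3 : cre s • th H (update x s c) ^ k = cre s • th (fun y => H (update y s c)) x ^ k := by
    induction k with
    | zero => rw [pow_zero, pow_zero]
    | succ k ih =>
      rw [pow_succ, pow_succ, ← Matrix.smul_mul, ih, Matrix.smul_mul,
        cre_smul_mul s ((th_mem_One _ _).one_pow k), h2,
        cre_smul_mul s ((th_mem_One _ _).one_pow k)]
  have := congrArg Matrix.trace h3
  simpa only [Matrix.trace_smul, smul_eq_mul, xk] using this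

variable (B) in
/-- The integral of a form that does not involve the homotopy coordinate. -/
noncomputable def Bdy.I (μ : (ι → ℝ) → Fk ι) : ℂ := ∫ x, top (cre B.s * μ x) ∂cube ι

variable (B) in
/-- Closed forms on the base. -/
def BF (μ : (ι → ℝ) → Fk ι) : Prop := (∃ p, GF B p μ) ∧ B.Sind μ

lemma BF.one : BF B fun _ => 1 := ⟨⟨0, GF.one⟩, fun _ _ => rfl⟩

lemma BF.mul {μ η : (ι → ℝ) → Fk ι} (hμ : BF B μ) (hη : BF B η) : BF B fun x => μ x * η x := by
  obtain ⟨⟨p, h1⟩, h2⟩ := hμ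
  obtain ⟨⟨q, h3⟩, h4⟩ := hη
  exact ⟨⟨_, h1.mul h3⟩, fun x t => by simp only [h2 x t, h4 x t]⟩

lemma BF.cont {μ : (ι → ℝ) → Fk ι} (hμ : BF B μ) : Continuous μ := by
  obtain ⟨⟨p, h1⟩, _⟩ := hμ
  exact h1.sm.continuous

lemma BF.prod {κ : Type*} {X : κ → (ι → ℝ) → Fk ι} (hX : ∀ k, BF B (X k)) (L : List κ) :
    BF B fun x => (L.map fun k => X k x).prod := by
  induction L with
  | nil => simpa using BF.one
  | cons k L ih => simpa using (hX k).mul ih

variable (B) in
/-- Forms with equal integrals against all closed forms. -/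
structure Eqv (μ η : (ι → ℝ) → Fk ι) : Prop where
  ca : Continuous μ
  cb : Continuous η
  eq : ∀ Ξ Ξ', BF B Ξ → BF B Ξ' →
    (B.I fun x => Ξ x * μ x * Ξ' x) = B.I fun x => Ξ x * η x * Ξ' x

lemma Eqv.refl {μ : (ι → ℝ) → Fk ι} (h : Continuous μ) : Eqv B μ μ := ⟨h, h, fun _ _ _ _ => rfl⟩

lemma Eqv.symm {μ η : (ι → ℝ) → Fk ι} (h : Eqv B μ η) : Eqv B η μ :=
  ⟨h.cb, h.ca, fun _ _ h1 h2 => (h.eq _ _ h1 h2).symm⟩

lemma Eqv.trans {μ η ζ : (ι → ℝ) → Fk ι} (h : Eqv B μ η) (h' : Eqv B η ζ) : Eqv B μ ζ :=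
  ⟨h.ca, h'.cb, fun _ _ h1 h2 => (h.eq _ _ h1 h2).trans (h'.eq _ _ h1 h2)⟩

lemma Bdy.I_add {μ η : (ι → ℝ) → Fk ι} (hμ : Continuous μ) (hη : Continuous η) :
    (B.I fun x => μ x + η x) = B.I μ + B.I η := by
  simp only [Bdy.I, mul_add, map_add]
  exact integral_add (integrable_cube (by fun_prop)) (integrable_cube (by fun_prop))

lemma Bdy.I_smul (c : ℂ) (μ : (ι → ℝ) → Fk ι) : (B.I fun x => c • μ x) = c * B.I μ := by
  simp only [Bdy.I, mul_smul_comm, map_smul, smul_eq_mul]
  exact integral_const_mul _ _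

lemma Eqv.add {μ η μ' η' : (ι → ℝ) → Fk ι} (h : Eqv B μ η) (h' : Eqv B μ' η') :
    Eqv B (fun x => μ x + μ' x) fun x => η x + η' x := by
  refine ⟨h.ca.add h'.ca, h.cb.add h'.cb, fun Ξ Ξ' h1 h2 => ?_⟩
  simp only [mul_add, add_mul]
  have c : ∀ {ζ : (ι → ℝ) → Fk ι}, Continuous ζ → Continuous fun x => Ξ x * ζ x * Ξ' x :=
    fun hζ => (h1.cont.mul hζ).mul h2.cont
  rw [B.I_add (c h.ca) (c h'.ca), B.I_add (c h.cb) (c h'.cb), h.eq _ _ h1 h2, h'.eq _ _ h1 h2]

lemma Eqv.homotopy {H : (ι → ℝ) → Matrix N N ℂ} (hH : Gd B H) {f g : (ι → ℝ) → Matrix N N ℂ}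
    (hf : Gd B f) (hg : Gd B g) (h0 : ∀ x, H (update x B.s 0) = f x)
    (h1 : ∀ x, H (update x B.s 1) = g x) (j : ℕ) :
    Eqv B (xk (2 * j + 1) f) (xk (2 * j + 1) g) := by
  refine ⟨(hf.gf j).sm.continuous, (hg.gf j).sm.continuous, ?_⟩
  rintro Ξ Ξ' ⟨⟨p, hp⟩, hs⟩ ⟨⟨q, hq⟩, hs'⟩
  have hst := ((hp.mul (hH.gf j)).mul hq).stokes
  have key : ∀ c x, cre B.s * (Ξ (update x B.s c) * xk (2 * j + 1) H (update x B.s c) *
      Ξ' (update x B.s c)) =
      cre B.s * (Ξ x * xk (2 * j + 1) (fun y => H (update y B.s c)) x * Ξ' x) := by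
    intro c x
    have e1 : Ξ (update x B.s c) = Ξ x := by rw [update_eq_add, hs]
    have e2 : Ξ' (update x B.s c) = Ξ' x := by rw [update_eq_add, hs']
    simp only [e1, e2, ← mul_assoc, hp.par x B.s, smul_mul_assoc]
    rw [mul_assoc (Ξ x), cre_xk_update hH.sm, ← mul_assoc]
  simp only [key, h0, h1] at hst
  exact hst.symm

lemma Eqv.prod {κ : Type*} {X Y : κ → (ι → ℝ) → Fk ι} (hX : ∀ k, BF B (X k))
    (hY : ∀ k, BF B (Y k)) (h : ∀ k, Eqv B (X k) (Y k)) (L : List κ) :
    (B.I fun x => (L.map fun k => X k x).prod) = B.I fun x => (L.map fun k => Y k x).prod := by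
  suffices ∀ Ξ, BF B Ξ → (B.I fun x => Ξ x * (L.map fun k => X k x).prod) =
      B.I fun x => Ξ x * (L.map fun k => Y k x).prod by simpa using this _ BF.one
  induction L with
  | nil => intro _ _; rfl
  | cons k L ih =>
    intro Ξ hΞ
    simp only [List.map_cons, List.prod_cons, ← mul_assoc]
    rw [(h k).eq _ _ hΞ (BF.prod hX L), ih _ (hΞ.mul (hY k))]

end Vale.Agent.P174
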