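import Mathlib.GroupTheory.Coprod.Basic
import Mathlib.GroupTheory.FreeGroup.Basic
import Mathlib.Analysis.Complex.Circle
import Mathlib.Logic.Equiv.Fin.Rotate

/-! Weighted permutations, elementary moves between them, and the starting configuration
attached to a system of relators. -/

namespace Vale.Agent.P174

/-- A weighted permutation: the arrow `p → σ p` carries the weight `wt p`. -/
structure WP (I K : Type*) where
  /-- the permutation -/
  σ : Equiv.Perm I
  /-- the weights -/
  wt : I → K

/-- Left multiplication by the weighted transposition of `p`, `q` with weights `y`, `y⁻¹`. -/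
def WP.step {I K : Type*} [DecidableEq I] [Group K] (x : WP I K) (p q : I) (y : K) : WP I K where
  σ := (Equiv.swap p q).trans x.σ
  wt r := if r = p then y * x.wt q else if r = q then y⁻¹ * x.wt p else x.wt r

/-- `Chain k x z`: `z` arises from `x` by `k` weighted transpositions. -/
inductive Chain {I K : Type*} [DecidableEq I] [Group K] : ℕ → WP I K → WP I K → Prop
  | refl (x : WP I K) : Chain 0 x x
  | step {k : ℕ} {x z : WP I K} (p q : I) (y : K) (h : p ≠ q) :
      Chain k x z → Chain (k + 1) x (z.step p q y)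

/-- The letter `x_j` (sign `true`) or `x_j⁻¹` (sign `false`). -/
def gen (G : Type*) [Group G] {Λ : Type*} (a : Λ × Bool) : Monoid.Coprod G (FreeGroup Λ) :=
  if a.2 then Monoid.Coprod.inr (FreeGroup.of a.1) else (Monoid.Coprod.inr (FreeGroup.of a.1))⁻¹

/-- Keep the letter (`true`) or invert it (`false`). -/
def sgn {Λ : Type*} (b : Bool) (a : Λ × Bool) : Λ × Bool := if b then a else (a.1, !a.2)

/-- Positions in the relators, with an orientation. -/
abbrev Pos {m : ℕ} (k : Fin m → ℕ) : Type := (Σ i : Fin m, Fin (k i + 1)) × Bool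

/-- All letters: `n` copies of each relator and of its inverse, and pairs of stem letters. -/
abbrev Let {m : ℕ} (n : ℕ) (k : Fin m → ℕ) (J : Type) : Type := (Fin n × Pos k) ⊕ (J × Bool)

/-- Rotation along the relators (backwards along the inverse relators). -/
def rot {m : ℕ} (k : Fin m → ℕ) : Equiv.Perm (Pos k) where
  toFun β := if β.2 then (⟨β.1.1, finRotate _ β.1.2⟩, β.2) else (⟨β.1.1, (finRotate _).symm β.1.2⟩, β.2)
  invFun β := if β.2 then (⟨β.1.1, (finRotate _).symm β.1.2⟩, β.2) else (⟨β.1.1, finRotate _ β.1.2⟩, β.2)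
  left_inv := by rintro ⟨⟨i, a⟩, _ | _⟩ <;> simp [-finRotate_apply, -finRotate_symm_apply]
  right_inv := by rintro ⟨⟨i, a⟩, _ | _⟩ <;> simp [-finRotate_apply, -finRotate_symm_apply]

/-- Reversal of the orientation. -/
def flip (J : Type*) : Equiv.Perm (J × Bool) where
  toFun β := (β.1, !β.2)
  invFun β := (β.1, !β.2)
  left_inv := by rintro ⟨_, _⟩; simp
  right_inv := by rintro ⟨_, _⟩; simp

variable {G : Type*} [Group G] {m : ℕ} {k : Fin m → ℕ}

/-- The coefficient following a position. -/
def posWt (κ : ∀ i, Fin (k i + 1) → G) (β : Pos k) : G :=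
  if β.2 then κ β.1.1 β.1.2 else (κ β.1.1 ((finRotate _).symm β.1.2))⁻¹

/-- The starting configuration: face cycles and trivial stem pairs. -/
noncomputable def start (n : ℕ) (J : Type) (κ : ∀ i, Fin (k i + 1) → G) : WP (Let n k J) (G × Circle) where
  σ := Equiv.sumCongr (Equiv.prodCongr (Equiv.refl _) (rot k)) (flip J)
  wt := Sum.elim (fun a => (posWt κ a.2, 1)) (fun _ => 1)

/-- The labels of all letters. -/
def label {Λ : Type*} {n : ℕ} {J : Type} (lab : ∀ i, Fin (k i + 1) → Λ × Bool)
    (labJ : J → Λ × Bool) : Let n k J → Λ × Bool :=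
  Sum.elim (fun a => sgn a.2.2 (lab a.2.1.1 a.2.1.2)) (fun a => sgn a.2 (labJ a.1))

/-- The relator `∏ x_{lab a} κ_a`. -/
def relw {Λ : Type*} (lab : ∀ i, Fin (k i + 1) → Λ × Bool) (κ : ∀ i, Fin (k i + 1) → G)
    (i : Fin m) : Monoid.Coprod G (FreeGroup Λ) :=
  (List.ofFn fun a => gen G (lab i a) * Monoid.Coprod.inl (κ i a)).prod

/-- A terminal configuration: a fixed point free involution pairing inverse labels, with trivial
group weights except at `p0`, and prescribed product `ω` of the scalars on the other pairs. -/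
structure Terminal {I Λ : Type*} (lb : I → Λ × Bool) (ω : Circle) (z : WP I (G × Circle))
    (p0 : I) : Prop where
  invol : ∀ p, z.σ (z.σ p) = p
  lab : ∀ p, lb (z.σ p) = sgn false (lb p)
  triv : ∀ p, p ≠ p0 → (z.wt p).1 = 1
  ne : (z.wt p0).1 ≠ 1
  scal : ∀ p, p ≠ p0 → z.σ p ≠ p0 → (z.wt p).2 * (z.wt (z.σ p)).2 = ω

end Vale.Agent.P174
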