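import Vale.Agent.P174.GA
import Vale.Agent.P174.WP
import Mathlib.Data.Matrix.Block

/-! Matrices of weighted permutations. -/

open Finset Matrix

namespace Vale.Agent.P174

variable {I : Type*} [Fintype I] [DecidableEq I] {R : Type*} [Ring R]

/-- The matrix of a weighted permutation. -/
def pm (σ : Equiv.Perm I) (a : I → R) : Matrix I I R :=
  Matrix.of fun p r => if r = σ p then a p else 0

omit [Fintype I] in
lemma pm_apply (σ : Equiv.Perm I) (a : I → R) (p r : I) :
    pm σ a p r = if r = σ p then a p else 0 := rfl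

lemma pm_mul_apply (σ : Equiv.Perm I) (a : I → R) (M : Matrix I I R) (p r : I) :
    (pm σ a * M) p r = a p * M (σ p) r := by
  simp [Matrix.mul_apply, pm_apply]

lemma pm_mul (σ τ : Equiv.Perm I) (a b : I → R) :
    pm σ a * pm τ b = pm (σ.trans τ) fun p => a p * b (σ p) := by
  ext1 p r
  rw [pm_mul_apply, pm_apply, pm_apply, mul_ite, mul_zero]; rfl

omit [Fintype I] in
lemma pm_eq_diagonal {σ : Equiv.Perm I} (h : ∀ p, σ p = p) (a : I → R) : pm σ a = diagonal a := by
  ext1 p r
  simp [pm_apply, diagonal_apply, h, eq_comm]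

omit [Fintype I] in
lemma pm_eq_one {σ : Equiv.Perm I} (h : ∀ p, σ p = p) {a : I → R} (ha : ∀ p, a p = 1) :
    pm σ a = 1 := by
  rw [pm_eq_diagonal h, show a = fun _ => 1 from funext ha, diagonal_one]

omit [Fintype I] in
lemma star_pm [StarRing R] (σ : Equiv.Perm I) (a : I → R) :
    star (pm σ a) = pm σ.symm fun r => star (a (σ.symm r)) := by
  ext1 p r
  simp only [star_apply, pm_apply, Equiv.eq_symm_apply]
  by_cases h : p = σ r
  · subst h; simp
  · simp [h, Ne.symm h]

omit [Fintype I] in
lemma pm_congr {σ τ : Equiv.Perm I} (h : ∀ p, σ p = τ p) {a b : I → R} (ha : ∀ p, a p = b p) :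
    pm σ a = pm τ b := by
  rw [Equiv.ext h, funext ha]

lemma mul_pm_apply (M : Matrix I I R) (σ : Equiv.Perm I) (a : I → R) (p r : I) :
    (M * pm σ a) p r = M p (σ.symm r) * a (σ.symm r) := by
  rw [Matrix.mul_apply, Finset.sum_eq_single (σ.symm r) _ (by simp), pm_apply, if_pos (by simp)]
  intro b _ hb
  rw [pm_apply, if_neg (fun e => hb (by simp [e])), mul_zero]

/-- Block diagonal matrices extended by the identity. -/
def Gam {N Bk J : Type*} [DecidableEq Bk] [DecidableEq J] (M : Bk → Matrix N N R) :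
    Matrix ((N × Bk) ⊕ J) ((N × Bk) ⊕ J) R := fromBlocks (blockDiagonal M) 0 0 1

lemma pm_mul_Gam {N Bk J : Type*} [Fintype N] [DecidableEq N] [Fintype Bk] [DecidableEq Bk]
    [Fintype J] [DecidableEq J] (π : Equiv.Perm Bk) (π' : Equiv.Perm J) (a : (N × Bk) ⊕ J → R)
    (M : Bk → Matrix N N R)
    (h : ∀ s s' β, a (.inl (s, β)) * M (π β) s s' = M (π β) s s' * a (.inl (s', β))) :
    pm (Equiv.sumCongr (Equiv.prodCongr (Equiv.refl N) π) π') a * Gam M =
      Gam (fun β => M (π β)) * pm (Equiv.sumCongr (Equiv.prodCongr (Equiv.refl N) π) π') a := by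
  ext1 p r
  rw [pm_mul_apply, mul_pm_apply]
  rcases p with ⟨s, β⟩ | j <;> rcases r with ⟨s', β'⟩ | j'
  · simp only [Gam, Equiv.sumCongr_apply, Sum.map_inl, Equiv.prodCongr_apply, Equiv.coe_refl,
      Prod.map_apply, id_eq, fromBlocks_apply₁₁, blockDiagonal_apply, Equiv.sumCongr_symm,
      Equiv.prodCongr_symm, Equiv.refl_symm, Equiv.eq_symm_apply]
    split_ifs with e
    · subst e; simp [h]
    · simp
  · simp [Gam]
  · simp [Gam]
  · simp only [Gam, Equiv.sumCongr_apply, Sum.map_inr, fromBlocks_apply₂₂, Equiv.sumCongr_symm,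
      one_apply, Equiv.eq_symm_apply]
    split_ifs with e
    · subst e; simp
    · simp

variable {G : Type*} [Group G]

/-- The matrix of a configuration. -/
noncomputable def mat (x : WP I (G × Circle)) : Matrix I I (GA G) := pm x.σ fun p => rho (x.wt p)

lemma mat_mul_star (x : WP I (G × Circle)) : mat x * star (mat x) = 1 := by
  rw [mat, star_pm, pm_mul]
  exact pm_eq_one (by simp) fun p => by simp [star_rho, ← map_mul]

lemma star_mul_mat (x : WP I (G × Circle)) : star (mat x) * mat x = 1 := by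
  rw [mat, star_pm, pm_mul]
  exact pm_eq_one (by simp) fun p => by simp [star_rho, ← map_mul]

lemma step_spec (x : WP I (G × Circle)) {p q : I} (h : p ≠ q) (y : G × Circle) :
    ∃ T : Matrix I I (GA G), star T = T ∧ T * T = 1 ∧ (mtr T).re = Fintype.card I - 2 ∧
      mat x = T * mat (x.step p q y) := by
  classical
  let w : I → G × Circle := fun r => if r = p then y else if r = q then y⁻¹ else 1
  have hw : ∀ r, w (Equiv.swap p q r) = (w r)⁻¹ := by
    intro r
    by_cases h1 : r = p
    · subst h1; simp [w, h.symm]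
    by_cases h2 : r = q
    · subst h2; simp [w, h1]
    · simp [w, Equiv.swap_apply_of_ne_of_ne h1 h2, h1, h2]
  have hT : pm (Equiv.swap p q) (fun r => rho (w r)) * pm (Equiv.swap p q) (fun r => rho (w r)) =
      1 := by
    rw [pm_mul]
    exact pm_eq_one (by simp) fun r => by simp [hw, ← map_mul]
  refine ⟨pm (Equiv.swap p q) fun r => rho (w r), ?_, hT, ?_, ?_⟩
  · rw [star_pm]
    exact pm_congr (by simp) fun r => by simp [star_rho, hw]
  · have : ∀ r, GA.tr (pm (Equiv.swap p q) (fun r => rho (w r)) r r) =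
        1 - (if r = p then 1 else 0) - (if r = q then 1 else 0) := by
      intro r
      rw [pm_apply]
      by_cases h1 : r = p
      · subst h1; simp [h]
      by_cases h2 : r = q
      · subst h2; simp [h1]
      · simp [w, Equiv.swap_apply_of_ne_of_ne h1 h2, h1, h2, rho_apply, GA.tr_single]
    rw [mtr_apply]
    simp only [this, Finset.sum_sub_distrib]
    simp
    ring
  · have : mat (x.step p q y) = pm (Equiv.swap p q) (fun r => rho (w r)) * mat x := by
      rw [mat, mat, pm_mul]
      refine pm_congr (fun _ => rfl) fun r => ?_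
      rw [← map_mul]
      congr 1
      by_cases h1 : r = p
      · subst h1; simp [w, WP.step]
      by_cases h2 : r = q
      · subst h2; simp [w, h1, WP.step]
      · simp [w, Equiv.swap_apply_of_ne_of_ne h1 h2, h1, h2, WP.step]
    rw [this, ← Matrix.mul_assoc, hT, Matrix.one_mul]

lemma Chain.spec {c : ℕ} {x z : WP I (G × Circle)} (h : Chain c x z) :
    ∃ Ts : List (Matrix I I (GA G)), Ts.length = c ∧
      (∀ T ∈ Ts, star T = T ∧ T * T = 1 ∧ (mtr T).re = Fintype.card I - 2) ∧
      mat x = Ts.prod * mat z := by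
  induction h with
  | refl => exact ⟨[], rfl, by simp, by simp⟩
  | step p q y h _ ih =>
    obtain ⟨Ts, h1, h2, h3⟩ := ih
    obtain ⟨T, h4, h5, h6, h7⟩ := step_spec _ h y
    refine ⟨Ts ++ [T], by simp [h1], ?_, by rw [h3, h7]; simp [Matrix.mul_assoc]⟩
    intro T' hT'
    rcases List.mem_append.1 hT' with h | h
    · exact h2 _ h
    · rw [List.mem_singleton.1 h]; exact ⟨h4, h5, h6⟩

end Vale.Agent.P174
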