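import Vale.Agent.P174.Forms
import Mathlib.LinearAlgebra.Matrix.NonsingularInverse
import Mathlib.LinearAlgebra.Matrix.Trace

/-! Matrices of forms, the Maurer-Cartan form and its odd trace powers. -/

open Finset Matrix
open scoped ContDiff

namespace Vale.Agent.P174

variable {ι : Type} [Fintype ι] [DecidableEq ι]
variable {N N' N'' : Type}

/-- Entrywise smoothness. -/
def MSm {E : Type*} [NormedAddCommGroup E] [NormedSpace ℝ E] (f : (ι → ℝ) → Matrix N N' E) :
    Prop := ∀ a b, Sm fun x => f x a b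

/-- Entrywise membership. -/
def MIn (S : Submodule ℂ (Fk ι)) (M : Matrix N N' (Fk ι)) : Prop := ∀ a b, M a b ∈ S

variable (ι) in
/-- Scalar matrices as matrices of forms. -/
noncomputable def lf (M : Matrix N N' ℂ) : Matrix N N' (Fk ι) := M.map (algebraMap ℂ (Fk ι))

/-- Entrywise differential of a matrix function. -/
noncomputable def D (f : (ι → ℝ) → Matrix N N' ℂ) (x : ι → ℝ) : Matrix N N' (Fk ι) :=
  Matrix.of fun a b => d0 (fun y => f y a b) x

/-- Entrywise exterior derivative. -/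
noncomputable def Ed (M : (ι → ℝ) → Matrix N N' (Fk ι)) (x : ι → ℝ) : Matrix N N' (Fk ι) :=
  Matrix.of fun a b => ed (fun y => M y a b) x

lemma lf_apply (M : Matrix N N' ℂ) (a : N) (b : N') : lf ι M a b = M a b • 1 :=
  Algebra.algebraMap_eq_smul_one (A := Fk ι) (M a b)

lemma D_apply (f : (ι → ℝ) → Matrix N N' ℂ) (x : ι → ℝ) (a : N) (b : N') :
    D f x a b = d0 (fun y => f y a b) x := rfl

lemma lf_mul [Fintype N'] (M : Matrix N N' ℂ) (M' : Matrix N' N'' ℂ) :
    lf ι (M * M') = lf ι M * lf ι M' := Matrix.map_mul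

lemma lf_one [DecidableEq N] : lf ι (1 : Matrix N N ℂ) = 1 :=
  Matrix.map_one _ (map_zero _) (map_one _)

lemma lf_add (M M' : Matrix N N' ℂ) : lf ι (M + M') = lf ι M + lf ι M' := by
  ext1 a b; simp [lf_apply, add_smul]

lemma lf_smul (c : ℂ) (M : Matrix N N' ℂ) : lf ι (c • M) = c • lf ι M := by
  ext1 a b; simp [lf_apply, smul_smul]

lemma lf_mul_apply [Fintype N'] (P : Matrix N N' ℂ) (M : Matrix N' N'' (Fk ι)) (a : N) (b : N'') :
    (lf ι P * M) a b = ∑ c, P a c • M c b := by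
  simp [Matrix.mul_apply, lf_apply]

lemma mul_lf_apply [Fintype N'] (M : Matrix N N' (Fk ι)) (P : Matrix N' N'' ℂ) (a : N) (b : N'') :
    (M * lf ι P) a b = ∑ c, P c b • M a c := by
  simp [Matrix.mul_apply, lf_apply]

lemma MIn.mul [Fintype N'] {S T U : Submodule ℂ (Fk ι)} (h : ∀ a ∈ S, ∀ b ∈ T, a * b ∈ U)
    {M : Matrix N N' (Fk ι)} {M' : Matrix N' N'' (Fk ι)} (hM : MIn S M) (hM' : MIn T M') :
    MIn U (M * M') := fun a b => by
  rw [Matrix.mul_apply]
  exact Submodule.sum_mem _ fun c _ => h _ (hM a c) _ (hM' c b)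

lemma MIn.lf_mul [Fintype N'] {S : Submodule ℂ (Fk ι)} (P : Matrix N N' ℂ)
    {M : Matrix N' N'' (Fk ι)} (hM : MIn S M) : MIn S (lf ι P * M) := fun a b => by
  rw [lf_mul_apply]
  exact Submodule.sum_mem _ fun c _ => Submodule.smul_mem _ _ (hM c b)

lemma MIn.mul_lf [Fintype N'] {S : Submodule ℂ (Fk ι)} {M : Matrix N N' (Fk ι)} (hM : MIn S M)
    (P : Matrix N' N'' ℂ) : MIn S (M * lf ι P) := fun a b => by
  rw [mul_lf_apply]
  exact Submodule.sum_mem _ fun c _ => Submodule.smul_mem _ _ (hM a c)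

lemma MIn.lf {S : Submodule ℂ (Fk ι)} (h1 : (1 : Fk ι) ∈ S) (P : Matrix N N' ℂ) :
    MIn S (lf ι P) := fun a b => by
  rw [lf_apply]; exact Submodule.smul_mem _ _ h1

lemma MIn.trace [Fintype N] {S : Submodule ℂ (Fk ι)} {M : Matrix N N (Fk ι)} (hM : MIn S M) :
    M.trace ∈ S := Submodule.sum_mem _ fun a _ => hM a a

lemma MIn.pow [Fintype N] [DecidableEq N] {S : ℕ → Submodule ℂ (Fk ι)} (h0 : (1 : Fk ι) ∈ S 0)
    (h : ∀ k, ∀ a ∈ S k, ∀ b ∈ S 1, a * b ∈ S (k + 1)) {M : Matrix N N (Fk ι)}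
    (hM : MIn (S 1) M) (k : ℕ) : MIn (S k) (M ^ k) := by
  induction k with
  | zero => rw [pow_zero, ← lf_one]; exact MIn.lf h0 _
  | succ k ih => rw [pow_succ]; exact MIn.mul (h k) ih hM

lemma MIn.mono {S T : Submodule ℂ (Fk ι)} (h : S ≤ T) {M : Matrix N N' (Fk ι)} (hM : MIn S M) :
    MIn T M := fun a b => h (hM a b)

lemma D_mem_One (f : (ι → ℝ) → Matrix N N' ℂ) (x : ι → ℝ) : MIn One (D f x) :=
  fun _ _ => d0_mem_One _ _

omit [DecidableEq ι] in
lemma MSm.const {E : Type*} [NormedAddCommGroup E] [NormedSpace ℝ E] (M : Matrix N N' E) :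
    MSm fun _ : ι → ℝ => M := fun _ _ => contDiff_const

omit [DecidableEq ι] in
lemma MSm.mul [Fintype N'] {A : Type*} [NormedRing A] [NormedAlgebra ℝ A]
    {f : (ι → ℝ) → Matrix N N' A} {g : (ι → ℝ) → Matrix N' N'' A} (hf : MSm f) (hg : MSm g) :
    MSm fun x => f x * g x := fun a b => by
  simp only [Matrix.mul_apply]
  exact ContDiff.sum fun c _ => (hf a c).mul (hg c b)

omit [DecidableEq ι] in
lemma MSm.pow [Fintype N] [DecidableEq N] {A : Type*} [NormedRing A] [NormedAlgebra ℝ A]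
    {f : (ι → ℝ) → Matrix N N A} (hf : MSm f) (k : ℕ) : MSm fun x => f x ^ k := by
  induction k with
  | zero => simpa using MSm.const (ι := ι) (1 : Matrix N N A)
  | succ k ih => simpa only [pow_succ] using ih.mul hf

omit [DecidableEq ι] in
lemma MSm.add {E : Type*} [NormedAddCommGroup E] [NormedSpace ℝ E]
    {f g : (ι → ℝ) → Matrix N N' E} (hf : MSm f) (hg : MSm g) : MSm fun x => f x + g x :=
  fun a b => (hf a b).add (hg a b)

omit [DecidableEq ι] in
lemma MSm.smul {u : (ι → ℝ) → ℂ} (hu : Sm u) {f : (ι → ℝ) → Matrix N N' ℂ} (hf : MSm f) :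
    MSm fun x => u x • f x := fun a b => hu.mul (hf a b)

lemma MSm.lf {f : (ι → ℝ) → Matrix N N' ℂ} (hf : MSm f) : MSm fun x => lf ι (f x) := fun a b => by
  simp only [lf_apply]; exact (hf a b).smul contDiff_const

lemma MSm.D {f : (ι → ℝ) → Matrix N N' ℂ} (hf : MSm f) : MSm (D f) := fun a b => (hf a b).d0

omit [DecidableEq ι] in
lemma MSm.det [Fintype N] [DecidableEq N] {f : (ι → ℝ) → Matrix N N ℂ} (hf : MSm f) :
    Sm fun x => (f x).det := by
  simp only [Matrix.det_apply']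
  exact ContDiff.sum fun σ _ => contDiff_const.mul (contDiff_prod fun a _ => hf _ a)

omit [DecidableEq ι] in
lemma MSm.inv [Fintype N] [DecidableEq N] {f : (ι → ℝ) → Matrix N N ℂ} (hf : MSm f)
    (hu : ∀ x, IsUnit (f x).det) : MSm fun x => (f x)⁻¹ := fun a b => by
  simp only [Matrix.inv_def, Matrix.smul_apply, Ring.inverse_eq_inv, smul_eq_mul,
    Matrix.adjugate_apply]
  refine (hf.det.inv fun x => (hu x).ne_zero).mul (MSm.det fun c d => ?_)
  simp only [Matrix.updateRow_apply]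
  split_ifs
  · exact contDiff_const
  · exact hf c d

lemma D_const (M : Matrix N N' ℂ) (x : ι → ℝ) : D (fun _ => M) x = 0 := by
  ext1 a b; exact d0_const _ _

lemma D_add {f g : (ι → ℝ) → Matrix N N' ℂ} (hf : MSm f) (hg : MSm g) (x : ι → ℝ) :
    D (fun y => f y + g y) x = D f x + D g x := by
  ext1 a b; exact d0_add (hf a b) (hg a b) x

lemma D_mul [Fintype N'] {f : (ι → ℝ) → Matrix N N' ℂ} {g : (ι → ℝ) → Matrix N' N'' ℂ}
    (hf : MSm f) (hg : MSm g) (x : ι → ℝ) :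
    D (fun y => f y * g y) x = D f x * lf ι (g x) + lf ι (f x) * D g x := by
  ext1 a b
  rw [Matrix.add_apply, lf_mul_apply, mul_lf_apply, D_apply, ← Finset.sum_add_distrib]
  simp only [Matrix.mul_apply]
  rw [d0_sum _ fun c _ => (hf a c).mul (hg c b)]
  exact Finset.sum_congr rfl fun c _ => d0_mul (hf a c) (hg c b) x

lemma Ed_mul [Fintype N'] {M : (ι → ℝ) → Matrix N N' (Fk ι)} {M' : (ι → ℝ) → Matrix N' N'' (Fk ι)}
    (hM : MSm M) (hM' : MSm M') {p : ℕ} (x : ι → ℝ) (hp : MIn (Par p) (M x)) :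
    Ed (fun y => M y * M' y) x = Ed M x * M' x + (-1 : ℂ) ^ p • (M x * Ed M' x) := by
  ext1 a b
  simp only [Ed, Matrix.of_apply, Matrix.add_apply, Matrix.smul_apply, Matrix.mul_apply]
  rw [ed_sum _ fun c _ => (hM a c).mul (hM' c b), Finset.smul_sum, ← Finset.sum_add_distrib]
  exact Finset.sum_congr rfl fun c _ => ed_mul (hM a c) (hM' c b) x (hp a c)

lemma Ed_lf {f : (ι → ℝ) → Matrix N N' ℂ} (hf : MSm f) (x : ι → ℝ) :
    Ed (fun y => lf ι (f y)) x = D f x := by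
  ext1 a b
  simp only [Ed, Matrix.of_apply, lf_apply]
  rw [ed_smul (hf a b) contDiff_const, ed_const, smul_zero, add_zero, mul_one, D_apply]

lemma Ed_D {f : (ι → ℝ) → Matrix N N' ℂ} (hf : MSm f) (x : ι → ℝ) : Ed (D f) x = 0 := by
  ext1 a b; exact ed_d0 (hf a b) x

lemma trace_lf_mul [Fintype N] [Fintype N'] (P : Matrix N N' ℂ) (M : Matrix N' N (Fk ι)) :
    (lf ι P * M).trace = (M * lf ι P).trace := by
  simp only [Matrix.trace, Matrix.diag, lf_mul_apply, mul_lf_apply]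
  exact Finset.sum_comm

lemma trace_one_mul [Fintype N] [Fintype N'] {M : Matrix N N' (Fk ι)} {M' : Matrix N' N (Fk ι)}
    {p : ℕ} (hM : MIn One M) (hM' : MIn (Par p) M') :
    (M * M').trace = (-1 : ℂ) ^ p • (M' * M).trace := by
  simp only [Matrix.trace, Matrix.diag, Matrix.mul_apply, Finset.smul_sum]
  rw [Finset.sum_comm]
  exact Finset.sum_congr rfl fun b _ => Finset.sum_congr rfl fun a _ => One.comm (hM a b) (hM' b a)

variable [Fintype N] [DecidableEq N]

/-- The Maurer-Cartan form. -/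
noncomputable def th (f : (ι → ℝ) → Matrix N N ℂ) (x : ι → ℝ) : Matrix N N (Fk ι) :=
  lf ι (f x)⁻¹ * D f x

/-- The trace of a power of the Maurer-Cartan form. -/
noncomputable def xk (k : ℕ) (f : (ι → ℝ) → Matrix N N ℂ) (x : ι → ℝ) : Fk ι :=
  (th f x ^ k).trace

lemma th_mem_One (f : (ι → ℝ) → Matrix N N ℂ) (x : ι → ℝ) : MIn One (th f x) :=
  (D_mem_One f x).lf_mul _

lemma MIn.one_pow {M : Matrix N N (Fk ι)} (hM : MIn One M) (k : ℕ) : MIn (Par k) (M ^ k) :=
  MIn.pow Par.one (fun _ _ ha _ hb => Par.mul ha hb) (hM.mono fun _ => One.par) k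

lemma xk_par (k : ℕ) (f : (ι → ℝ) → Matrix N N ℂ) (x : ι → ℝ) : xk k f x ∈ Par k :=
  ((th_mem_One f x).one_pow k).trace

section
variable {f : (ι → ℝ) → Matrix N N ℂ} (hf : MSm f) (hu : ∀ x, IsUnit (f x).det)
include hf hu

lemma th_sm : MSm (th f) := (hf.inv hu).lf.mul hf.D

lemma xk_sm (k : ℕ) : Sm (xk k f) := ContDiff.sum fun a _ => (th_sm hf hu).pow k a a

lemma D_inv (x : ι → ℝ) : D (fun y => (f y)⁻¹) x = -(th f x * lf ι (f x)⁻¹) := by
  have h := D_mul (hf.inv hu) hf x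
  simp only [Matrix.nonsing_inv_mul _ (hu _), D_const] at h
  have h2 := congrArg (· * lf ι (f x)⁻¹) h
  simp only [Matrix.zero_mul, Matrix.add_mul, Matrix.mul_assoc, ← lf_mul,
    Matrix.mul_nonsing_inv _ (hu _), lf_one, Matrix.mul_one] at h2
  rw [th, Matrix.mul_assoc]
  exact eq_neg_of_add_eq_zero_left h2.symm

lemma Ed_th (x : ι → ℝ) : Ed (th f) x = -(th f x * th f x) := by
  have h := Ed_mul (hf.inv hu).lf hf.D x (MIn.lf Par.one _)
  rw [Ed_D hf, Ed_lf (hf.inv hu), D_inv hf hu] at h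
  refine h.trans ?_
  simp [th, Matrix.mul_assoc]

lemma Ed_th_pow (j : ℕ) (x : ι → ℝ) : Ed (fun y => th f y ^ (2 * j)) x = 0 ∧
    Ed (fun y => th f y ^ (2 * j + 1)) x = -th f x ^ (2 * j + 2) := by
  have hs := th_sm hf hu
  have key : ∀ j, Ed (fun y => th f y ^ (2 * j)) x = 0 →
      Ed (fun y => th f y ^ (2 * j + 1)) x = -th f x ^ (2 * j + 2) := by
    intro j h
    simp only [pow_succ]
    rw [Ed_mul (hs.pow _) hs x ((th_mem_One f x).one_pow _), h, Ed_th hf hu]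
    simp [Matrix.mul_assoc]
  induction j with
  | zero =>
    have : Ed (fun y => th f y ^ (2 * 0)) x = 0 := by
      ext1 a b; simp [Ed, ed_const]
    exact ⟨this, key 0 this⟩
  | succ j ih =>
    have : Ed (fun y => th f y ^ (2 * (j + 1))) x = 0 := by
      simp only [Nat.mul_succ 2 j, pow_succ _ (2 * j + 1)]
      rw [Ed_mul (hs.pow _) hs x ((th_mem_One f x).one_pow _), ih.2, Ed_th hf hu]
      simp [pow_succ, Matrix.mul_assoc]
    exact ⟨this, key _ this⟩

lemma ed_xk (j : ℕ) (x : ι → ℝ) : ed (xk (2 * j + 1) f) x = 0 := by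
  have h1 : ed (xk (2 * j + 1) f) x = (Ed (fun y => th f y ^ (2 * j + 1)) x).trace :=
    ed_sum univ (fun a _ => (th_sm hf hu).pow _ a a) x
  rw [h1, (Ed_th_pow hf hu j x).2, Matrix.trace_neg, neg_eq_zero]
  have h2 := trace_one_mul (th_mem_One f x) ((th_mem_One f x).one_pow (2 * j + 1))
  rw [← pow_succ, ← pow_succ', pow_succ (-1 : ℂ), pow_mul] at h2
  have : (2 : ℂ) • (th f x ^ (2 * j + 1 + 1)).trace = 0 := by
    rw [two_smul]; nth_rewrite 1 [h2]; simp
  simpa using this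

lemma xk_inv (j : ℕ) (x : ι → ℝ) :
    xk (2 * j + 1) (fun y => (f y)⁻¹) x = -xk (2 * j + 1) f x := by
  have h1 : th (fun y => (f y)⁻¹) x = -(lf ι (f x) * th f x * lf ι (f x)⁻¹) := by
    rw [th, D_inv hf hu, Matrix.nonsing_inv_nonsing_inv _ (hu x)]
    simp [Matrix.mul_assoc]
  have h2 : ∀ k, (lf ι (f x) * th f x * lf ι (f x)⁻¹) ^ k =
      lf ι (f x) * (th f x ^ k * lf ι (f x)⁻¹) := by
    intro k
    induction k with
    | zero => simp [← lf_mul, Matrix.mul_nonsing_inv _ (hu _), lf_one]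
    | succ k ih =>
      rw [pow_succ, ih, pow_succ]
      simp only [Matrix.mul_assoc]
      rw [← Matrix.mul_assoc (lf ι (f x)⁻¹), ← lf_mul, Matrix.nonsing_inv_mul _ (hu _), lf_one,
        Matrix.one_mul]
  rw [xk, h1, Odd.neg_pow ⟨j, rfl⟩, Matrix.trace_neg, h2, trace_lf_mul, Matrix.mul_assoc, ← lf_mul,
    Matrix.nonsing_inv_mul _ (hu _), lf_one, Matrix.mul_one, xk]

omit hu in
lemma xk_const_mul {α : Matrix N N ℂ} (hα : IsUnit α.det) (k : ℕ) (x : ι → ℝ) :
    xk k (fun y => α * f y) x = xk k f x := by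
  have : th (fun y => α * f y) x = th f x := by
    rw [th, D_mul (MSm.const α) hf, D_const, Matrix.zero_mul, zero_add, ← Matrix.mul_assoc,
      ← lf_mul, Matrix.mul_inv_rev, Matrix.mul_assoc, Matrix.nonsing_inv_mul _ hα, Matrix.mul_one,
      th]
  rw [xk, this, xk]

end

lemma xk_const (α : Matrix N N ℂ) (k : ℕ) (x : ι → ℝ) : xk (k + 1) (fun _ => α) x = 0 := by
  simp [xk, th, D_const]

end Vale.Agent.P174
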