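import Vale.Agent.P174.Sphere

/-! The parameter cube for a family of complex reflections. -/

open Finset Function Matrix Complex
open scoped ContDiff Real

namespace Vale.Agent.P174

section
variable {ι : Type} [Fintype ι] [DecidableEq ι] {N : Type} [Fintype N] [DecidableEq N]

lemma D_mem_Deg {N N' : Type} {f : (ι → ℝ) → Matrix N N' ℂ} (hf : MSm f) {S : Finset ι}
    (hS : DependsOn f S) (x : ι → ℝ) : MIn (Deg S 1) (D f x) := fun a b =>
  d0_mem_Deg (hf a b) (fun _ _ h => by simp only [hS h]) x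

lemma xk_mem_Deg {f : (ι → ℝ) → Matrix N N ℂ} (hf : MSm f) {S : Finset ι} (hS : DependsOn f S)
    (k : ℕ) (x : ι → ℝ) : xk k f x ∈ Deg S k :=
  (MIn.pow (S := Deg S) (Deg.one S) (fun _ _ ha _ hb => Deg.mul ha hb)
    ((D_mem_Deg hf hS x).lf_mul _) k).trace

lemma xk_deg_zero (f : (ι → ℝ) → Matrix N N ℂ) (S : Finset ι) (k : ℕ) (x : ι → ℝ) :
    xk k f x ∈ Deg S 0 :=
  (MIn.pow (S := fun _ => Deg S 0) (Deg.one S) (fun _ _ ha _ hb => Deg.mul ha hb)
    ((th_mem_One f x).mono fun _ => One.deg_zero S) k).trace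

omit [Fintype N] in
lemma refl_smul (z : ℂ) (v : Matrix N Unit ℂ) {u : ℂ} (hu : star u * u = 1) :
    refl z (u • v) = refl z v := by
  simp only [refl, conjTranspose_smul, Matrix.smul_mul, Matrix.mul_smul, smul_smul, hu, mul_one]

/-- The exponential of a periodic coordinate. -/
noncomputable def ex (t : ℝ) : ℂ := cexp (I * (2 * π * t))

lemma ex_add (s t : ℝ) : ex (s + t) = ex t * ex s := by
  rw [ex, ex, ex, ← Complex.exp_add]; congr 1; push_cast; ring

lemma ex_one : ex 1 = 1 := by
  rw [ex, ← Complex.exp_two_pi_mul_I]; congr 1; push_cast; ring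

lemma star_ex (t : ℝ) : star (ex t) * ex t = 1 := by
  have := star_polar 1 t
  simp only [ofReal_one, one_mul] at this
  rw [ex, this, ← Complex.exp_add]; simp

lemma ex_coef (t : ℝ) : (ex t - 1) ^ 2 * star (ex t) = -(2 - 2 * Real.cos (2 * π * t) : ℝ) := by
  have h1 := star_ex t
  have h2 : ex t + star (ex t) = (2 * Real.cos (2 * π * t) : ℝ) := by
    rw [RCLike.star_def, Complex.add_conj, ex, mul_comm I]
    congr 2
    exact_mod_cast Complex.exp_ofReal_mul_I_re (2 * π * t)
  push_cast at h2 ⊢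
  linear_combination (ex t - 2) * h1 + h2

variable (cθ cφ : ℕ → ι)

omit [Fintype ι] [DecidableEq ι] in
lemma vec_congr {n l : ℕ} {x y : ι → ℝ} {u : ℂ} (h1 : ∀ a < l, y (cθ a) = x (cθ a))
    (h2 : ∀ a < l, rd cθ a x = 0 ∨ ex (y (cφ a)) = u * ex (x (cφ a)))
    (h3 : cp cθ l x = 0 ∨ u = 1) : vec cθ cφ n l y = u • vec cθ cφ n l x := by
  have e1 : ∀ a ≤ l, cp cθ a y = cp cθ a x := fun a ha =>
    Finset.prod_congr rfl fun b hb => by rw [h1 b (by have := mem_range.1 hb; omega)]
  ext a ⟨⟩
  simp only [vec, of_apply, Matrix.smul_apply, smul_eq_mul]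
  split_ifs with ha hb
  · have e2 : rd cθ a y = rd cθ a x := by rw [rd, rd, h1 a ha, e1 a ha.le]
    rw [e2]
    rcases h2 a ha with h | h
    · simp [h]
    · simp only [ex] at h
      rw [h]; ring
  · rw [e1 l le_rfl]
    rcases h3 with h | h <;> simp [h]
  · simp

omit [Fintype ι] [DecidableEq ι] in
lemma mem_wl {k : ℕ} {c : ι} : c ∈ wl cθ cφ k ↔ ∃ a < k, c = cθ a ∨ c = cφ a := by
  induction k with
  | zero => simp [wl]
  | succ k ih =>
    simp only [wl, List.mem_append, ih, List.mem_cons, List.not_mem_nil, or_false]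
    constructor
    · rintro (⟨a, ha, h⟩ | h)
      · exact ⟨a, by omega, h⟩
      · exact ⟨k, by omega, h⟩
    · rintro ⟨a, ha, h⟩
      rcases Nat.lt_succ_iff_lt_or_eq.1 ha with h' | rfl
      · exact Or.inl ⟨a, h', h⟩
      · exact Or.inr h

omit [Fintype ι] [DecidableEq ι] in
lemma nodup_wl {k : ℕ} (h1 : ∀ a < k, ∀ b < k, cθ a = cθ b → a = b)
    (h2 : ∀ a < k, ∀ b < k, cφ a = cφ b → a = b) (h3 : ∀ a < k, ∀ b < k, cθ a ≠ cφ b) :
    (wl cθ cφ k).Nodup := by
  induction k with
  | zero => simp [wl]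
  | succ k ih =>
    rw [wl, List.nodup_append]
    refine ⟨ih (fun a ha b hb => h1 a (by omega) b (by omega))
      (fun a ha b hb => h2 a (by omega) b (by omega))
      (fun a ha b hb => h3 a (by omega) b (by omega)), by simpa using h3 k (by omega) k (by omega), ?_⟩
    intro c hc d hd e
    subst e
    obtain ⟨a, ha, h⟩ := (mem_wl cθ cφ).1 hc
    simp only [List.mem_cons, List.not_mem_nil, or_false] at hd
    rcases h with rfl | rfl <;> rcases hd with hd | hd
    · have := h1 a (by omega) k (by omega) hd; omega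
    · exact h3 a (by omega) k (by omega) hd
    · exact h3 k (by omega) a (by omega) hd.symm
    · have := h2 a (by omega) k (by omega) hd; omega

end

/-- The coordinates. -/
abbrev Co (m n : ℕ) : Type := Option (Σ q : Fin m × Fin n, Option (Fin q.2 × Bool))

variable {m n : ℕ}

/-- The coordinate of the eigenvalue. -/
def cψ (q : Fin m × Fin n) : Co m n := some ⟨q, none⟩

/-- The coordinates of the eigenline. -/
def cc (t : Bool) (q : Fin m × Fin n) (a : ℕ) : Co m n :=
  if h : a < q.2 then some ⟨q, some (⟨a, h⟩, t)⟩ else none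

lemma cc_eq (t : Bool) (q : Fin m × Fin n) {a : ℕ} (h : a < q.2) :
    cc t q a = some ⟨q, some (⟨a, h⟩, t)⟩ := dif_pos h

/-- The direction that rotates all phases of one eigenline. -/
def shf (q : Fin m × Fin n) : Co m n → ℝ
  | some ⟨q', some (_, true)⟩ => if q' = q then 1 else 0
  | _ => 0

/-- The boundary data of the parameter cube. -/
noncomputable def bd (m n : ℕ) : Bdy (Co m n) where
  s := none
  per
    | none => False
    | some ⟨_, none⟩ => True
    | some ⟨_, some (_, t)⟩ => t = true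
  vec
    | some ⟨q, some (a, false)⟩, c =>
        if c = 0 then Pi.single (some ⟨q, some (a, true)⟩) 1 else shf q
    | _, _ => 0
  per_s := id
  vec_ne := by
    rintro (_ | ⟨q, _ | ⟨a, _ | _⟩⟩) c h1 h2 <;> simp only [not_true_eq_false, ne_eq] at h1 h2 ⊢
    intro h
    have := congrFun h (some ⟨q, some (a, true)⟩)
    split_ifs at this <;> simp [shf] at this
  vec_self := by
    rintro (_ | ⟨q, _ | ⟨a, _ | _⟩⟩) c <;> simp only [Pi.zero_apply]
    split_ifs <;> simp [shf]
  vec_s := by
    rintro (_ | ⟨q, _ | ⟨a, _ | _⟩⟩) c <;> simp only [Pi.zero_apply]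
    split_ifs <;> simp [shf]

/-- The family of complex reflections. -/
noncomputable def pq (q : Fin m × Fin n) (x : Co m n → ℝ) : Matrix (Fin n) (Fin n) ℂ :=
  refl (ex (x (cψ q))) (vec (cc false q) (cc true q) n q.2 x)

lemma pq_unitary (q : Fin m × Fin n) (x : Co m n → ℝ) : pq q x ∈ unitaryGroup (Fin n) ℂ :=
  refl_unitary (vec_norm _ _ q.2.2 x) (star_ex _)

lemma sm_ex (c : Co m n) : Sm fun x : Co m n → ℝ => ex (x c) :=
  (contDiff_const.mul (contDiff_const.mul (sm_coord _))).cexp

lemma pq_sm (q : Fin m × Fin n) : MSm (pq q) :=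
  (MSm.const _).add (((sm_vec _ _ _ _).mul (sm_vec _ _ _ _).conjTranspose).smul
    ((sm_ex _).sub contDiff_const))

lemma pq_congr (q : Fin m × Fin n) {x y : Co m n → ℝ} (u : ℂ) (hu : star u * u = 1)
    (h0 : ex (y (cψ q)) = ex (x (cψ q))) (h1 : ∀ a < (q.2 : ℕ), y (cc false q a) = x (cc false q a))
    (h2 : ∀ a < (q.2 : ℕ), rd (cc false q) a x = 0 ∨ ex (y (cc true q a)) = u * ex (x (cc true q a)))
    (h3 : cp (cc false q) q.2 x = 0 ∨ u = 1) : pq q y = pq q x := by
  rw [pq, pq, h0, vec_congr _ _ h1 h2 h3, refl_smul _ _ hu]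

/-- The kind of a coordinate. -/
def kd : Co m n → Option (Option Bool)
  | none => none
  | some ⟨_, none⟩ => some none
  | some ⟨_, some (_, t)⟩ => some (some t)

lemma pq_inv (q : Fin m × Fin n) : (bd m n).Inv (pq q) := by
  rintro x y (⟨b, hb, rfl⟩ | ⟨b, c, t, ⟨hb1, hb2, hc, hx⟩, rfl⟩)
  · have e : ∀ c, ex ((x + Pi.single b 1 : Co m n → ℝ) c) = ex (x c) := by
      intro c
      by_cases h : c = b
      · subst h; simp [ex_add, ex_one]
      · simp [h]
    refine pq_congr q 1 (by simp) (e _) (fun a ha => ?_) (fun a _ => Or.inr (by rw [e, one_mul]))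
      (Or.inr rfl)
    have : cc false q a ≠ b := by
      rintro rfl
      rw [cc_eq _ _ ha] at hb
      exact Bool.false_ne_true hb
    simp [this]
  · obtain (_ | ⟨q', _ | ⟨a', _ | _⟩⟩) := b
    · exact absurd rfl hb1
    · exact absurd trivial hb2
    swap
    · exact absurd rfl hb2
    rcases hc with rfl | rfl
    · have hv : (bd m n).vec (some ⟨q', some (a', false)⟩) 0 =
        Pi.single (some ⟨q', some (a', true)⟩) 1 := if_pos rfl
      rw [hv]
      refine pq_congr q 1 (by simp) ?_ (fun a ha => ?_) (fun a ha => ?_) (Or.inr rfl)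
      · have : cψ q ≠ some ⟨q', some (a', true)⟩ := fun h => by simpa [kd, cψ] using congrArg kd h
        simp [this]
      · have : cc false q a ≠ some ⟨q', some (a', true)⟩ := fun h => by
          simpa [kd, cc_eq _ _ ha] using congrArg kd h
        simp [this]
      · by_cases h : cc true q a = some ⟨q', some (a', true)⟩
        · left
          rw [cc_eq _ _ ha] at h
          simp only [Option.some.injEq, Sigma.mk.injEq] at h
          obtain ⟨rfl, h⟩ := h
          simp only [heq_eq_eq, Option.some.injEq, Prod.mk.injEq, and_true] at h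
          subst h
          simp [rd, cc_eq _ _ ha, hx]
        · right; simp [h]
    · have hv : (bd m n).vec (some ⟨q', some (a', false)⟩) 1 = shf q' := if_neg one_ne_zero
      rw [hv]
      refine pq_congr q (if q = q' then ex t else 1) ?_ ?_ (fun a ha => ?_) (fun a ha => ?_) ?_
      · split_ifs
        · exact star_ex t
        · simp
      · simp [cψ, shf]
      · simp [cc_eq _ _ ha, shf]
      · right
        by_cases h : q = q'
        · subst h; simp [cc_eq _ _ ha, shf, ex_add]
        · simp [cc_eq _ _ ha, shf, h]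
      · by_cases h : q = q'
        · subst h
          left
          exact Finset.prod_eq_zero (mem_range.2 a'.2) (by simp [cc_eq _ _ a'.2, hx])
        · simp [h]

lemma pq_gd (q : Fin m × Fin n) : Gd (bd m n) (pq q) :=
  ⟨pq_sm q, fun x => (Unitary.isUnit_coe (U := ⟨_, pq_unitary q x⟩)).map detMonoidHom, pq_inv q⟩

/-- The coordinates of an eigenline. -/
def Sv (q : Fin m × Fin n) : Finset (Co m n) :=
  (range q.2).image (cc false q) ∪ (range q.2).image (cc true q)

lemma card_Sv (q : Fin m × Fin n) : (Sv q).card ≤ 2 * q.2 := by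
  have h1 := card_image_le (s := range q.2) (f := cc false q)
  have h2 := card_image_le (s := range q.2) (f := cc true q)
  have h3 := card_union_le ((range q.2).image (cc false q)) ((range q.2).image (cc true q))
  rw [card_range] at h1 h2
  rw [Sv]; omega

lemma dep_vec (q : Fin m × Fin n) : DependsOn (vec (cc false q) (cc true q) n q.2) (Sv q) := by
  intro x y h
  rw [vec_congr _ _ (u := 1) (x := y) (y := x) _ _ (Or.inr rfl), one_smul]
  · exact fun a ha => h _ (by simp only [Sv, coe_union, coe_image, coe_range]; exact Or.inl ⟨a, ha, rfl⟩)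
  · refine fun a ha => Or.inr ?_
    rw [one_mul, h _ (by simp only [Sv, coe_union, coe_image, coe_range]; exact Or.inr ⟨a, ha, rfl⟩)]

lemma dep_pq (q : Fin m × Fin n) : DependsOn (pq q) (insert (cψ q) (Sv q) : Finset _) := by
  intro x y h
  rw [pq, pq, h _ (by simp), dep_vec q fun i hi => h i (by simp [hi])]

lemma pq_sind (q : Fin m × Fin n) : (bd m n).Sind (pq q) := by
  intro x t
  refine dep_pq q fun c hc => ?_
  have : c ≠ none := by
    rintro rfl
    simp only [Sv, coe_insert, coe_union, coe_image, coe_range, Set.mem_insert_iff, cψ,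
      reduceCtorEq, Set.mem_union, Set.mem_image, Set.mem_Iio, false_or] at hc
    rcases hc with ⟨a, ha, h⟩ | ⟨a, ha, h⟩ <;> simp [cc_eq _ _ ha] at h
  simp [bd, this]

/-- The constant factor of the top form of a reflection. -/
noncomputable def Kc (l : ℕ) : ℂ :=
  (2 * l + 1 : ℕ) * (2 * π * I) * (-1) ^ l * (l.factorial * (2 * π ^ 2 * I) ^ l)

lemma Kc_ne (l : ℕ) : Kc l ≠ 0 := by
  have := l.factorial_ne_zero
  simp only [Kc, ne_eq, mul_eq_zero, Nat.cast_eq_zero, pow_eq_zero_iff', ofReal_eq_zero,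
    Real.pi_ne_zero, I_ne_zero]
  simp [this]

/-- The density of the top form of a reflection. -/
noncomputable def dens (q : Fin m × Fin n) (x : Co m n → ℝ) : ℝ :=
  (2 - 2 * Real.cos (2 * π * x (cψ q))) ^ (q.2 : ℕ) *
    ∏ a ∈ range q.2, rd (cc false q) a x * cp (cc false q) (a + 1) x

/-- The coordinates of a reflection as a list. -/
def wq (q : Fin m × Fin n) : List (Co m n) := cψ q :: wl (cc false q) (cc true q) q.2

lemma cc_inj {t t' : Bool} {q : Fin m × Fin n} {a b : ℕ} (ha : a < q.2) (hb : b < q.2)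
    (h : cc t q a = cc t' q b) : a = b ∧ t = t' := by
  simpa [cc_eq _ _ ha, cc_eq _ _ hb] using h

lemma xk_pq (q : Fin m × Fin n) (x : Co m n → ℝ) :
    xk (2 * q.2 + 1) (pq q) x = (Kc q.2 * dens q x) • ((wq q).map cre).prod := by
  have h := xk_refl (sm_vec (cc false q) (cc true q) n q.2) (vec_norm _ _ q.2.2) (sm_ex (cψ q))
    (fun y => star_ex _) q.2 (card_Sv q) x (D_mem_Deg ((sm_vec _ _ _ _).mul
      (sm_vec _ _ _ _).conjTranspose) (fun y y' hy => by simp only [dep_vec q hy]) x)
  have hz : d0 (fun y : Co m n → ℝ => ex (y (cψ q))) x =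
      (ex (x (cψ q)) * (I * (2 * π))) • cre (cψ q) := by
    simp only [ex, ← mul_assoc]
    rw [d0_exp (contDiff_const.mul (sm_coord _)), d0_const_mul _ (sm_coord _), d0_coord, smul_smul]
    simp only [mul_assoc]
  refine h.trans ?_
  rw [sigma_eq _ _ q.2.2, sigma_pow _ _ _ (fun a ha b hb e => by
    have := (cc_inj (hb.trans ha) ha e).1; omega), hz, ex_coef, smul_mul_smul_comm, smul_smul, wq,
    List.map_cons, List.prod_cons]
  congr 1
  rw [Kc, dens, neg_pow]
  push_cast
  linear_combination ((2 * (q.2 : ℕ) + 1) * (2 * π * I) * (-1) ^ (q.2 : ℕ) *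
    ((q.2 : ℕ).factorial * (2 * π ^ 2 * I) ^ (q.2 : ℕ)) *
    (2 - 2 * Complex.cos (2 * π * x (cψ q))) ^ (q.2 : ℕ) *
    ∏ a ∈ range q.2, (rd (cc false q) a x : ℂ) * cp (cc false q) (a + 1) x) * star_ex (x (cψ q))

end Vale.Agent.P174
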