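import Vale.Agent.P174.Blocks

/-! The odd trace form of a complex reflection `1 + (z - 1) v v*`. -/

open Finset Function Matrix
open scoped ContDiff

namespace Vale.Agent.P174

variable {ι : Type} [Fintype ι] [DecidableEq ι]
variable {N : Type} [Fintype N] [DecidableEq N]

lemma one_smul_mul {N N' N'' : Type} [Fintype N'] {k : ℕ} {η : Fk ι} (hη : η ∈ One)
    {P : Matrix N N' (Fk ι)} (hP : MIn (Par k) P) (Q : Matrix N' N'' (Fk ι)) :
    η • (P * Q) = (-1 : ℂ) ^ k • (P * (η • Q)) := by
  ext1 a c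
  simp only [Matrix.smul_apply, Matrix.mul_apply, smul_eq_mul, Finset.mul_sum, Finset.smul_sum]
  refine Finset.sum_congr rfl fun d _ => ?_
  rw [← mul_assoc, One.comm hη (hP a d), smul_mul_assoc, mul_assoc]

lemma smul_pow_congr {η : Fk ι} (hη : η ∈ One) {A A' : Matrix N N (Fk ι)} (hA' : MIn One A')
    (h : η • A = η • A') (k : ℕ) : η • A ^ k = η • A' ^ k := by
  induction k with
  | zero => rw [pow_zero, pow_zero]
  | succ k ih =>
    rw [pow_succ, pow_succ, ← Matrix.smul_mul, ih, Matrix.smul_mul,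
      one_smul_mul hη (hA'.one_pow k), h, one_smul_mul hη (hA'.one_pow k)]

lemma trace_shift {Q M : Matrix N N (Fk ι)} (hQ : MIn (Par 0) Q) (hM : MIn One M) (l i : ℕ) :
    ∀ j, i + j = 2 * l → (M ^ i * Q * M ^ j).trace = (-1 : ℂ) ^ i • (Q * M ^ (2 * l)).trace := by
  induction i with
  | zero => intro j h; simp [← h]
  | succ i ih =>
    intro j h
    have hp : MIn (Par (i + 0 + j)) (M ^ i * Q * M ^ j) :=
      MIn.mul (fun _ ha _ hb => Par.mul ha hb)
        (MIn.mul (fun _ ha _ hb => Par.mul ha hb) (hM.one_pow i) hQ) (hM.one_pow j)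
    have e : M ^ (i + 1) * Q * M ^ j = M * (M ^ i * Q * M ^ j) := by
      rw [pow_succ']; simp only [Matrix.mul_assoc]
    rw [e, trace_one_mul hM hp, Matrix.mul_assoc, ← pow_succ, ih (j + 1) (by omega), smul_smul,
      Odd.neg_one_pow (by rw [Nat.odd_iff]; omega), pow_succ, mul_comm]

lemma trace_pow_split {η : Fk ι} (hη : η ∈ One) {Q M : Matrix N N (Fk ι)} (hQ : MIn (Par 0) Q)
    (hM : MIn One M) (l : ℕ) :
    ((η • Q + M) ^ (2 * l + 1)).trace =
      (M ^ (2 * l + 1)).trace + (2 * l + 1 : ℕ) • (η * (Q * M ^ (2 * l)).trace) := by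
  have h1 : η • (η • Q + M) = η • M := by rw [smul_add, smul_smul, One.mul_self hη]; simp
  have key : ∀ k a, a + k = 2 * l + 1 → (M ^ a * (η • Q + M) ^ k).trace =
      (M ^ (2 * l + 1)).trace + k • (η * (Q * M ^ (2 * l)).trace) := by
    intro k
    induction k with
    | zero => intro a h; simp [← h]
    | succ k ih =>
      intro a h
      have e1 : M ^ a * (η • Q * (η • Q + M) ^ k) = (-1 : ℂ) ^ a • η • (M ^ a * Q * M ^ k) := by
        rw [Matrix.smul_mul, one_smul_mul hη hQ, smul_pow_congr hη hM h1, Matrix.mul_assoc,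
          one_smul_mul hη (hM.one_pow a), one_smul_mul hη hQ, smul_smul, ← mul_pow]
        simp
      rw [pow_succ', Matrix.add_mul, Matrix.mul_add, trace_add, ← Matrix.mul_assoc _ M, ← pow_succ,
        ih (a + 1) (by omega), e1, trace_smul, trace_smul, trace_shift hQ hM l a k (by omega),
        smul_eq_mul, mul_smul_comm, smul_smul, ← mul_pow, succ_nsmul]
      simp only [mul_neg, mul_one, neg_neg, one_pow, one_smul]
      abel
  simpa using key (2 * l + 1) 0 (zero_add _)

lemma D_smul {N N' : Type} {u : (ι → ℝ) → ℂ} (hu : Sm u) {f : (ι → ℝ) → Matrix N N' ℂ}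
    (hf : MSm f) (x : ι → ℝ) :
    D (fun y => u y • f y) x = d0 u x • lf ι (f x) + u x • D f x := by
  ext1 a b
  simp only [D_apply, Matrix.smul_apply, Matrix.add_apply, lf_apply, smul_eq_mul, mul_smul_comm,
    mul_one]
  exact d0_mul hu (hf a b) x

omit [DecidableEq ι] in
lemma MSm.conjTranspose {N N' : Type} {f : (ι → ℝ) → Matrix N N' ℂ} (hf : MSm f) :
    MSm fun x => (f x)ᴴ := fun a b => Complex.conjCLE.contDiff.comp (hf b a)

/-- The complex reflection. -/
noncomputable def refl (z : ℂ) (v : Matrix N Unit ℂ) : Matrix N N ℂ := 1 + (z - 1) • (v * vᴴ)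

lemma refl_mul {v : Matrix N Unit ℂ} (hv : vᴴ * v = 1) (z w : ℂ) :
    refl z v * refl w v = refl (z * w) v := by
  have : v * vᴴ * (v * vᴴ) = v * vᴴ := by
    rw [Matrix.mul_assoc, ← Matrix.mul_assoc vᴴ, hv, Matrix.one_mul]
  simp only [refl, Matrix.add_mul, Matrix.mul_add, Matrix.one_mul, Matrix.mul_one, Matrix.smul_mul,
    Matrix.mul_smul, this]
  module

lemma refl_unitary {v : Matrix N Unit ℂ} (hv : vᴴ * v = 1) {z : ℂ} (hz : star z * z = 1) :
    refl z v ∈ unitaryGroup N ℂ := by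
  have : star (refl z v) = refl (star z) v := by simp [refl, star_eq_conjTranspose]
  rw [mem_unitaryGroup_iff', this, refl_mul hv, hz]; simp [refl]

lemma xk_refl {v : (ι → ℝ) → Matrix N Unit ℂ} (hv : MSm v) (hv1 : ∀ x, (v x)ᴴ * v x = 1)
    {z : (ι → ℝ) → ℂ} (hz : Sm z) (hz1 : ∀ x, star (z x) * z x = 1) (l : ℕ) {S : Finset ι}
    (hS : S.card ≤ 2 * l) (x : ι → ℝ) (hd : MIn (Deg S 1) (D (fun y => v y * (v y)ᴴ) x)) :
    xk (2 * l + 1) (fun y => refl (z y) (v y)) x =
      ((2 * l + 1 : ℕ) * star (z x) * ((z x - 1) ^ 2 * star (z x)) ^ l : ℂ) •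
        (d0 z x * (D (fun y => (v y)ᴴ) x * D v x) () () ^ l) := by
  have hv' := hv.conjTranspose
  set V := lf ι (v x) with hV
  set V' := lf ι (v x)ᴴ with hV'
  set dV := D v x with hdV
  set dV' := D (fun y => (v y)ᴴ) x with hdV'
  set dP := D (fun y => v y * (v y)ᴴ) x with hdP
  have e1 : V' * V = 1 := by rw [← lf_mul, hv1, lf_one]
  have e2 : dV' * V = -(V' * dV) := by
    have := D_mul hv' hv x
    simp only [hv1, D_const] at this
    exact eq_neg_of_add_eq_zero_left this.symm
  have e3 : dP = dV * V' + V * dV' := D_mul hv hv' x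
  have e4 : V' * dV * (V' * dV) = 0 := by
    ext1 a b
    simpa [Matrix.mul_apply (M := V' * dV)] using One.mul_self ((D_mem_One v x).lf_mul _ () ())
  have hinv : (refl (z x) (v x))⁻¹ = refl (star (z x)) (v x) := by
    apply inv_eq_left_inv
    rw [refl_mul (hv1 x), hz1]; simp [refl]
  set R := lf ι (refl (star (z x)) (v x)) with hR
  have eR : R = 1 + (star (z x) - 1) • (V * V') := by
    rw [hR, refl, lf_add, lf_one, lf_smul, lf_mul]
  set M := (z x - 1) • (R * dP) with hM
  have hM1 : MIn One M := fun a b => Submodule.smul_mem _ _ ((D_mem_One _ x).lf_mul _ a b)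
  have hM2 : MIn (Deg S 1) M := fun a b => Submodule.smul_mem _ _ (hd.lf_mul _ a b)
  have hη : star (z x) • d0 z x ∈ One := Submodule.smul_mem _ _ (d0_mem_One _ _)
  have eRV : R * (V * V') = star (z x) • (V * V') := by
    rw [eR, Matrix.add_mul, Matrix.smul_mul, Matrix.mul_assoc, ← Matrix.mul_assoc V', e1]
    simp only [Matrix.one_mul]
    module
  have hth : th (fun y => refl (z y) (v y)) x = (star (z x) • d0 z x) • (V * V') + M := by
    have hz' : Sm fun y => z y - 1 := hz.sub contDiff_const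
    have dz : d0 (fun y => z y - 1) x = d0 z x := by
      simp only [sub_eq_add_neg]; rw [d0_add hz contDiff_const, d0_const, add_zero]
    have h0 := one_smul_mul (d0_mem_One z x) (MIn.lf Par.one (refl (star (z x)) (v x))) (V * V')
    rw [pow_zero, one_smul, ← hR, eRV] at h0
    rw [th, hinv, ← hR]
    simp only [refl]
    rw [D_add (MSm.const _) ((hv.mul hv').smul hz'), D_const, zero_add, D_smul hz' (hv.mul hv'),
      dz, Matrix.mul_add, lf_mul, ← h0, Matrix.mul_smul, smul_assoc, smul_comm]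
  have e5 : V' * R = star (z x) • V' := by
    rw [eR, Matrix.mul_add, Matrix.mul_smul, ← Matrix.mul_assoc, e1]
    simp only [Matrix.one_mul, Matrix.mul_one]
    module
  have e6 : V' * dP = V' * dV * V' + dV' := by
    rw [e3, Matrix.mul_add, ← Matrix.mul_assoc, ← Matrix.mul_assoc, e1, Matrix.one_mul]
  have e7 : (V' * dV * V' + dV') * V = 0 := by
    rw [Matrix.add_mul, Matrix.mul_assoc, e1, e2]; simp
  have e8 : (V' * dV * V' + dV') * R = V' * dV * V' + dV' := by
    rw [eR, Matrix.mul_add, Matrix.mul_smul, ← Matrix.mul_assoc, e7]; simp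
  have e9 : (V' * dV * V' + dV') * dP = dV' * dV * V' := by
    rw [e3, Matrix.mul_add, ← Matrix.mul_assoc, ← Matrix.mul_assoc, e7, Matrix.add_mul,
      Matrix.mul_assoc _ V' dV, e4]
    simp
  have e10 : V' * M * M = ((z x - 1) ^ 2 * star (z x)) • (dV' * dV * V') := by
    rw [hM, Matrix.mul_smul, Matrix.mul_smul, ← Matrix.mul_assoc V', e5, Matrix.smul_mul,
      Matrix.smul_mul, Matrix.smul_mul, e6, ← Matrix.mul_assoc, e8, e9]
    module
  have e11 : ∀ k, V' * M ^ (2 * k) = ((z x - 1) ^ 2 * star (z x)) ^ k • ((dV' * dV) ^ k * V') := by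
    intro k
    induction k with
    | zero => simp
    | succ k ih =>
      rw [Nat.mul_succ, pow_succ, pow_succ, ← Matrix.mul_assoc, ← Matrix.mul_assoc, ih,
        Matrix.smul_mul, Matrix.smul_mul, Matrix.mul_assoc _ V', Matrix.mul_assoc _ (V' * M), e10,
        Matrix.mul_smul, smul_smul, ← pow_succ, pow_succ (dV' * dV)]
      simp only [Matrix.mul_assoc]
  have e12 : ∀ k, ((dV' * dV) ^ k).trace = (dV' * dV) () () ^ k := by
    intro k
    induction k with
    | zero => simp
    | succ k ih => rw [pow_succ, pow_succ, ← ih]; simp [Matrix.trace, Matrix.mul_apply (N := dV' * dV)]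
  have e13 : (M ^ (2 * l + 1)).trace = 0 :=
    Deg.eq_zero (k := 2 * l + 1) (by omega) (MIn.pow (S := Deg S) (Deg.one S)
      (fun _ _ ha _ hb => Deg.mul ha hb) hM2 _).trace
  have hQ : MIn (Par 0) (V * V') := by rw [← lf_mul]; exact MIn.lf Par.one _
  rw [xk, hth, trace_pow_split hη hQ hM1, e13, zero_add, Matrix.mul_assoc, e11, Matrix.mul_smul,
    trace_smul, trace_lf_mul, Matrix.mul_assoc, e1, Matrix.mul_one, e12, smul_mul_smul_comm,
    ← Nat.cast_smul_eq_nsmul ℂ, smul_smul, mul_assoc]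

end Vale.Agent.P174
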