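import Vale.Agent.P174.Core
import Vale.Agent.P174.Defs

/-! Reduction of a nonsingular system to the balanced square case. -/

open Monoid Multiplicative Matrix

namespace Vale.Agent.P174

variable {G : Type*} [Group G] {m n : ℕ}

lemma expSum_inl (g : G) : expSum G n (Coprod.inl g) = 1 := by simp [expSum]

lemma expSum_of (j : Fin n) :
    expSum G n (Coprod.inr (FreeGroup.of j)) = ofAdd (Pi.single j 1) := by simp [expSum]

lemma expSum_gen (a : Fin n × Bool) (j : Fin n) : toAdd (expSum G n (gen G a)) j = expo j a := by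
  obtain ⟨i, _ | _⟩ := a <;> by_cases h : i = j <;>
    simp [gen, expo, expSum_of, h]

lemma expSum_conj (v w : Coprod G (FreeGroup (Fin n))) :
    expSum G n (v * w * v⁻¹) = expSum G n w := by simp

lemma Dec.word {Λ : Type*} {w : List (Λ × Bool)} {v : Coprod G (FreeGroup Λ)} (h : Dec G w v) :
    ∃ (u : G) (l : List ((Λ × Bool) × G)),
      v = Coprod.inl u * (l.map fun a => gen G a.1 * Coprod.inl a.2).prod := by
  induction h with
  | nil u => exact ⟨u, [], by simp⟩
  | cons u a _ ih =>
    obtain ⟨u', l, rfl⟩ := ih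
    exact ⟨u, (a, u') :: l, by simp [mul_assoc]⟩

lemma exists_relw (w : Coprod G (FreeGroup (Fin n))) (hw : expSum G n w ≠ 1) :
    ∃ (k : ℕ) (f : Fin (k + 1) → (Fin n × Bool) × G) (c : Coprod G (FreeGroup (Fin n))),
      w = c * (List.ofFn fun a => gen G (f a).1 * Coprod.inl (f a).2).prod * c⁻¹ := by
  obtain ⟨_, h⟩ := exists_dec w
  obtain ⟨u, l, rfl⟩ := h.word
  rcases l.eq_nil_or_concat' with rfl | ⟨l, a, rfl⟩
  · simp [expSum_inl] at hw
  obtain ⟨l', hl', e⟩ : ∃ l' : List ((Fin n × Bool) × G), l'.length = l.length + 1 ∧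
      l' = l ++ [(a.1, a.2 * u)] := ⟨_, by simp, rfl⟩
  refine ⟨l.length, fun i => l'.get (i.cast hl'.symm), Coprod.inl u, ?_⟩
  have : (List.ofFn fun i : Fin (l.length + 1) => gen G (l'.get (i.cast hl'.symm)).1 *
      Coprod.inl (l'.get (i.cast hl'.symm)).2) = l'.map fun a => gen G a.1 * Coprod.inl a.2 := by
    apply List.ext_getElem <;> simp [hl', -List.ofFn_succ]
  rw [this, e]
  simp [mul_assoc]

/-- A conjugate of a relator or of its inverse. -/
def trm {H : Type*} [Group H] (W : Fin m → H) (x : H × Fin m × Bool) : H :=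
  x.1 * (if x.2.2 then W x.2.1 else (W x.2.1)⁻¹) * x.1⁻¹

lemma exists_list_trm {H : Type*} [Group H] (W : Fin m → H) {x : H}
    (hx : x ∈ Subgroup.normalClosure (Set.range W)) :
    ∃ L : List (H × Fin m × Bool), (L.map (trm W)).prod = x := by
  induction hx using Subgroup.closure_induction with
  | mem x hx =>
    obtain ⟨_, ⟨i, rfl⟩, h⟩ := Group.mem_conjugatesOfSet_iff.1 hx
    obtain ⟨c, rfl⟩ := isConj_iff.1 h
    exact ⟨[(c, i, true)], by simp [trm]⟩
  | one => exact ⟨[], rfl⟩
  | mul x y _ _ hx hy =>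
    obtain ⟨L, rfl⟩ := hx
    obtain ⟨L', rfl⟩ := hy
    exact ⟨L ++ L', by simp⟩
  | inv x _ hx =>
    obtain ⟨L, rfl⟩ := hx
    refine ⟨(L.map fun y => (y.1, y.2.1, !y.2.2)).reverse, ?_⟩
    rw [List.prod_inv_reverse, List.map_reverse, List.map_map, List.map_map]
    congr 2
    refine List.map_congr_left ?_
    rintro ⟨c, i, _ | _⟩ _ <;> simp [trm, mul_assoc]

/-- The number of faces of a given type. -/
def cnt {H : Type*} (L : List (H × Fin m × Bool)) (y : Fin m × Bool) : ℕ :=
  (L.map fun x => if x.2 = y then 1 else 0).sum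

lemma cnt_le {H : Type*} (L : List (H × Fin m × Bool)) (y : Fin m × Bool) :
    cnt L y ≤ L.length := by
  induction L with
  | nil => simp [cnt]
  | cons x L ih =>
    simp only [cnt, List.map_cons, List.sum_cons, List.length_cons] at ih ⊢
    split_ifs <;> omega

lemma cnt_balance {W : Fin m → Coprod G (FreeGroup (Fin m))} {d : ℤ}
    (hW : ∀ i j, toAdd (expSum G m (W i)) j = if i = j then d else 0)
    (L : List (Coprod G (FreeGroup (Fin m)) × Fin m × Bool)) (j : Fin m) :
    toAdd (expSum G m (L.map (trm W)).prod) j = d * (cnt L (j, true) - cnt L (j, false)) := by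
  induction L with
  | nil => simp [cnt]
  | cons x L ih =>
    obtain ⟨c, i, b⟩ := x
    simp only [cnt, List.map_cons, List.prod_cons, List.sum_cons, map_mul, toAdd_mul,
      Pi.add_apply] at ih ⊢
    rw [ih, trm, expSum_conj]
    by_cases h : i = j <;> cases b <;> simp [hW, h] <;> ring

lemma pad {H : Type*} [Group H] (W : Fin m → H) (N s : ℕ) :
    ∀ L : List (H × Fin m × Bool), (∀ i, cnt L (i, true) = cnt L (i, false)) →
      (∀ i, cnt L (i, true) ≤ N) → ∑ i, (N - cnt L (i, true)) = s →
      ∃ L' : List (H × Fin m × Bool), (L'.map (trm W)).prod = (L.map (trm W)).prod ∧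
        ∀ y, cnt L' y = N := by
  induction s with
  | zero =>
    intro L h1 h2 h3
    have h4 : ∀ i, cnt L (i, true) = N := fun i => by
      have := Finset.sum_eq_zero_iff.1 h3 i (Finset.mem_univ i)
      have := h2 i
      omega
    refine ⟨L, rfl, ?_⟩
    rintro ⟨i, _ | _⟩
    · rw [← h1, h4]
    · exact h4 i
  | succ s ih =>
    intro L h1 h2 h3
    obtain ⟨i, -, hi⟩ := Finset.exists_ne_zero_of_sum_ne_zero (h3.trans_ne s.succ_ne_zero)
    have hc : ∀ j b, cnt ((1, i, true) :: (1, i, false) :: L) (j, b) =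
        cnt L (j, b) + if i = j then 1 else 0 := by
      intro j b
      by_cases h : i = j <;> cases b <;> simp [cnt, h, add_comm]
    obtain ⟨L', e1, e2⟩ := ih ((1, i, true) :: (1, i, false) :: L)
      (fun j => by rw [hc, hc, h1]) (fun j => by
        rw [hc]; have := h2 j
        split_ifs with h
        · subst h; omega
        · omega) (by
        rw [← Finset.add_sum_erase _ _ (Finset.mem_univ i)] at h3 ⊢
        rw [Finset.sum_congr rfl fun j hj => by rw [hc, if_neg (Finset.ne_of_mem_erase hj).symm],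
          hc, if_pos rfl]
        simp only [add_zero]
        omega)
    exact ⟨L', by rw [e1]; simp [trm], e2⟩

lemma exists_ord {H : Type*} [Group H] (W : Fin m → H) {N : ℕ} (L : List (H × Fin m × Bool))
    (hL : ∀ y, cnt L y = N) :
    ∃ (ord : List (Fin m × Bool × Fin N)) (v : Fin m × Bool × Fin N → H), ord.Nodup ∧
      (∀ φ, φ ∈ ord) ∧ (ord.map fun φ => v φ * (if φ.2.1 then W φ.1 else (W φ.1)⁻¹) *
        (v φ)⁻¹).prod = (L.map (trm W)).prod := by
  let f : Fin L.length → Fin m × Bool := fun t => (L.get t).2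
  have hf : ∀ y, Fintype.card {t // f t = y} = N := fun y => by
    rw [← hL y, cnt, ← Fin.sum_univ_fun_getElem, Fintype.card_subtype, Finset.card_filter]
    rfl
  let e : Fin L.length ≃ Fin m × Bool × Fin N := (Equiv.sigmaFiberEquiv f).symm.trans
    (((Equiv.sigmaCongrRight fun y => Fintype.equivFinOfCardEq (hf y)).trans
      (Equiv.sigmaEquivProd _ _)).trans (Equiv.prodAssoc _ _ _))
  have he : ∀ t, (e t).1 = (f t).1 ∧ (e t).2.1 = (f t).2 := fun t => ⟨rfl, rfl⟩
  refine ⟨List.ofFn e, fun φ => (L.get (e.symm φ)).1, List.nodup_ofFn.2 e.injective,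
    fun φ => List.mem_ofFn.2 ⟨e.symm φ, by simp⟩, ?_⟩
  conv_rhs => rw [← List.ofFn_get L]
  rw [List.map_ofFn, List.map_ofFn]
  congr 2
  funext t
  simp only [Function.comp, Equiv.symm_apply_apply, he, trm, f]

theorem square (w : Fin m → Coprod G (FreeGroup (Fin m))) {d : ℤ} (hd : d ≠ 0)
    (hw : ∀ i j, toAdd (expSum G m (w i)) j = if i = j then d else 0) (g : G)
    (hg : Coprod.inl g ∈ Subgroup.normalClosure (Set.range w)) : g = 1 := by
  choose k f c hc using fun i => exists_relw (w i) fun h => hd (by simpa [h] using (hw i i).symm)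
  let W := relw (fun i a => (f i a).1) fun i a => (f i a).2
  have hc' : ∀ i, w i = c i * W i * (c i)⁻¹ := hc
  have hW : ∀ i j, toAdd (expSum G m (W i)) j = if i = j then d else 0 := fun i j => by
    rw [← hw, hc', expSum_conj]
  have hg' : Coprod.inl g ∈ Subgroup.normalClosure (Set.range W) := by
    refine Subgroup.normalClosure_le_normal ?_ hg
    rintro _ ⟨i, rfl⟩
    rw [hc']
    exact Subgroup.normalClosure_normal.conj_mem _
      (Subgroup.subset_normalClosure (Set.mem_range_self i)) _
  obtain ⟨L, hL⟩ := exists_list_trm W hg'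
  have hb : ∀ i, cnt L (i, true) = cnt L (i, false) := fun i => by
    have := cnt_balance hW L i
    rw [hL, expSum_inl] at this
    have h2 : (cnt L (i, true) : ℤ) - cnt L (i, false) = 0 := by simpa [hd] using this
    omega
  obtain ⟨L', h1, h2⟩ := pad W L.length _ L hb (fun i => cnt_le _ _) rfl
  obtain ⟨ord, v, h3, h4, h5⟩ := exists_ord W L' h2
  refine core _ _ hd (fun i j => ?_) ord h3 h4 v g (h5.trans (h1.trans hL))
  rw [← hW]
  simp only [W, relw, map_list_prod, List.map_ofFn, List.prod_ofFn, Function.comp, map_mul,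
    expSum_inl, mul_one, toAdd_prod, Finset.sum_apply, expSum_gen]

lemma exists_right_inv (A : Matrix (Fin m) (Fin n) ℤ) (hA : (A.map (Int.cast : ℤ → ℚ)).rank = m) :
    ∃ (B : Matrix (Fin n) (Fin m) ℤ) (d : ℤ), d ≠ 0 ∧ A * B = d • 1 := by
  refine ⟨Aᵀ * (A * Aᵀ).adjugate, (A * Aᵀ).det, fun h => ?_, by
    rw [← Matrix.mul_assoc, mul_adjugate]⟩
  set A' := A.map (Int.cast : ℤ → ℚ) with hA'
  have h1 : (A' * A'ᵀ).rank = m := by rw [rank_self_mul_transpose, hA]
  have h2 : IsUnit (A' * A'ᵀ) := by
    rw [← mulVec_surjective_iff_isUnit]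
    exact LinearMap.range_eq_top.1 (Submodule.eq_top_of_finrank_eq (S := LinearMap.range
      (A' * A'ᵀ).mulVecLin) (by rw [← Matrix.rank, h1]; simp))
  have h3 : (A' * A'ᵀ).det = ((A * Aᵀ).det : ℚ) := by
    rw [Int.cast_det, hA', ← transpose_map]
    exact congrArg det (Matrix.map_mul (f := Int.castRingHom ℚ)).symm
  exact ((isUnit_iff_isUnit_det _).1 h2).ne_zero (by rw [h3, h, Int.cast_zero])

theorem howie (w : Fin m → Coprod G (FreeGroup (Fin n)))
    (hw : ((expMatrix w).map (Int.cast : ℤ → ℚ)).rank = m) (g : G)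
    (hg : Coprod.inl g ∈ Subgroup.normalClosure (Set.range w)) : g = 1 := by
  obtain ⟨B, d, hd, hB⟩ := exists_right_inv _ hw
  let φ : Coprod G (FreeGroup (Fin n)) →* Coprod G (FreeGroup (Fin m)) :=
    Coprod.map (MonoidHom.id G) (FreeGroup.lift fun j =>
      (List.ofFn fun i => FreeGroup.of i ^ B j i).prod)
  have hφ : (expSum G m).comp φ =
      (AddMonoidHom.toMultiplicative B.vecMulLinear.toAddMonoidHom).comp (expSum G n) := by
    refine Coprod.hom_ext ?_ ?_
    · ext1 x; simp [φ, expSum_inl]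
    · ext1 j
      apply toAdd.injective
      ext i
      simp [φ, map_list_prod, List.map_ofFn, List.prod_ofFn, expSum_of, toAdd_prod,
        Pi.single_apply]
  refine square (fun i => φ (w i)) hd (fun i j => ?_) g ?_
  · have h1 := DFunLike.congr_fun hφ (w i)
    have h2 := congrFun (congrFun hB i) j
    rw [MonoidHom.comp_apply] at h1
    rw [h1]
    simpa [Matrix.mul_apply, expMatrix, vecMul, dotProduct, one_apply] using h2
  · have : Subgroup.normalClosure (Set.range w) ≤
        (Subgroup.normalClosure (Set.range fun i => φ (w i))).comap φ := by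
      refine Subgroup.normalClosure_le_normal ?_
      rintro _ ⟨i, rfl⟩
      exact Subgroup.subset_normalClosure ⟨i, rfl⟩
    simpa [φ] using this hg

end Vale.Agent.P174
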