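import Vale.Agent.P174.Proj
import Mathlib.Analysis.SpecialFunctions.Trigonometric.Deriv

/-! Polar coordinates on complex projective space and the top power of the Kaehler form. -/

open Finset Function Matrix Complex
open scoped ContDiff Real

namespace Vale.Agent.P174

variable {ι : Type} [Fintype ι] [DecidableEq ι]

lemma pd_eq {u : (ι → ℝ) → ℂ} (hu : Sm u) {b : ι} {x : ι → ℝ} {c : ℂ}
    (h : HasDerivAt (fun t => u (update x b t)) c (x b)) : pd b u x = c := by
  have := hasDerivAt_pd hu b x (x b)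
  rw [update_eq_self] at this
  exact this.unique h

lemma pd_eq_zero {u : (ι → ℝ) → ℂ} (hu : Sm u) {S : Finset ι} (hS : DependsOn u S) {b : ι}
    (hb : b ∉ S) (x : ι → ℝ) : pd b u x = 0 := by
  apply pd_eq hu
  have : (fun t => u (update x b t)) = fun _ => u x := funext fun t => hS fun i hi =>
    update_of_ne (fun e : i = b => hb (e ▸ hi)) _ _
  rw [this]; exact hasDerivAt_const _ _

lemma One.deg_zero (S : Finset ι) {η : Fk ι} (hη : η ∈ One) : η ∈ Deg S 0 :=
  (Submodule.span_le.2 (by rintro _ ⟨b, rfl⟩; exact Deg.cre_zero S b) : One ≤ Deg S 0) hη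

lemma d0_sub_mem_Deg {u : (ι → ℝ) → ℂ} (hu : Sm u) {S : Finset ι} {b0 : ι}
    (hS : DependsOn u (insert b0 S : Finset ι)) (x : ι → ℝ) :
    d0 u x - pd b0 u x • cre b0 ∈ Deg S 1 := by
  rw [d0, ← Finset.sum_erase_eq_sub (mem_univ b0)]
  refine Submodule.sum_mem _ fun b hb => ?_
  by_cases h : b ∈ S
  · exact Submodule.smul_mem _ _ (Deg.cre_one h)
  · rw [pd_eq_zero hu hS (by simp [h, ne_of_mem_erase hb]), zero_smul]; exact zero_mem _

lemma d0_mem_Deg {u : (ι → ℝ) → ℂ} (hu : Sm u) {S : Finset ι} (hS : DependsOn u S) (x : ι → ℝ) :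
    d0 u x ∈ Deg S 1 := by
  refine Submodule.sum_mem _ fun b _ => ?_
  by_cases h : b ∈ S
  · exact Submodule.smul_mem _ _ (Deg.cre_one h)
  · rw [pd_eq_zero hu hS h, zero_smul]; exact zero_mem _

lemma d0_exp {u : (ι → ℝ) → ℂ} (hu : Sm u) (x : ι → ℝ) :
    d0 (fun y => cexp (u y)) x = cexp (u x) • d0 u x := by
  simp only [d0, Finset.smul_sum, smul_smul]
  refine Finset.sum_congr rfl fun b _ => ?_
  have := (hasDerivAt_pd hu b x (x b)).cexp
  rw [update_eq_self] at this
  rw [pd_eq hu.cexp this]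

lemma d0_coord (b : ι) (x : ι → ℝ) : d0 (fun y : ι → ℝ => (y b : ℂ)) x = cre b := by
  rw [d0, Finset.sum_eq_single b _ (by simp)]
  · rw [pd_eq (c := 1) (sm_coord b) (by simpa using (hasDerivAt_id (x b)).ofReal_comp), one_smul]
  · intro c _ hc
    rw [pd_eq_zero (S := {b}) (sm_coord b) (fun y y' h => by simp [h b]) (by simpa using hc),
      zero_smul]

lemma d0_const_mul (c : ℂ) {u : (ι → ℝ) → ℂ} (hu : Sm u) (x : ι → ℝ) :
    d0 (fun y => c * u y) x = c • d0 u x := by
  rw [d0_mul contDiff_const hu, d0_const, smul_zero, zero_add]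

lemma d0_polar {r φ : (ι → ℝ) → ℂ} (hr : Sm r) (hφ : Sm φ) (x : ι → ℝ) :
    d0 (fun y => r y * cexp (-I * φ y)) x * d0 (fun y => r y * cexp (I * φ y)) x =
      (2 * I * r x) • (d0 r x * d0 φ x) := by
  have h1 : ∀ c : ℂ, Sm fun y => c * φ y := fun c => contDiff_const.mul hφ
  rw [d0_mul hr (h1 _).cexp, d0_mul hr (h1 _).cexp, d0_exp (h1 _), d0_exp (h1 _),
    d0_const_mul _ hφ, d0_const_mul _ hφ]
  have e : cexp (-I * φ x) * cexp (I * φ x) = 1 := by rw [← Complex.exp_add]; simp
  have c1 := One.comm (d0_mem_One φ x) (One.par (d0_mem_One r x))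
  simp only [add_mul, mul_add, smul_mul_smul_comm, One.mul_self (d0_mem_One _ _), c1, smul_smul,
    smul_zero, zero_add, add_zero, ← add_smul]
  congr 1
  linear_combination (2 * I * r x) * e

lemma add_pow_sq_zero {R : Type*} [Ring R] {a b : R} (h : Commute a b) (hb : b * b = 0) (k : ℕ) :
    (a + b) ^ (k + 1) = a ^ (k + 1) + (k + 1) • (a ^ k * b) := by
  induction k with
  | zero => simp
  | succ k ih =>
    rw [pow_succ, ih, add_mul, mul_add, mul_add, smul_mul_assoc, smul_mul_assoc, mul_assoc _ b b,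
      hb, mul_assoc _ b a, ← h.eq, ← mul_assoc, ← pow_succ, ← pow_succ, succ_nsmul _ (k + 1)]
    simp only [mul_zero, smul_zero, add_zero]
    abel

variable (cθ cφ : ℕ → ι)

/-- Product of cosines. -/
noncomputable def cp (a : ℕ) (x : ι → ℝ) : ℝ := ∏ b ∈ range a, Real.cos (π / 2 * x (cθ b))

/-- The modulus of a coordinate. -/
noncomputable def rd (a : ℕ) (x : ι → ℝ) : ℝ := Real.sin (π / 2 * x (cθ a)) * cp cθ a x

/-- The unit vector. -/
noncomputable def vec (n l : ℕ) (x : ι → ℝ) : Matrix (Fin n) Unit ℂ := Matrix.of fun a _ =>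
  if a < l then rd cθ a x * cexp (I * (2 * π * x (cφ a))) else if a = l then cp cθ l x else 0

omit [DecidableEq ι] in
lemma sm_cp (a : ℕ) : Sm (cp cθ a) :=
  contDiff_prod fun b _ => (contDiff_const.mul (contDiff_apply ℝ ℝ (cθ b))).cos

omit [DecidableEq ι] in
lemma sm_rd (a : ℕ) : Sm (rd cθ a) :=
  (contDiff_const.mul (contDiff_apply ℝ ℝ (cθ a))).sin.mul (sm_cp cθ a)

omit [DecidableEq ι] in
lemma Sm.ofReal {u : (ι → ℝ) → ℝ} (hu : Sm u) : Sm fun x => (u x : ℂ) :=
  Complex.ofRealCLM.contDiff.comp hu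

omit [DecidableEq ι] in
lemma sm_vec (n l : ℕ) : MSm (vec cθ cφ n l) := fun a _ => by
  simp only [vec, of_apply]
  split_ifs
  · exact (sm_rd cθ a).ofReal.mul (contDiff_const.mul (contDiff_const.mul (sm_coord _))).cexp
  · exact (sm_cp cθ l).ofReal
  · exact contDiff_const

omit [Fintype ι] [DecidableEq ι] in
lemma sum_rd (l : ℕ) (x : ι → ℝ) : ∑ a ∈ range l, rd cθ a x ^ 2 + cp cθ l x ^ 2 = 1 := by
  induction l with
  | zero => simp [cp]
  | succ l ih =>
    rw [Finset.sum_range_succ, cp, Finset.prod_range_succ, ← cp, ← ih, rd]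
    linear_combination cp cθ l x ^ 2 * Real.sin_sq_add_cos_sq (π / 2 * x (cθ l))

lemma sum_fin_ite {M : Type*} [AddCommMonoid M] {n l : ℕ} (h : l < n) (f : ℕ → M) (c : M) :
    ∑ a : Fin n, (if (a : ℕ) < l then f a else if (a : ℕ) = l then c else 0) =
      ∑ a ∈ range l, f a + c := by
  rw [Fin.sum_univ_eq_sum_range (fun a => if a < l then f a else if a = l then c else 0),
    ← Finset.sum_subset (range_subset_range.2 (Nat.succ_le_of_lt h)), Finset.sum_range_succ]
  · simp only [lt_irrefl, if_false, if_true]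
    congr 1
    exact Finset.sum_congr rfl fun a ha => if_pos (mem_range.1 ha)
  · intro a _ ha
    rw [mem_range] at ha
    rw [if_neg (by omega), if_neg (by omega)]

omit [Fintype ι] [DecidableEq ι] in
lemma star_polar (r t : ℝ) : star ((r : ℂ) * cexp (I * (2 * π * t))) =
    r * cexp (-I * (2 * π * t)) := by
  simp [← Complex.exp_conj, conj_ofNat]

omit [Fintype ι] [DecidableEq ι] in
lemma vec_norm {n l : ℕ} (h : l < n) (x : ι → ℝ) :
    (vec cθ cφ n l x)ᴴ * vec cθ cφ n l x = 1 := by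
  ext ⟨⟩ ⟨⟩
  have := congrArg (fun r : ℝ => (r : ℂ)) (sum_rd cθ l x)
  simp only [ofReal_add, ofReal_sum, ofReal_pow, ofReal_one] at this
  rw [one_apply_eq, ← this, ← sum_fin_ite h (fun a => (rd cθ a x : ℂ) ^ 2), Matrix.mul_apply]
  refine Finset.sum_congr rfl fun a _ => ?_
  simp only [conjTranspose_apply, vec, of_apply]
  split_ifs
  · rw [star_polar, mul_mul_mul_comm, ← Complex.exp_add]; simp [sq]
  · simp [sq]
  · simp

/-- One summand of the Kaehler form. -/
noncomputable def tau (a : ℕ) (x : ι → ℝ) : Fk ι :=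
  (4 * π * I * rd cθ a x : ℂ) • (d0 (fun y => (rd cθ a y : ℂ)) x * cre (cφ a))

lemma sigma_eq {n l : ℕ} (h : l < n) (x : ι → ℝ) :
    (D (fun y => (vec cθ cφ n l y)ᴴ) x * D (vec cθ cφ n l) x) () () =
      ∑ a ∈ range l, tau cθ cφ a x := by
  rw [← add_zero (∑ a ∈ range l, _), ← sum_fin_ite h (fun a => tau cθ cφ a x), Matrix.mul_apply]
  refine Finset.sum_congr rfl fun a _ => ?_
  simp only [D_apply, conjTranspose_apply, vec, of_apply]
  split_ifs
  · simp only [star_polar]
    rw [d0_polar (sm_rd cθ a).ofReal (contDiff_const.mul (sm_coord _)),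
      d0_const_mul _ (sm_coord _), d0_coord, tau, mul_smul_comm, smul_smul]
    congr 1; ring
  · simp only [RCLike.star_def, conj_ofReal]
    exact One.mul_self (d0_mem_One _ _)
  · simp [d0_const]

omit [Fintype ι] in
lemma dep_rd (a : ℕ) : DependsOn (fun y => (rd cθ a y : ℂ)) ((range (a + 1)).image cθ : Finset ι) := by
  intro x y h
  have h' : ∀ b, b < a + 1 → x (cθ b) = y (cθ b) := fun b hb =>
    h _ (by simpa using ⟨b, by omega, rfl⟩)
  simp only [rd, cp, h' a (by omega)]
  rw [Finset.prod_congr rfl fun b hb => by rw [h' b (by have := mem_range.1 hb; omega)]]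

lemma tau_deg {a k : ℕ} (h : a < k) (x : ι → ℝ) : tau cθ cφ a x ∈ Deg ((range k).image cθ) 1 :=
  Submodule.smul_mem _ _ (Deg.mul (l := 0) (d0_mem_Deg (sm_rd cθ a).ofReal
    ((dep_rd cθ a).mono (coe_subset.2 (image_subset_image (range_subset_range.2 h)))) x)
    (Deg.cre_zero _ _))

lemma pd_rd {a : ℕ} (h : ∀ b < a, cθ b ≠ cθ a) (x : ι → ℝ) :
    pd (cθ a) (fun y => (rd cθ a y : ℂ)) x = (π / 2 * cp cθ (a + 1) x : ℝ) := by
  apply pd_eq (sm_rd cθ a).ofReal
  apply HasDerivAt.ofReal_comp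
  have e : ∀ t, cp cθ a (update x (cθ a) t) = cp cθ a x := fun t =>
    Finset.prod_congr rfl fun b hb => by rw [update_of_ne (h b (mem_range.1 hb))]
  simp only [rd, e, update_self]
  have := (((hasDerivAt_id (x (cθ a))).const_mul (π / 2)).sin).mul_const (cp cθ a x)
  refine this.congr_deriv ?_
  rw [cp, cp, Finset.prod_range_succ]
  simp only [id]
  ring

/-- The list of angular coordinates. -/
def wl : ℕ → List ι
  | 0 => []
  | k + 1 => wl k ++ [cθ k, cφ k]

lemma sigma_pow (k : ℕ) (h : ∀ a < k, ∀ b < a, cθ b ≠ cθ a) (x : ι → ℝ) :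
    (∑ a ∈ range k, tau cθ cφ a x) ^ k =
      ((k.factorial * (2 * π ^ 2 * I) ^ k : ℂ) *
        (∏ a ∈ range k, rd cθ a x * cp cθ (a + 1) x : ℝ)) • ((wl cθ cφ k).map cre).prod := by
  induction k with
  | zero => simp [wl]
  | succ k ih =>
    have ih' := ih fun a ha => h a (by omega)
    set S := ∑ a ∈ range k, tau cθ cφ a x with hS
    have hdeg : S ∈ Deg ((range k).image cθ) 1 :=
      Submodule.sum_mem _ fun a ha => tau_deg cθ cφ (mem_range.1 ha) x
    have hcard : ((range k).image cθ).card < 1 * k + 1 := by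
      have := card_image_le (s := range k) (f := cθ); rw [card_range] at this; omega
    have hpar : S ∈ Par (1 + 1) := Submodule.sum_mem _ fun a _ => Submodule.smul_mem _ _
      (Par.mul (One.par (d0_mem_One _ _)) (Par.cre _))
    have o1 := d0_mem_One (fun y => (rd cθ k y : ℂ)) x
    have o2 : cre (cφ k) ∈ One := cre_mem_One _
    have hc : Commute S (tau cθ cφ k x) := by
      refine Commute.smul_right (Commute.mul_right ?_ ?_) _
      · simpa [Commute, SemiconjBy] using (One.comm o1 hpar).symm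
      · simpa [Commute, SemiconjBy] using (One.comm o2 hpar).symm
    have ht : tau cθ cφ k x * tau cθ cφ k x = 0 := by
      rw [tau, smul_mul_smul_comm, mul_assoc (d0 _ _), ← mul_assoc (cre _),
        One.comm o2 (One.par o1), smul_mul_assoc, mul_assoc (d0 _ _), cre_mul_self]
      simp
    have h0 : S ^ (k + 1) = 0 := by
      rw [pow_succ]; exact Deg.eq_zero hcard (Deg.mul (Deg.pow hdeg k) hdeg)
    have h1 : S ^ k * (d0 (fun y => (rd cθ k y : ℂ)) x -
        pd (cθ k) (fun y => (rd cθ k y : ℂ)) x • cre (cθ k)) = 0 := by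
      refine Deg.eq_zero hcard (Deg.mul (Deg.pow hdeg k) (d0_sub_mem_Deg (sm_rd cθ k).ofReal ?_ x))
      have := dep_rd cθ k
      rwa [range_add_one, image_insert] at this
    rw [mul_sub, sub_eq_zero, pd_rd cθ (h k (by omega))] at h1
    rw [Finset.sum_range_succ, ← hS, add_pow_sq_zero hc ht, h0, zero_add, tau, mul_smul_comm,
      ← mul_assoc, h1, ih', wl, Finset.prod_range_succ, ← Nat.cast_smul_eq_nsmul ℂ]
    simp only [mul_smul_comm, smul_mul_assoc, smul_smul, List.map_append, List.prod_append,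
      List.map_cons, List.map_nil, List.prod_cons, List.prod_nil, mul_one, mul_assoc]
    congr 1
    push_cast [Nat.factorial_succ]
    ring

end Vale.Agent.P174
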